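import Vale.Agent.P021.MathlibUsed
import Vale.Agent.P021.Bdl.B1

set_option linter.all false

section

namespace Vale.Agent.P021.Det.B

open Vale.Agent.P021.Det

set_option maxRecDepth 100000

/-- the factors -/
def cfs : List Fac :=
  [.quad (-15) 1342, .quad (-46) 1363, .quad (-77) 1385, .quad (-108) 1406, .quad (-138) 1428,
   .quad (-169) 1449, .quad (-200) 1471, .quad (-230) 1492, .quad (-261) 1514,
   .quad (-292) 1535, .quad (-323) 1557, .quad (-353) 1578, .quad (-384) 1600,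
   .quad (-415) 1621, .quad (-445) 1643, .quad (-476) 1664, .quad (-507) 1686,
   .quad (-538) 1707, .quad (-568) 1729, .quad (-599) 1750, .quad (-630) 1772,
   .quad (-660) 1793, .quad (-691) 1815, .quad (-722) 1836, .quad (-753) 1858, .im 1306,
   .im 1254, .im 1203, .im 1152, .im 1101, .im 1050, .im 998, .im 947, .im 896, .im 845,
   .im 794, .im 742, .re 8294, .re 0]

/-- the levels: exponents and bounds -/
def clev : List (List ℕ × ℤ) :=
  [([0, 0, 0, 0, 0, 0, 0, 0, 0, 0, 0, 0, 0, 0, 0, 0, 0, 0, 0, 0, 0, 0, 0, 0, 0, 0, 0, 0, 0,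
     0, 0, 0, 0, 0, 0, 0, 0, 0, 0], -27033337856),
   ([0, 0, 0, 1, 4, 2, 5, 4, 5, 4, 4, 1, 0, 0, 0, 0, 0, 0, 0, 0, 0, 0, 0, 0, 0, 0, 0, 0, 0,
     0, 0, 0, 0, 0, 0, 0, 0, 0, 0], -27170701312),
   ([0, 1, 2, 3, 6, 5, 4, 8, 6, 6, 8, 4, 7, 0, 0, 0, 0, 0, 0, 0, 0, 0, 0, 0, 0, 0, 0, 0, 0,
     0, 0, 0, 0, 0, 0, 0, 0, 0, 0], -27248295936),
   ([0, 4, 4, 5, 5, 7, 7, 8, 9, 9, 9, 10, 8, 8, 5, 0, 0, 0, 0, 0, 0, 0, 0, 0, 0, 1, 3, 0,
     0, 0, 0, 0, 0, 0, 0, 0, 0, 0, 0], -27313307648),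
   ([1, 4, 4, 7, 6, 10, 8, 10, 11, 11, 11, 12, 12, 12, 9, 11, 2, 0, 0, 0, 0, 0, 0, 0, 0, 3,
     5, 5, 5, 0, 0, 0, 0, 0, 0, 0, 0, 0, 0], -27351056384),
   ([2, 4, 5, 8, 8, 10, 10, 11, 12, 13, 14, 13, 17, 12, 16, 10, 15, 3, 0, 0, 0, 0, 0, 0, 0,
     5, 5, 9, 6, 8, 1, 0, 0, 0, 0, 0, 0, 0, 0], -27355250688),
   ([2, 5, 6, 8, 9, 12, 11, 13, 14, 15, 14, 17, 16, 17, 15, 19, 12, 16, 4, 0, 0, 0, 0, 0,
     0, 2, 11, 7, 12, 7, 10, 1, 0, 0, 0, 0, 0, 0, 0], -27335327744),
   ([2, 6, 6, 10, 9, 13, 12, 14, 15, 16, 18, 16, 21, 16, 21, 16, 22, 13, 17, 3, 0, 0, 0, 0,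
     0, 5, 9, 11, 11, 12, 11, 9, 0, 0, 0, 0, 0, 0, 0], -27296530432),
   ([1, 6, 8, 11, 10, 14, 13, 15, 17, 18, 18, 20, 19, 21, 20, 23, 19, 21, 16, 16, 1, 0, 0,
     0, 0, 7, 8, 14, 11, 15, 12, 13, 6, 0, 0, 0, 0, 0, 0], -27243053056),
   ([2, 7, 8, 11, 10, 15, 15, 17, 16, 20, 19, 21, 21, 24, 21, 25, 22, 23, 19, 24, 8, 0, 0,
     0, 0, 6, 12, 11, 17, 12, 19, 10, 15, 2, 0, 0, 0, 0, 0], -27175944192),
   ([1, 8, 9, 12, 11, 16, 15, 17, 19, 20, 22, 20, 26, 21, 28, 22, 29, 21, 28, 18, 23, 3, 0,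
     0, 0, 6, 14, 12, 18, 14, 19, 14, 16, 9, 0, 0, 0, 0, 0], -27097300992),
   ([2, 9, 8, 13, 12, 16, 16, 20, 19, 22, 21, 24, 25, 25, 27, 26, 28, 27, 27, 25, 23, 15,
     0, 0, 0, 6, 13, 16, 16, 19, 17, 20, 14, 16, 3, 0, 0, 0, 0], -27012366336),
   ([0, 8, 8, 16, 14, 17, 18, 19, 21, 23, 22, 26, 25, 28, 26, 30, 29, 29, 27, 32, 20, 29,
     3, 0, 0, 11, 12, 17, 16, 22, 17, 23, 14, 20, 8, 0, 0, 0, 0], -26910654464),
   ([1, 9, 11, 15, 13, 18, 18, 20, 22, 24, 24, 28, 26, 29, 28, 32, 30, 32, 29, 34, 24, 33,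
     12, 0, 0, 9, 15, 13, 22, 17, 24, 19, 23, 15, 18, 1, 0, 0, 0], -26808942592),
   ([4, 8, 9, 15, 14, 19, 18, 22, 23, 25, 25, 26, 32, 27, 33, 29, 36, 30, 36, 30, 36, 23,
     30, 2, 0, 9, 17, 15, 23, 18, 25, 20, 24, 18, 21, 6, 0, 0, 0], -26700939264),
   ([1, 12, 10, 15, 15, 20, 19, 23, 23, 26, 27, 27, 32, 29, 35, 32, 37, 31, 39, 32, 37, 27,
     35, 10, 0, 7, 18, 16, 23, 20, 26, 23, 24, 21, 21, 13, 0, 0, 0], -26581401600),
   ([1, 11, 11, 16, 15, 21, 19, 23, 25, 26, 28, 27, 33, 29, 36, 32, 39, 32, 40, 33, 40, 27,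
     39, 15, 0, 10, 14, 20, 21, 23, 23, 28, 21, 27, 17, 19, 1, 0, 0], -26512195584),
   ([1, 10, 12, 17, 16, 21, 19, 24, 25, 27, 27, 31, 30, 34, 32, 37, 35, 37, 35, 43, 32, 38,
     30, 26, 0, 12, 13, 20, 21, 25, 22, 29, 22, 27, 18, 22, 2, 9, 0], -26330791936),
   ([3, 10, 10, 17, 14, 21, 20, 24, 25, 28, 27, 31, 30, 34, 33, 37, 35, 39, 35, 42, 34, 38,
     31, 29, 0, 9, 15, 22, 21, 26, 23, 28, 23, 28, 18, 23, 3, 46, 1], -25827475456),
   ([3, 10, 11, 16, 16, 21, 20, 24, 26, 28, 26, 32, 32, 34, 32, 38, 36, 39, 35, 44, 33, 39,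
     32, 31, 2, 10, 14, 23, 20, 26, 23, 30, 22, 28, 18, 24, 4, 98, 0], -25129123840),
   ([1, 12, 12, 16, 16, 22, 20, 24, 26, 28, 27, 32, 31, 34, 34, 37, 37, 38, 37, 44, 34, 40,
     32, 32, 5, 11, 14, 21, 21, 26, 24, 30, 22, 28, 19, 25, 5, 152, 0], -24408752128),
   ([1, 11, 11, 16, 15, 22, 21, 25, 25, 28, 27, 33, 30, 36, 34, 37, 37, 40, 36, 44, 34, 42,
     32, 34, 6, 14, 17, 22, 22, 27, 24, 30, 22, 29, 19, 26, 6, 207, 1], -23664263168),
   ([3, 10, 10, 16, 17, 22, 20, 24, 25, 29, 28, 32, 32, 35, 34, 38, 38, 40, 36, 46, 35, 40,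
     33, 37, 7, 12, 18, 23, 22, 28, 24, 30, 23, 29, 19, 27, 7, 264, 0], -22907191296),
   ([1, 11, 12, 18, 16, 23, 21, 24, 26, 29, 28, 33, 32, 35, 34, 39, 38, 39, 39, 46, 35, 41,
     34, 39, 9, 9, 17, 22, 21, 28, 24, 31, 23, 30, 19, 28, 7, 337, 0], -21946695680)]

/-- the degrees -/
def cdeg : List ℕ := [0, 60, 120, 200, 300, 400, 500, 600, 700, 800, 900, 1000, 1100, 1200, 1300, 1400, 1460,
   1520, 1580, 1660, 1740, 1820, 1900, 2000]

/-- subdivision 0_0 -/
def part0_0 : List ℕ :=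
  [128, 256, 384, 448, 512, 544, 560, 576, 580, 588, 596, 604]

theorem chk0_0 : runSegm cfs 1200 2600 5200 clev 0 (0, 0) (0, 1331) 0 part0_0 = true := by
  decide +kernel

/-- subdivision 0_1 -/
def part0_1 : List ℕ :=
  [612, 620, 624, 628, 632, 636, 640, 648, 656, 660, 664, 672]

theorem chk0_1 : runSegm cfs 1200 2600 5200 clev 0 (0, 0) (0, 1331) 604 part0_1 = true := by
  decide +kernel

/-- subdivision 0_2 -/
def part0_2 : List ℕ :=
  [676, 684, 692, 700, 704, 708, 712, 716, 720, 728, 736, 740]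

theorem chk0_2 : runSegm cfs 1200 2600 5200 clev 0 (0, 0) (0, 1331) 672 part0_2 = true := by
  decide +kernel

/-- subdivision 0_3 -/
def part0_3 : List ℕ :=
  [744, 748, 752, 756, 764, 772, 780, 784, 788, 792, 796, 804]

theorem chk0_3 : runSegm cfs 1200 2600 5200 clev 0 (0, 0) (0, 1331) 740 part0_3 = true := by
  decide +kernel

/-- subdivision 0_4 -/
def part0_4 : List ℕ :=
  [812, 820, 824, 828, 832, 836, 844, 852, 856, 860, 864, 872]

theorem chk0_4 : runSegm cfs 1200 2600 5200 clev 0 (0, 0) (0, 1331) 804 part0_4 = true := by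
  decide +kernel

/-- subdivision 0_5 -/
def part0_5 : List ℕ :=
  [876, 884, 892, 900, 904, 912, 916, 924, 932, 936, 940, 948]

theorem chk0_5 : runSegm cfs 1200 2600 5200 clev 0 (0, 0) (0, 1331) 872 part0_5 = true := by
  decide +kernel

/-- subdivision 0_6 -/
def part0_6 : List ℕ :=
  [952, 960, 968, 976, 984, 988, 996, 1012, 1024]

theorem chk0_6 : runSegm cfs 1200 2600 5200 clev 0 (0, 0) (0, 1331) 948 part0_6 = true := by
  decide +kernel

/-- subdivision 0 -/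
def part0 : List ℕ :=
  part0_0 ++ (part0_1 ++ (part0_2 ++ (part0_3 ++ (part0_4 ++ (part0_5 ++ part0_6)))))

theorem chk0 : runSegm cfs 1200 2600 5200 clev 0 (0, 0) (0, 1331) 0 part0 = true :=
  runSegm_app chk0_0 (by decide) (runSegm_app chk0_1 (by decide) (runSegm_app chk0_2 (by decide) (runSegm_app chk0_3 (by decide) (runSegm_app chk0_4 (by decide) (runSegm_app chk0_5 (by decide) chk0_6)))))

/-- subdivision 1_0 -/
def part1_0 : List ℕ :=
  [8, 16, 24, 32, 48, 56, 64, 72, 80, 88, 96, 104, 112]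

theorem chk1_0 : runSegm cfs 1200 2600 5200 clev 0 (0, 1331) (-1024, 2048) 0 part1_0 = true := by
  decide +kernel

/-- subdivision 1_1 -/
def part1_1 : List ℕ :=
  [120, 128, 136, 144, 148, 152, 156, 160, 168, 176, 180, 188, 192]

theorem chk1_1 : runSegm cfs 1200 2600 5200 clev 0 (0, 1331) (-1024, 2048) 112 part1_1 = true := by
  decide +kernel

/-- subdivision 1_2 -/
def part1_2 : List ℕ :=
  [200, 208, 212, 216, 220, 228, 236, 240, 244, 248, 252, 260, 268]

theorem chk1_2 : runSegm cfs 1200 2600 5200 clev 0 (0, 1331) (-1024, 2048) 192 part1_2 = true := by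
  decide +kernel

/-- subdivision 1_3 -/
def part1_3 : List ℕ :=
  [272, 276, 280, 284, 292, 300, 304, 308, 312, 316, 324, 332, 336]

theorem chk1_3 : runSegm cfs 1200 2600 5200 clev 0 (0, 1331) (-1024, 2048) 268 part1_3 = true := by
  decide +kernel

/-- subdivision 1_4 -/
def part1_4 : List ℕ :=
  [340, 344, 352, 360, 364, 368, 372, 376, 384, 392, 396, 400, 402]

theorem chk1_4 : runSegm cfs 1200 2600 5200 clev 0 (0, 1331) (-1024, 2048) 336 part1_4 = true := by
  decide +kernel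

/-- subdivision 1_5 -/
def part1_5 : List ℕ :=
  [406, 414, 422, 426, 430, 434, 438, 446, 454, 458, 462, 466, 470]

theorem chk1_5 : runSegm cfs 1200 2600 5200 clev 0 (0, 1331) (-1024, 2048) 402 part1_5 = true := by
  decide +kernel

/-- subdivision 1_6 -/
def part1_6 : List ℕ :=
  [478, 482, 486, 490, 494, 498, 506, 514, 518, 522, 524, 528, 532]

theorem chk1_6 : runSegm cfs 1200 2600 5200 clev 0 (0, 1331) (-1024, 2048) 470 part1_6 = true := by
  decide +kernel

/-- subdivision 1_7 -/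
def part1_7 : List ℕ :=
  [540, 544, 548, 552, 556, 560, 564, 572, 576, 580, 584, 588, 592]

theorem chk1_7 : runSegm cfs 1200 2600 5200 clev 0 (0, 1331) (-1024, 2048) 532 part1_7 = true := by
  decide +kernel

/-- subdivision 1_8 -/
def part1_8 : List ℕ :=
  [600, 608, 612, 616, 620, 624, 632, 636, 640, 642, 646, 650, 654]

theorem chk1_8 : runSegm cfs 1200 2600 5200 clev 0 (0, 1331) (-1024, 2048) 592 part1_8 = true := by
  decide +kernel

/-- subdivision 1_9 -/
def part1_9 : List ℕ :=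
  [662, 666, 670, 674, 678, 680, 684, 692, 696, 700, 704, 708, 712]

theorem chk1_9 : runSegm cfs 1200 2600 5200 clev 0 (0, 1331) (-1024, 2048) 654 part1_9 = true := by
  decide +kernel

/-- subdivision 1_10 -/
def part1_10 : List ℕ :=
  [716, 724, 728, 732, 736, 738, 742, 746, 754, 770, 786, 818, 882]

theorem chk1_10 : runSegm cfs 1200 2600 5200 clev 0 (0, 1331) (-1024, 2048) 712 part1_10 = true := by
  decide +kernel

/-- subdivision 1_11 -/
def part1_11 : List ℕ :=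
  [1010, 1024]

theorem chk1_11 : runSegm cfs 1200 2600 5200 clev 0 (0, 1331) (-1024, 2048) 882 part1_11 = true := by
  decide +kernel

/-- subdivision 1 -/
def part1 : List ℕ :=
  part1_0 ++ (part1_1 ++ (part1_2 ++ (part1_3 ++ (part1_4 ++ (part1_5 ++ (part1_6 ++ (part1_7 ++ (part1_8 ++ (part1_9 ++ (part1_10 ++ part1_11))))))))))

theorem chk1 : runSegm cfs 1200 2600 5200 clev 0 (0, 1331) (-1024, 2048) 0 part1 = true :=
  runSegm_app chk1_0 (by decide) (runSegm_app chk1_1 (by decide) (runSegm_app chk1_2 (by decide) (runSegm_app chk1_3 (by decide) (runSegm_app chk1_4 (by decide) (runSegm_app chk1_5 (by decide) (runSegm_app chk1_6 (by decide) (runSegm_app chk1_7 (by decide) (runSegm_app chk1_8 (by decide) (runSegm_app chk1_9 (by decide) (runSegm_app chk1_10 (by decide) chk1_11))))))))))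

/-- subdivision 2_0 -/
def part2_0 : List ℕ :=
  [32, 64, 128, 160, 192, 224, 256, 288, 320, 336]

theorem chk2_0 : runSegm cfs 1200 2600 5200 clev 68981620736 (8704, 0) (7680, 2560) 0 part2_0 = true := by
  decide +kernel

/-- subdivision 2_1 -/
def part2_1 : List ℕ :=
  [368, 400, 416, 448, 480, 544, 672, 928, 1024]

theorem chk2_1 : runSegm cfs 1200 2600 5200 clev 68981620736 (8704, 0) (7680, 2560) 336 part2_1 = true := by
  decide +kernel

/-- subdivision 2 -/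
def part2 : List ℕ :=
  part2_0 ++ part2_1

theorem chk2 : runSegm cfs 1200 2600 5200 clev 68981620736 (8704, 0) (7680, 2560) 0 part2 = true :=
  runSegm_app chk2_0 (by decide) chk2_1

/-- subdivision 3_0 -/
def part3_0 : List ℕ :=
  [128, 384, 640, 896, 1024]

theorem chk3_0 : runSegm cfs 1200 2600 5200 clev 68981620736 (7680, 2560) (3072, 4608) 0 part3_0 = true := by
  decide +kernel

/-- subdivision 3 -/
def part3 : List ℕ :=
  part3_0

theorem chk3 : runSegm cfs 1200 2600 5200 clev 68981620736 (7680, 2560) (3072, 4608) 0 part3 = true :=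
  chk3_0

/-- subdivision 4_0 -/
def part4_0 : List ℕ :=
  [128, 384, 640, 896, 1024]

theorem chk4_0 : runSegm cfs 1200 2600 5200 clev 68981620736 (3072, 4608) (-2048, 0) 0 part4_0 = true := by
  decide +kernel

/-- subdivision 4 -/
def part4 : List ℕ :=
  part4_0

theorem chk4 : runSegm cfs 1200 2600 5200 clev 68981620736 (3072, 4608) (-2048, 0) 0 part4 = true :=
  chk4_0

end Vale.Agent.P021.Det.B
end

section

open Polynomial

namespace Vale.Agent.P021.Det

theorem good2_S1 : ∀ s ∈ S1, GoodC B.cfs 1200 2600 5200 B.clev 0 s := by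
  rintro s (hs | hs)
  · exact runSegm_segment (by decide) (by decide) B.chk0 s hs
  · exact runSegm_segment (by decide) (by decide) B.chk1 s hs

theorem good2_T1 : ∀ s ∈ T1, GoodC B.cfs 1200 2600 5200 B.clev 68981620736 s := by
  rintro s (hs | hs | hs)
  · exact runSegm_segment (by decide) (by decide) B.chk2 s hs
  · exact runSegm_segment (by decide) (by decide) B.chk3 s hs
  · exact runSegm_segment (by decide) (by decide) B.chk4 s hs

theorem clev2_mem (j : ℕ) (hj : j ≤ 23) : B.clev.getD j ([], 0) ∈ B.clev := by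
  have h : j < B.clev.length := by
    have : B.clev.length = 24 := by decide
    omega
  rw [List.getD_eq_getElem _ _ h]
  exact List.getElem_mem h

theorem clev2_len (j : ℕ) (hj : j ≤ 23) :
    (B.clev.getD j ([], 0)).1.length ≤ B.cfs.length := by
  interval_cases j <;> decide

/-- the second certificate -/
noncomputable def cert2 : Cert 2000 2400 5200 10400 23 (65786 * Real.log 2) S1 T1 where
  F j := prodF B.cfs (B.clev.getD j ([], 0)).1
  d j := B.cdeg.getD j 0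
  L j := ((B.clev.getD j ([], 0)).2 : ℝ) * cu
  monic j _ := prodF_monic _ _
  deg j hj := by
    rw [prodF_natDegree]
    interval_cases j <;> decide
  d_zero := by decide
  d_last := by decide
  d_lt j hj := by
    interval_cases j <;> decide
  path j hj s hs := by
    have h := good2_S1 s hs _ (clev2_mem j hj) (clev2_len j hj)
    simpa using h
  circ j hj s hs := by
    have h := good2_T1 s hs _ (clev2_mem j hj) (clev2_len j hj)
    have e : ((B.clev.getD j ([], 0)).2 : ℝ) * cu + 65786 * Real.log 2 =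
        (((B.clev.getD j ([], 0)).2 : ℝ) + ((68981620736 : ℤ) : ℝ)) * cu := by
      unfold cu
      push_cast
      ring
    rw [e]
    exact h

theorem cert2_total : cert2.total = -50311780 * Real.log 2 := by
  unfold Cert.total
  simp only [cert2, Finset.sum_range_succ, Finset.sum_range_zero, B.cdeg, B.clev,
    List.getD_cons_zero, List.getD_cons_succ, cu]
  push_cast
  ring

end Vale.Agent.P021.Det
end
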