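import Vale.Agent.P021.MathlibUsed
import Vale.Agent.P021.Bdl.B1
import Vale.Agent.P021.Bdl.B2

set_option linter.all false

section

/-! P021, determinant method: the functional at `π` as an integral along a polygon. -/

open Polynomial Filter Topology

namespace Vale.Agent.P021.Det

/-- the strip `|Re s| < 5` -/
def Path_strip : Set ℂ := {s : ℂ | |s.re| < 5}

theorem Path_strip_convex : Convex ℝ Path_strip := by
  have : Path_strip = Complex.reCLM ⁻¹' (Set.Ioo (-5 : ℝ) 5) := by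
    ext s; simp only [Path_strip, abs_lt, Set.mem_ofPred_eq, Set.mem_preimage, Complex.reCLM_apply, Set.mem_Ioo]
  rw [this]
  exact (convex_Ioo _ _).linear_preimage Complex.reCLM.toLinearMap

theorem Path_mem_seg {u v : ℂ} (hu : |u.re| < 5) (hv : |v.re| < 5) {t : ℝ} (h0 : 0 ≤ t)
    (h1 : t ≤ 1) : |(u + (t : ℂ) * (v - u)).re| < 5 := by
  have h := Path_strip_convex.add_smul_sub_mem (show u ∈ Path_strip from hu)
    (show v ∈ Path_strip from hv) (t := t) ⟨h0, h1⟩
  simpa only [Complex.add_re, Complex.mul_re, Complex.ofReal_re, Complex.sub_re, Complex.ofReal_im,     Complex.sub_im, zero_mul, sub_zero, gt_iff_lt, Path_strip, Complex.real_smul, Set.mem_ofPred_eq] using h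

theorem Path_seg_mem (u v : ℂ) {t : ℝ} (h0 : 0 ≤ t) (h1 : t ≤ 1) :
    u + (t : ℂ) * (v - u) ∈ segment ℝ u v := by
  rw [segment_eq_image']
  exact ⟨t, ⟨h0, h1⟩, by simp⟩

theorem Path_seg_mem' {u v s : ℂ} (hu : |u.re| < 5) (hv : |v.re| < 5) (hs : s ∈ segment ℝ u v) :
    |s.re| < 5 :=
  Path_strip_convex.segment_subset (show u ∈ Path_strip from hu) (show v ∈ Path_strip from hv) hs

theorem Path_tau_ne {s : ℂ} (hs : |s.re| < 5) : tau s ≠ 0 := by
  intro h
  have h1 : (s - 5) * (s + 5) = 0 := by unfold tau at h; linear_combination h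
  rcases mul_eq_zero.1 h1 with h2 | h2
  · have : s = 5 := by linear_combination h2
    rw [this] at hs; (clear * - hs; norm_num at hs)
  · have : s = -5 := by linear_combination h2
    rw [this] at hs; norm_num at hs

/-- the fundamental theorem of calculus on a segment of the strip -/
theorem Path_segI_prim {f G : ℂ → ℂ} (hG : ∀ s : ℂ, |s.re| < 5 → HasDerivAt G (f s) s)
    (hf : ∀ s : ℂ, |s.re| < 5 → ContinuousAt f s) {u v : ℂ} (hu : |u.re| < 5) (hv : |v.re| < 5) :
    segI f u v = G v - G u := by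
  have hγ : ∀ t : ℝ, HasDerivAt (fun t : ℝ => u + (t : ℂ) * (v - u)) (v - u) t := by
    intro t
    have h1 : HasDerivAt (fun t : ℝ => (t : ℂ)) 1 t := Complex.ofRealCLM.hasDerivAt
    simpa using (h1.mul_const (v - u)).const_add u
  have hder : ∀ t ∈ Set.uIcc (0 : ℝ) 1, HasDerivAt (fun t : ℝ => G (u + (t : ℂ) * (v - u)))
      (f (u + (t : ℂ) * (v - u)) * (v - u)) t := by
    intro t ht
    rw [Set.uIcc_of_le zero_le_one] at ht
    exact (hG _ (Path_mem_seg hu hv ht.1 ht.2)).comp t (hγ t)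
  have hcont : ContinuousOn (fun t : ℝ => f (u + (t : ℂ) * (v - u)) * (v - u))
      (Set.uIcc (0 : ℝ) 1) := by
    intro t ht
    rw [Set.uIcc_of_le zero_le_one] at ht
    apply ContinuousAt.continuousWithinAt
    apply ContinuousAt.mul _ continuousAt_const
    exact ContinuousAt.comp (f := fun t : ℝ => u + (t : ℂ) * (v - u))
      (hf _ (Path_mem_seg hu hv ht.1 ht.2)) (hγ t).continuousAt
  have h := intervalIntegral.integral_eq_sub_of_hasDerivAt hder hcont.intervalIntegrable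
  unfold segI
  rw [intervalIntegral.integral_mul_const] at h
  rw [mul_comm, h]
  simp

theorem Path_pathI_prim {f G : ℂ → ℂ} (hG : ∀ s : ℂ, |s.re| < 5 → HasDerivAt G (f s) s)
    (hf : ∀ s : ℂ, |s.re| < 5 → ContinuousAt f s) (l : List ℂ) (hs : ∀ v ∈ l, |v.re| < 5)
    {u w : ℂ} (hh : l.head? = some u) (hl : l.getLast? = some w) : pathI f l = G w - G u := by
  induction l generalizing u with
  | nil => simp at hh
  | cons a l ih =>
    cases l with
    | nil =>
      simp at hh hl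
      subst hh; subst hl
      simp only [pathI, sub_self]
    | cons b l =>
      have ha : |a.re| < 5 := hs a (by simp)
      have hb : |b.re| < 5 := hs b (by simp)
      have hau : a = u := by simpa using hh
      have h1 := ih (fun v hv => hs v (List.mem_cons_of_mem _ hv)) (u := b) (by simp)
        (by simpa using hl)
      show segI f a b + pathI f (b :: l) = _
      rw [h1, Path_segI_prim hG hf ha hb, ← hau]
      ring

theorem Path_cont_zpow (k : ℤ) {s : ℂ} (hs : |s.re| < 5) :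
    ContinuousAt (fun s => tau s ^ k) s := by
  apply ContinuousAt.zpow₀
  · unfold tau; (clear * -; fun_prop)
  · left; exact Path_tau_ne hs

theorem Path_tau_deriv (s : ℂ) : HasDerivAt tau (2 * s) s := by
  unfold tau
  simpa using (hasDerivAt_pow 2 s).sub_const 25

theorem Path_segI_add {f g : ℂ → ℂ} (hf : ∀ s : ℂ, |s.re| < 5 → ContinuousAt f s)
    (hg : ∀ s : ℂ, |s.re| < 5 → ContinuousAt g s) {u v : ℂ} (hu : |u.re| < 5) (hv : |v.re| < 5) :
    segI (fun s => f s + g s) u v = segI f u v + segI g u v := by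
  have hint : ∀ f : ℂ → ℂ, (∀ s : ℂ, |s.re| < 5 → ContinuousAt f s) →
      IntervalIntegrable (fun t : ℝ => f (u + (t : ℂ) * (v - u))) MeasureTheory.volume 0 1 := by
    intro f hf
    apply ContinuousOn.intervalIntegrable
    intro t ht
    rw [Set.uIcc_of_le zero_le_one] at ht
    apply ContinuousAt.continuousWithinAt
    exact ContinuousAt.comp (f := fun t : ℝ => u + (t : ℂ) * (v - u))
      (hf _ (Path_mem_seg hu hv ht.1 ht.2)) (by (clear * -; fun_prop))
  unfold segI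
  rw [intervalIntegral.integral_add (hint f hf) (hint g hg)]
  ring

theorem Path_segI_smul (c : ℂ) (f : ℂ → ℂ) (u v : ℂ) :
    segI (fun s => c * f s) u v = c * segI f u v := by
  unfold segI
  rw [intervalIntegral.integral_const_mul]
  ring

theorem Path_pathI_add {f g : ℂ → ℂ} (hf : ∀ s : ℂ, |s.re| < 5 → ContinuousAt f s)
    (hg : ∀ s : ℂ, |s.re| < 5 → ContinuousAt g s) (l : List ℂ) (hs : ∀ v ∈ l, |v.re| < 5) :
    pathI (fun s => f s + g s) l = pathI f l + pathI g l := by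
  induction l with
  | nil => simp [pathI]
  | cons a l ih =>
    cases l with
    | nil => simp [pathI]
    | cons b l =>
      show segI _ a b + pathI _ (b :: l) = (segI f a b + pathI f (b :: l)) +
        (segI g a b + pathI g (b :: l))
      rw [ih (fun v hv => hs v (List.mem_cons_of_mem _ hv)),
        Path_segI_add hf hg (hs a (by simp)) (hs b (by simp))]
      ring

theorem Path_pathI_smul (c : ℂ) (f : ℂ → ℂ) (l : List ℂ) :
    pathI (fun s => c * f s) l = c * pathI f l := by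
  induction l with
  | nil => simp [pathI]
  | cons a l ih =>
    cases l with
    | nil => simp [pathI]
    | cons b l =>
      show segI _ a b + pathI _ (b :: l) = c * (segI f a b + pathI f (b :: l))
      rw [ih, Path_segI_smul]
      ring

theorem Path_pathI_zero (l : List ℂ) : pathI (fun _ => 0) l = 0 := by
  have := Path_pathI_smul 0 (fun _ => 0) l
  simpa using this

theorem Path_pathI_sum {ι : Type} (t : Finset ι) (f : ι → ℂ → ℂ)
    (hf : ∀ i ∈ t, ∀ s : ℂ, |s.re| < 5 → ContinuousAt (f i) s) (l : List ℂ)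
    (hs : ∀ v ∈ l, |v.re| < 5) :
    pathI (fun s => ∑ i ∈ t, f i s) l = ∑ i ∈ t, pathI (f i) l := by
  classical
  induction t using Finset.induction_on with
  | empty => simpa using Path_pathI_zero l
  | insert i t hi ih =>
    have h1 : (fun s => ∑ j ∈ insert i t, f j s) = fun s => f i s + ∑ j ∈ t, f j s := by
      funext s; rw [Finset.sum_insert hi]
    rw [h1, Finset.sum_insert hi, Path_pathI_add (hf i (Finset.mem_insert_self i t)) _ l hs,
      ih (fun j hj => hf j (Finset.mem_insert_of_mem hj))]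
    intro s hs'
    exact tendsto_finsetSum t (fun j hj => hf j (Finset.mem_insert_of_mem hj) s hs')

/-- the primitive used for the recursion -/
theorem Path_rec_deriv (k : ℤ) {s : ℂ} (hs : |s.re| < 5) :
    HasDerivAt (fun s => s * tau s ^ k)
      ((2 * (k : ℂ) + 1) * tau s ^ k + 50 * (k : ℂ) * tau s ^ (k - 1)) s := by
  have h0 := Path_tau_ne hs
  have h1 : HasDerivAt (fun s => tau s ^ k) ((k : ℂ) * tau s ^ (k - 1) * (2 * s)) s :=
    (hasDerivAt_zpow k (tau s) (Or.inl h0)).comp s (Path_tau_deriv s)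
  have h2 := (hasDerivAt_id s).mul h1
  refine h2.congr_deriv ?_
  have h3 : tau s ^ k = tau s ^ (k - 1) * tau s := by
    rw [← zpow_add_one₀ h0]; congr 1; ring
  simp only [id]
  rw [h3]
  unfold tau
  ring

theorem Path_rec (l : List ℂ) (x0 : ℝ) (hh : l.head? = some (x0 : ℂ))
    (hl : l.getLast? = some (-1 + 2 * Complex.I)) (hs : ∀ v ∈ l, |v.re| < 5) (k : ℤ) :
    (2 * (k : ℝ) + 1) * (2 * (pathI (fun s => (tau s) ^ k) l).im) +
      50 * (k : ℝ) * (2 * (pathI (fun s => (tau s) ^ (k - 1)) l).im) = bd k := by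
  have h1 := Path_pathI_prim (f := fun s => (2 * (k : ℂ) + 1) * tau s ^ k +
    50 * (k : ℂ) * tau s ^ (k - 1)) (G := fun s => s * tau s ^ k)
    (fun s hs => Path_rec_deriv k hs)
    (fun s hs => ((Path_cont_zpow k hs).const_mul _).add ((Path_cont_zpow (k - 1) hs).const_mul _))
    l hs hh hl
  rw [Path_pathI_add (fun s hs => (Path_cont_zpow k hs).const_mul _)
    (fun s hs => (Path_cont_zpow (k - 1) hs).const_mul _) l hs, Path_pathI_smul,
    Path_pathI_smul] at h1
  have h2 := congrArg Complex.im h1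
  have h3 : tau (-1 + 2 * Complex.I) = -28 - 4 * Complex.I := by
    unfold tau
    have := Complex.I_sq
    linear_combination 4 * this
  have h4 : ((x0 : ℂ) * tau (x0 : ℂ) ^ k).im = 0 := by
    have : (x0 : ℂ) * tau (x0 : ℂ) ^ k = ((x0 * (x0 ^ 2 - 25) ^ k : ℝ) : ℂ) := by
      unfold tau; push_cast; rfl
    rw [this, Complex.ofReal_im]
  have h5 : ((2 * (k : ℂ) + 1) * pathI (fun s => tau s ^ k) l).im =
      (2 * (k : ℝ) + 1) * (pathI (fun s => tau s ^ k) l).im := by
    have : (2 * (k : ℂ) + 1) = ((2 * (k : ℝ) + 1 : ℝ) : ℂ) := by push_cast; rfl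
    rw [this, Complex.im_ofReal_mul]
  have h6 : ((50 * (k : ℂ)) * pathI (fun s => tau s ^ (k - 1)) l).im =
      (50 * (k : ℝ)) * (pathI (fun s => tau s ^ (k - 1)) l).im := by
    have : (50 * (k : ℂ)) = ((50 * (k : ℝ) : ℝ) : ℂ) := by push_cast; rfl
    rw [this, Complex.im_ofReal_mul]
  rw [Complex.add_im, h5, h6, Complex.sub_im, h4, h3] at h2
  unfold bd
  linarith only [h2]

theorem Path_quot_mem {s : ℂ} (hs : |s.re| < 5) : (5 - s) / (5 + s) ∈ Complex.slitPlane := by
  rw [abs_lt] at hs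
  have h5 : (5 + s) ≠ 0 := by
    intro h
    have := congrArg Complex.re h
    simp only [Complex.add_re, Complex.re_ofNat, Complex.zero_re] at this
    linarith only [hs, this]
  have hn : 0 < Complex.normSq (5 + s) := Complex.normSq_pos.2 h5
  rw [Complex.mem_slitPlane_iff]
  by_cases him : s.im = 0
  · left
    rw [Complex.div_re]
    simp only [Complex.sub_re, Complex.add_re, Complex.sub_im, Complex.add_im, him]
    have e1 : (5 : ℂ).re = 5 := rfl
    have e2 : (5 : ℂ).im = 0 := rfl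
    rw [e1, e2]
    have : 0 < (5 - s.re) * (5 + s.re) / Complex.normSq (5 + s) := by
      apply div_pos _ hn
      apply mul_pos <;> linarith only [hs]
    simpa only [sub_self, add_zero, mul_zero, zero_div, gt_iff_lt] using this
  · right
    rw [Complex.div_im]
    simp only [Complex.sub_re, Complex.add_re, Complex.sub_im, Complex.add_im]
    have e1 : (5 : ℂ).re = 5 := rfl
    have e2 : (5 : ℂ).im = 0 := rfl
    rw [e1, e2]
    intro h
    have h3 : (0 - s.im) * (5 + s.re) / Complex.normSq (5 + s) -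
        (5 - s.re) * (0 + s.im) / Complex.normSq (5 + s) =
        (-10 * s.im) / Complex.normSq (5 + s) := by ring
    rw [h3, div_eq_zero_iff] at h
    rcases h with h | h
    · apply him; linarith only [h]
    · exact hn.ne' h

theorem Path_log_deriv {s : ℂ} (hs : |s.re| < 5) :
    HasDerivAt (fun s => (1 / 10 : ℂ) * Complex.log ((5 - s) / (5 + s))) (tau s ^ (-1 : ℤ)) s := by
  have h5 : (5 + s) ≠ 0 := by
    intro h
    have := congrArg Complex.re h
    simp only [Complex.add_re, Complex.re_ofNat, Complex.zero_re] at this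
    rw [abs_lt] at hs
    linarith [hs.1]
  have h5' : (5 - s) ≠ 0 := by
    intro h
    have := congrArg Complex.re h
    simp at this
    rw [abs_lt] at hs
    linarith only [hs, this]
  have h1 : HasDerivAt (fun s : ℂ => 5 - s) (-1) s := by
    simpa using (hasDerivAt_id s).const_sub 5
  have h2 : HasDerivAt (fun s : ℂ => 5 + s) 1 s := by
    simpa using (hasDerivAt_id s).const_add 5
  have h3 := (h1.div h2 h5).clog (Path_quot_mem hs)
  have h4 := h3.const_mul (1 / 10 : ℂ)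
  refine h4.congr_deriv ?_
  have h6 := Path_tau_ne hs
  rw [zpow_neg_one]
  have h7 : tau s = -((5 - s) * (5 + s)) := by unfold tau; ring
  rw [h7, Pi.div_apply]
  field_simp
  ring

theorem Path_neg_one (l : List ℂ) (x0 : ℝ) (hh : l.head? = some (x0 : ℂ))
    (hl : l.getLast? = some (-1 + 2 * Complex.I)) (hs : ∀ v ∈ l, |v.re| < 5) :
    2 * (pathI (fun s => (tau s) ^ (-1 : ℤ)) l).im = -Real.pi / 20 := by
  have h1 := Path_pathI_prim (fun s hs => Path_log_deriv hs) (fun s hs => Path_cont_zpow (-1) hs)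
    l hs hh hl
  rw [h1]
  have hx0 : |x0| < 5 := by
    cases l with
    | nil => simp at hh
    | cons a l =>
      have ha : a = (x0 : ℂ) := by simpa using hh
      have := hs a (by simp)
      rw [ha] at this
      simpa using this
  rw [abs_lt] at hx0
  have h2 : (5 - (-1 + 2 * Complex.I)) / (5 + (-1 + 2 * Complex.I)) = 1 - Complex.I := by
    have h3 : (5 + (-1 + 2 * Complex.I)) ≠ 0 := by
      intro h
      have := congrArg Complex.im h
      simp at this
    rw [div_eq_iff h3]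
    linear_combination 2 * Complex.I_sq
  have h4 : (Complex.log (1 - Complex.I)).im = -(Real.pi / 4) := by
    rw [Complex.log_im]
    have h5 : (1 : ℂ) - Complex.I = ((Real.sqrt 2 : ℝ) : ℂ) *
        (Complex.cos ((-(Real.pi / 4) : ℝ) : ℂ) + Complex.sin ((-(Real.pi / 4) : ℝ) : ℂ) *
          Complex.I) := by
      rw [← Complex.ofReal_cos, ← Complex.ofReal_sin, Real.cos_neg, Real.sin_neg,
        Real.cos_pi_div_four, Real.sin_pi_div_four]
      have h6 : Real.sqrt 2 * Real.sqrt 2 = 2 := Real.mul_self_sqrt (by norm_num)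
      apply Complex.ext
      · simp only [Complex.sub_re, Complex.one_re, Complex.I_re, sub_zero, Complex.ofReal_div, Complex.ofReal_ofNat, Complex.ofReal_neg, neg_mul, Complex.mul_re, Complex.ofReal_re, Complex.add_re, Complex.div_ofNat_re, Complex.neg_re, mul_zero, Complex.div_ofNat_im, Complex.ofReal_im, zero_div, Complex.I_im, mul_one, sub_self, neg_zero, add_zero, Complex.add_im, Complex.neg_im, Complex.mul_im, zero_add, mul_neg, zero_mul]; nlinarith only [h6]
      · simp only [Complex.sub_im, Complex.one_im, Complex.I_im, zero_sub, Complex.ofReal_div, Complex.ofReal_ofNat, Complex.ofReal_neg, neg_mul, Complex.mul_im, Complex.ofReal_re, Complex.add_im, Complex.div_ofNat_im, Complex.ofReal_im, zero_div, Complex.neg_im, Complex.div_ofNat_re, mul_one, Complex.I_re, mul_zero, add_zero, zero_add, mul_neg, Complex.add_re, Complex.neg_re, Complex.mul_re, sub_self, neg_zero, zero_mul, neg_inj]; nlinarith only [h6]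
    rw [h5, Complex.arg_mul_cos_add_sin_mul_I (Real.sqrt_pos.2 (by norm_num))]
    constructor
    · have := Real.pi_pos; linarith only [this]
    · have := Real.pi_pos; linarith only [this]
  have h7 : (Complex.log ((5 - (x0 : ℂ)) / (5 + (x0 : ℂ)))).im = 0 := by
    have h8 : (5 - (x0 : ℂ)) / (5 + (x0 : ℂ)) = (((5 - x0) / (5 + x0) : ℝ) : ℂ) := by
      push_cast; rfl
    rw [h8, ← Complex.ofReal_log]
    · exact Complex.ofReal_im _
    · apply div_nonneg <;> linarith only [hx0]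
  rw [h2]
  have h9 : (1 / 10 : ℂ) = ((1 / 10 : ℝ) : ℂ) := by push_cast; rfl
  rw [Complex.sub_im, h9, Complex.im_ofReal_mul, Complex.im_ofReal_mul, h4, h7]
  ring

/-- uniqueness for the recursion -/
theorem Path_unique (f g : ℤ → ℝ)
    (hf : ∀ k : ℤ, (2 * (k : ℝ) + 1) * f k + 50 * (k : ℝ) * f (k - 1) = bd k)
    (hg : ∀ k : ℤ, (2 * (k : ℝ) + 1) * g k + 50 * (k : ℝ) * g (k - 1) = bd k)
    (h1 : f (-1) = g (-1)) (k : ℤ) : f k = g k := by
  have hup : ∀ n : ℕ, f (n : ℤ) = g (n : ℤ) := by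
    intro n
    induction n with
    | zero =>
      have h2 := hf 0
      have h3 := hg 0
      simp only [Int.cast_zero, mul_zero, zero_add, one_mul, zero_sub, Int.reduceNeg, zero_mul, add_zero] at h2 h3
      show f 0 = g 0
      rw [h2, h3]
    | succ n ih =>
      have h2 := hf ((n : ℤ) + 1)
      have h3 := hg ((n : ℤ) + 1)
      have e : (n : ℤ) + 1 - 1 = n := by ring
      rw [e] at h2 h3
      rw [ih] at h2
      have h4 : (2 * (((n : ℤ) + 1 : ℤ) : ℝ) + 1) * (f ((n : ℤ) + 1) - g ((n : ℤ) + 1)) = 0 := by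
        linarith
      have h5 : (2 * (((n : ℤ) + 1 : ℤ) : ℝ) + 1) ≠ 0 := by
        push_cast
        (clear * -; positivity)
      have h6 := (mul_eq_zero.1 h4).resolve_left h5
      push_cast
      linarith only [h6]
  have hdown : ∀ n : ℕ, f (-((n : ℤ) + 1)) = g (-((n : ℤ) + 1)) := by
    intro n
    induction n with
    | zero => simpa using h1
    | succ n ih =>
      have h2 := hf (-((n : ℤ) + 1))
      have h3 := hg (-((n : ℤ) + 1))
      have e : -((n : ℤ) + 1) - 1 = -(((n + 1 : ℕ) : ℤ) + 1) := by push_cast; ring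
      rw [e] at h2 h3
      rw [ih] at h2
      have h4 : (50 * ((-((n : ℤ) + 1) : ℤ) : ℝ)) *
          (f (-(((n + 1 : ℕ) : ℤ) + 1)) - g (-(((n + 1 : ℕ) : ℤ) + 1))) = 0 := by
        linarith only [h2, h3]
      have h5 : (50 * ((-((n : ℤ) + 1) : ℤ) : ℝ)) ≠ 0 := by
        push_cast
        have : (0 : ℝ) ≤ (n : ℝ) := Nat.cast_nonneg n
        intro h
        linarith only [h]
      have h6 := (mul_eq_zero.1 h4).resolve_left h5
      linarith only [h6]
  rcases le_or_gt 0 k with hk | hk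
  · obtain ⟨n, rfl⟩ := Int.eq_ofNat_of_zero_le hk
    exact hup n
  · obtain ⟨n, hn⟩ : ∃ n : ℕ, k = -((n : ℤ) + 1) := ⟨k.natAbs - 1, by omega⟩
    rw [hn]
    exact hdown n

theorem Path_XX (k : ℤ) :
    segI (fun s => tau s ^ k) (-1 - 2 * Complex.I) (-1 + 2 * Complex.I) = Complex.I * XX k := by
  unfold segI XX segInt
  have h1 := intervalIntegral.smul_integral_comp_mul_add (a := (0 : ℝ)) (b := 1)
    (fun y : ℝ => ((-1 + (y : ℂ) * Complex.I) ^ 2 - 25) ^ k) (4 : ℝ) (-2)
  have h2 : (4 : ℝ) * 0 + -2 = -2 := by norm_num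
  have h3 : (4 : ℝ) * 1 + -2 = 2 := by norm_num
  rw [h2, h3] at h1
  rw [← h1]
  have h4 : ∀ t : ℝ, tau (-1 - 2 * Complex.I + (t : ℂ) * (-1 + 2 * Complex.I -
      (-1 - 2 * Complex.I))) ^ k = ((-1 + ((4 * t + -2 : ℝ) : ℂ) * Complex.I) ^ 2 - 25) ^ k := by
    intro t
    congr 1
    unfold tau
    push_cast
    ring
  simp only [h4]
  rw [Complex.real_smul]
  push_cast
  ring

theorem Path_lam_pi (k : ℤ) : lam Real.pi k =
    (segI (fun s => tau s ^ k) (-1 - 2 * Complex.I) (-1 + 2 * Complex.I)).im := by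
  rw [Path_XX, XX_eq]
  have : (aco k : ℂ) * ((Real.pi : ℂ) / 2) + (bco k : ℂ) = ((lam Real.pi k : ℝ) : ℂ) := by
    unfold lam; push_cast; rfl
  rw [this]
  simp

theorem Path_tau_e : tau (-1 + 2 * Complex.I) = -28 - 4 * Complex.I := by
  unfold tau
  linear_combination 4 * Complex.I_sq

theorem Path_tau_e' : tau (-1 - 2 * Complex.I) = -28 + 4 * Complex.I := by
  unfold tau
  linear_combination 4 * Complex.I_sq

theorem Path_conj_e : (starRingEnd ℂ) (-1 + 2 * Complex.I) = -1 - 2 * Complex.I := by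
  apply Complex.ext <;> simp

theorem Path_conj_tau_e : (starRingEnd ℂ) (-28 - 4 * Complex.I) = -28 + 4 * Complex.I := by
  apply Complex.ext <;> simp

theorem Path_rec_pi (k : ℤ) : (2 * (k : ℝ) + 1) * lam Real.pi k +
    50 * (k : ℝ) * lam Real.pi (k - 1) = bd k := by
  have hu : |(-1 - 2 * Complex.I : ℂ).re| < 5 := by simp
  have hv : |(-1 + 2 * Complex.I : ℂ).re| < 5 := by simp
  have h1 := Path_segI_prim (f := fun s => (2 * (k : ℂ) + 1) * tau s ^ k +
    50 * (k : ℂ) * tau s ^ (k - 1)) (G := fun s => s * tau s ^ k)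
    (fun s hs => Path_rec_deriv k hs)
    (fun s hs => ((Path_cont_zpow k hs).const_mul _).add ((Path_cont_zpow (k - 1) hs).const_mul _))
    hu hv
  rw [Path_segI_add (fun s hs => (Path_cont_zpow k hs).const_mul _)
    (fun s hs => (Path_cont_zpow (k - 1) hs).const_mul _) hu hv, Path_segI_smul,
    Path_segI_smul, Path_tau_e, Path_tau_e'] at h1
  have h2 := congrArg Complex.im h1
  have h5 : ((2 * (k : ℂ) + 1) * segI (fun s => tau s ^ k) (-1 - 2 * Complex.I)
      (-1 + 2 * Complex.I)).im = (2 * (k : ℝ) + 1) * lam Real.pi k := by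
    have : (2 * (k : ℂ) + 1) = ((2 * (k : ℝ) + 1 : ℝ) : ℂ) := by push_cast; rfl
    rw [this, Complex.im_ofReal_mul, ← Path_lam_pi]
  have h6 : ((50 * (k : ℂ)) * segI (fun s => tau s ^ (k - 1)) (-1 - 2 * Complex.I)
      (-1 + 2 * Complex.I)).im = (50 * (k : ℝ)) * lam Real.pi (k - 1) := by
    have : (50 * (k : ℂ)) = ((50 * (k : ℝ) : ℝ) : ℂ) := by push_cast; rfl
    rw [this, Complex.im_ofReal_mul, ← Path_lam_pi]
  have h7 : (-1 - 2 * Complex.I) * (-28 + 4 * Complex.I) ^ k =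
      (starRingEnd ℂ) ((-1 + 2 * Complex.I) * (-28 - 4 * Complex.I) ^ k) := by
    rw [map_mul, map_zpow₀, Path_conj_e, Path_conj_tau_e]
  rw [Complex.add_im, h5, h6, Complex.sub_im, h7, Complex.conj_im] at h2
  unfold bd
  linarith only [h2]

theorem Path_log_e : (Complex.log ((5 - (-1 + 2 * Complex.I)) / (5 + (-1 + 2 * Complex.I)))).im
    = -(Real.pi / 4) := by
  have h2 : (5 - (-1 + 2 * Complex.I)) / (5 + (-1 + 2 * Complex.I)) = 1 - Complex.I := by
    have h3 : (5 + (-1 + 2 * Complex.I)) ≠ 0 := by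
      intro h
      have := congrArg Complex.im h
      simp at this
    rw [div_eq_iff h3]
    linear_combination 2 * Complex.I_sq
  rw [h2, Complex.log_im]
  have h5 : (1 : ℂ) - Complex.I = ((Real.sqrt 2 : ℝ) : ℂ) *
      (Complex.cos ((-(Real.pi / 4) : ℝ) : ℂ) + Complex.sin ((-(Real.pi / 4) : ℝ) : ℂ) *
        Complex.I) := by
    rw [← Complex.ofReal_cos, ← Complex.ofReal_sin, Real.cos_neg, Real.sin_neg,
      Real.cos_pi_div_four, Real.sin_pi_div_four]
    have h6 : Real.sqrt 2 * Real.sqrt 2 = 2 := Real.mul_self_sqrt (by norm_num)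
    apply Complex.ext
    · simp only [Complex.sub_re, Complex.one_re, Complex.I_re, sub_zero, Complex.ofReal_div, Complex.ofReal_ofNat, Complex.ofReal_neg, neg_mul, Complex.mul_re, Complex.ofReal_re, Complex.add_re, Complex.div_ofNat_re, Complex.neg_re, mul_zero, Complex.div_ofNat_im, Complex.ofReal_im, zero_div, Complex.I_im, mul_one, sub_self, neg_zero, add_zero, Complex.add_im, Complex.neg_im, Complex.mul_im, zero_add, mul_neg, zero_mul]; linarith
    · simp only [Complex.sub_im, Complex.one_im, Complex.I_im, zero_sub, Complex.ofReal_div, Complex.ofReal_ofNat, Complex.ofReal_neg, neg_mul, Complex.mul_im, Complex.ofReal_re, Complex.add_im, Complex.div_ofNat_im, Complex.ofReal_im, zero_div, Complex.neg_im, Complex.div_ofNat_re, mul_one, Complex.I_re, mul_zero, add_zero, zero_add, mul_neg, Complex.add_re, Complex.neg_re, Complex.mul_re, sub_self, neg_zero, zero_mul, neg_inj]; nlinarith only [h6]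
  rw [h5, Complex.arg_mul_cos_add_sin_mul_I (Real.sqrt_pos.2 (by norm_num))]
  constructor
  · have := Real.pi_pos; linarith only [this]
  · have := Real.pi_pos; linarith only [this]

theorem Path_log_e' : (Complex.log ((5 - (-1 - 2 * Complex.I)) / (5 + (-1 - 2 * Complex.I)))).im
    = Real.pi / 4 := by
  have h1 : (5 - (-1 - 2 * Complex.I)) / (5 + (-1 - 2 * Complex.I)) =
      (starRingEnd ℂ) ((5 - (-1 + 2 * Complex.I)) / (5 + (-1 + 2 * Complex.I))) := by
    have : (starRingEnd ℂ) 5 = 5 := map_ofNat _ 5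
    rw [map_div₀, map_sub, map_add (starRingEnd ℂ) 5, Path_conj_e, this]
  have h2 : ((5 - (-1 + 2 * Complex.I)) / (5 + (-1 + 2 * Complex.I))).arg ≠ Real.pi := by
    rw [← Complex.log_im, Path_log_e]
    have := Real.pi_pos
    intro h; linarith only [this, h]
  rw [h1, Complex.log_conj _ h2, Complex.conj_im, Path_log_e]
  ring

theorem Path_neg_one_pi : lam Real.pi (-1) = -Real.pi / 20 := by
  have hu : |(-1 - 2 * Complex.I : ℂ).re| < 5 := by simp
  have hv : |(-1 + 2 * Complex.I : ℂ).re| < 5 := by simp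
  rw [Path_lam_pi, Path_segI_prim (fun s hs => Path_log_deriv hs)
    (fun s hs => Path_cont_zpow (-1) hs) hu hv]
  have h9 : (1 / 10 : ℂ) = ((1 / 10 : ℝ) : ℂ) := by push_cast; rfl
  rw [Complex.sub_im, h9, Complex.im_ofReal_mul, Complex.im_ofReal_mul, Path_log_e, Path_log_e']
  ring

theorem lam_pi_path (l : List ℂ) (x0 : ℝ) (hh : l.head? = some (x0 : ℂ))
    (hl : l.getLast? = some (-1 + 2 * Complex.I)) (hs : ∀ v ∈ l, |v.re| < 5) (k : ℤ) :
    lam Real.pi k = 2 * (pathI (fun s => (tau s) ^ k) l).im :=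
  Path_unique (lam Real.pi) (fun k => 2 * (pathI (fun s => (tau s) ^ k) l).im) Path_rec_pi
    (fun k => Path_rec l x0 hh hl hs k)
    (by rw [Path_neg_one_pi]; exact (Path_neg_one l x0 hh hl hs).symm) k

/-- total length of the polygon -/
noncomputable def Path_len : List ℂ → ℝ
  | [] => 0
  | [_] => 0
  | u :: v :: l => ‖v - u‖ + Path_len (v :: l)

theorem Path_len_nonneg (l : List ℂ) : 0 ≤ Path_len l := by
  induction l with
  | nil => simp only [Path_len, Std.le_refl]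
  | cons a l ih =>
    cases l with
    | nil => simp [Path_len]
    | cons b l =>
      show 0 ≤ ‖b - a‖ + Path_len (b :: l)
      have := norm_nonneg (b - a)
      linarith only [ih, this]

theorem Path_norm_pathI_le (f : ℂ → ℂ) (M : ℝ) (S : Set ℂ) (l : List ℂ)
    (hS : PathIn S l) (hl : ∀ v ∈ l, |v.re| < 5)
    (hf : ∀ s ∈ S, |s.re| < 5 → ‖f s‖ ≤ M) : ‖pathI f l‖ ≤ Path_len l * M := by
  induction l with
  | nil => simp [pathI, Path_len]
  | cons a l ih =>
    cases l with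
    | nil => simp [pathI, Path_len]
    | cons b l =>
      have h1 := ih hS.2 (fun v hv => hl v (List.mem_cons_of_mem _ hv))
      have ha := hl a (by simp)
      have hb := hl b (by simp)
      show ‖segI f a b + pathI f (b :: l)‖ ≤ (‖b - a‖ + Path_len (b :: l)) * M
      have h2 : ‖segI f a b‖ ≤ ‖b - a‖ * M := by
        unfold segI
        rw [norm_mul]
        apply mul_le_mul_of_nonneg_left _ (norm_nonneg _)
        have h3 := intervalIntegral.norm_integral_le_of_norm_le_const (a := (0 : ℝ)) (b := 1)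
          (f := fun t : ℝ => f (a + (t : ℂ) * (b - a))) (C := M) ?_
        · simpa only [ge_iff_le, sub_zero, abs_one, mul_one] using h3
        · intro t ht
          rw [Set.uIoc_of_le zero_le_one] at ht
          exact hf _ (hS.1 (Path_seg_mem a b ht.1.le ht.2)) (Path_mem_seg ha hb ht.1.le ht.2)
      calc ‖segI f a b + pathI f (b :: l)‖ ≤ ‖segI f a b‖ + ‖pathI f (b :: l)‖ := norm_add_le _ _
        _ ≤ ‖b - a‖ * M + Path_len (b :: l) * M := add_le_add h2 h1
        _ = _ := by ring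

theorem Path_Lam_pi_eq (l : List ℂ) (x0 : ℝ) (hh : l.head? = some (x0 : ℂ))
    (hl : l.getLast? = some (-1 + 2 * Complex.I)) (hs : ∀ v ∈ l, |v.re| < 5)
    (m : ℕ) (F : ℝ[X]) : Lam Real.pi m F =
      2 * (pathI (fun s => ∑ j ∈ Finset.range (F.natDegree + 1),
        ((F.coeff j : ℝ) : ℂ) * tau s ^ ((j : ℤ) - m)) l).im := by
  rw [Lam_eq_sum Real.pi m F (Nat.lt_succ_self _), Path_pathI_sum _ _ _ l hs, Complex.im_sum,
    Finset.mul_sum]
  · apply Finset.sum_congr rfl
    intro j _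
    rw [Path_pathI_smul, Complex.im_ofReal_mul, lam_pi_path l x0 hh hl hs]
    ring
  · intro j _ s hs'
    exact (Path_cont_zpow _ hs').const_mul _

theorem abs_Lam_pi_le (l : List ℂ) (x0 : ℝ) (hh : l.head? = some (x0 : ℂ))
    (hl : l.getLast? = some (-1 + 2 * Complex.I)) (hs : ∀ v ∈ l, |v.re| < 5)
    (S : Set ℂ) (hS : PathIn S l) :
    ∃ C : ℝ, 0 < C ∧ ∀ (m : ℕ) (F : ℝ[X]) (M : ℝ),
      (∀ s ∈ S, ‖ev F s‖ ≤ M * ‖tau s‖ ^ m) → |Lam Real.pi m F| ≤ C * M := by
  refine ⟨2 * Path_len l + 1, by have := Path_len_nonneg l; linarith, ?_⟩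
  intro m F M hM
  -- nonnegativity of `M`
  have hM0 : 0 ≤ M := by
    cases l with
    | nil => simp at hh
    | cons a l =>
      cases l with
      | nil =>
        exfalso
        simp at hh hl
        rw [hh] at hl
        have := congrArg Complex.im hl
        simp only [Complex.ofReal_im, Complex.add_im, Complex.neg_im, Complex.one_im, neg_zero, Complex.mul_im, Complex.re_ofNat, Complex.I_im, mul_one, Complex.im_ofNat, Complex.I_re, mul_zero, add_zero, zero_add, OfNat.zero_ne_ofNat] at this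
      | cons b l =>
        have h1 : a ∈ S := hS.1 (left_mem_segment ℝ a b)
        have h2 := hM a h1
        have h3 : 0 < ‖tau a‖ ^ m := pow_pos (norm_pos_iff.2 (Path_tau_ne (hs a (by simp)))) m
        by_contra h
        push Not at h
        have := mul_neg_of_neg_of_pos h h3
        linarith only [h2, this, norm_nonneg (ev F a)]
  rw [Path_Lam_pi_eq l x0 hh hl hs m F]
  have h1 := Path_norm_pathI_le (fun s => ∑ j ∈ Finset.range (F.natDegree + 1),
        ((F.coeff j : ℝ) : ℂ) * tau s ^ ((j : ℤ) - m)) M S l hS hs ?_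
  · have h2 := Complex.abs_im_le_norm (pathI (fun s => ∑ j ∈ Finset.range (F.natDegree + 1),
        ((F.coeff j : ℝ) : ℂ) * tau s ^ ((j : ℤ) - m)) l)
    rw [abs_mul, abs_two]
    linarith
  · intro s hsS hs5
    have h0 := Path_tau_ne hs5
    have h3 : ∑ j ∈ Finset.range (F.natDegree + 1), ((F.coeff j : ℝ) : ℂ) * tau s ^ ((j : ℤ) - m)
        = ev F s * (tau s ^ m)⁻¹ := by
      unfold ev
      rw [Polynomial.aeval_eq_sum_range, Finset.sum_mul]
      apply Finset.sum_congr rfl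
      intro j _
      rw [zpow_sub₀ h0, zpow_natCast, zpow_natCast, Complex.real_smul]
      rw [div_eq_mul_inv]
      ring
    rw [h3, norm_mul, norm_inv, norm_pow]
    rw [← div_eq_mul_inv, div_le_iff₀ (pow_pos (norm_pos_iff.2 h0) m)]
    exact hM s hsS

end Vale.Agent.P021.Det
end

section

open Polynomial Filter Topology

namespace Vale.Agent.P021.Det

theorem AU_bounded {S : Set ℂ} (hS : Bornology.IsBounded S) :
    ∃ B : ℝ, ∀ s ∈ S, ‖tau s‖ ≤ B := by
  obtain ⟨R, hR⟩ := hS.exists_norm_le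
  refine ⟨R ^ 2 + 25, fun s hs => ?_⟩
  have h1 := hR s hs
  unfold tau
  calc ‖s ^ 2 - 25‖ ≤ ‖s ^ 2‖ + ‖(25 : ℂ)‖ := norm_sub_le _ _
    _ = ‖s‖ ^ 2 + 25 := by rw [norm_pow]; norm_num
    _ ≤ R ^ 2 + 25 := by
      have := pow_le_pow_left₀ (norm_nonneg s) h1 2
      linarith

theorem arch_upper {K0 a0 b0 m0 N : ℕ} {w : ℝ} {S T : Set ℂ}
    (C : Cert K0 a0 b0 m0 N w S T) (_hw : 0 ≤ w) (hT : BetBound T)
    (hTb : Bornology.IsBounded T)
    (l : List ℂ) (x0 : ℝ) (hh : l.head? = some (x0 : ℂ))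
    (hl : l.getLast? = some (-1 + 2 * Complex.I)) (hs : ∀ v ∈ l, |v.re| < 5)
    (hS : PathIn S l) (hSb : Bornology.IsBounded S) {ε : ℝ} (hε : 0 < ε) :
    ∀ᶠ n : ℕ in atTop, ∀ κ ≤ 2, ∀ x : ℝ, |x - Real.pi| ≤ Real.exp (-w * n) →
      |(HM x (a0 * n) (b0 * n) (m0 * n) (K0 * n + κ)).det| ≤
        Real.exp ((C.total + ε) * (n : ℝ) ^ 2) :=
  AU_core C (AU_bounded hSb) (AU_bounded hTb)
    (abs_Lam_pi_le l x0 hh hl hs S hS) hT det_HM_monic
    (fun A u => abs_det_le_of_entries A u) hε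

end Vale.Agent.P021.Det
end

section

/-!
# Non-vanishing of one of three consecutive determinants
-/

namespace Vale.Agent.P021.Det.NV

open Polynomial

section
/-! ### Hankel determinants and orthogonal polynomials -/

/-- The Hankel matrix of a linear functional. -/
noncomputable def HM (L : ℝ[X] →ₗ[ℝ] ℝ) (n : ℕ) : Matrix (Fin n) (Fin n) ℝ :=
  Matrix.of fun i j => L (X ^ ((i : ℕ) + (j : ℕ)))

/-- The polynomial with given coefficients. -/
noncomputable def ofVec {n : ℕ} (v : Fin n → ℝ) : ℝ[X] := ∑ j : Fin n, C (v j) * X ^ (j : ℕ)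

lemma ofVec_degree {n : ℕ} (v : Fin n → ℝ) : (ofVec v).degree < n := by
  rw [ofVec, ← Polynomial.mem_degreeLT]
  refine Submodule.sum_mem _ fun j _ => ?_
  rw [Polynomial.mem_degreeLT]
  exact lt_of_le_of_lt (degree_C_mul_X_pow_le _ _) (by exact_mod_cast j.2)

lemma ofVec_coeff {n : ℕ} (v : Fin n → ℝ) (i : Fin n) : (ofVec v).coeff i = v i := by
  rw [ofVec, finsetSum_coeff, Finset.sum_eq_single i]
  · simp
  · intro b _ hb
    rw [coeff_C_mul_X_pow, if_neg]
    intro h
    exact hb (Fin.ext h.symm)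
  · intro h; exact absurd (Finset.mem_univ _) h

lemma ofVec_coeff_self {n : ℕ} (A : ℝ[X]) (hA : A.degree < n) :
    ofVec (fun i : Fin n => A.coeff i) = A := by
  ext k
  by_cases hk : k < n
  · exact ofVec_coeff _ ⟨k, hk⟩
  · have h1 : (ofVec (fun i : Fin n => A.coeff i)).coeff k = 0 :=
      coeff_eq_zero_of_degree_lt (lt_of_lt_of_le (ofVec_degree _) (by exact_mod_cast not_lt.1 hk))
    have h2 : A.coeff k = 0 :=
      coeff_eq_zero_of_degree_lt (lt_of_lt_of_le hA (by exact_mod_cast not_lt.1 hk))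
    rw [h1, h2]

lemma HM_mulVec (L : ℝ[X] →ₗ[ℝ] ℝ) {n : ℕ} (v : Fin n → ℝ) (i : Fin n) :
    (HM L n).mulVec v i = L (ofVec v * X ^ (i : ℕ)) := by
  rw [Matrix.mulVec, dotProduct, ofVec, Finset.sum_mul, map_sum]
  refine Finset.sum_congr rfl fun j _ => ?_
  rw [mul_assoc, ← pow_add, ← smul_eq_C_mul, map_smul, HM, Matrix.of_apply, smul_eq_mul, mul_comm,
    add_comm (i : ℕ)]

lemma exists_annih (L : ℝ[X] →ₗ[ℝ] ℝ) {n : ℕ} (h : (HM L n).det = 0) :
    ∃ A : ℝ[X], A ≠ 0 ∧ A.degree < n ∧ ∀ i < n, L (A * X ^ i) = 0 := by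
  obtain ⟨v, hv, hv2⟩ := Matrix.exists_mulVec_eq_zero_iff.2 h
  refine ⟨ofVec v, ?_, ofVec_degree v, ?_⟩
  · intro h0
    apply hv
    funext i
    rw [← ofVec_coeff v i, h0]
    simp
  · intro i hi
    rw [← HM_mulVec L v ⟨i, hi⟩, hv2]
    rfl

lemma annih_unique (L : ℝ[X] →ₗ[ℝ] ℝ) {n : ℕ} (h : (HM L n).det ≠ 0) (A : ℝ[X])
    (hA : A.degree < n) (hA2 : ∀ i < n, L (A * X ^ i) = 0) : A = 0 := by
  by_contra hne
  apply h
  refine Matrix.exists_mulVec_eq_zero_iff.1 ⟨fun i : Fin n => A.coeff i, ?_, ?_⟩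
  · intro h0
    apply hne
    rw [← ofVec_coeff_self A hA, h0]
    simp only [ofVec, Pi.zero_apply, map_zero, zero_mul, Finset.sum_const_zero]
  · funext i
    rw [HM_mulVec, ofVec_coeff_self A hA]
    exact hA2 i i.2

lemma exists_monic (L : ℝ[X] →ₗ[ℝ] ℝ) {n : ℕ} (h : (HM L n).det ≠ 0) :
    ∃ P : ℝ[X], P.Monic ∧ P.natDegree = n ∧ ∀ i < n, L (P * X ^ i) = 0 := by
  obtain ⟨v, hv⟩ : ∃ v : Fin n → ℝ, (HM L n).mulVec v =
      fun i : Fin n => - L (X ^ n * X ^ (i : ℕ)) := by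
    refine ⟨(HM L n)⁻¹.mulVec (fun i : Fin n => - L (X ^ n * X ^ (i : ℕ))), ?_⟩
    rw [Matrix.mulVec_mulVec, Matrix.mul_nonsing_inv _ (by exact h.isUnit), Matrix.one_mulVec]
  have hd : (ofVec v).degree < ((X : ℝ[X]) ^ n).degree := by
    rw [degree_X_pow]; exact ofVec_degree v
  refine ⟨X ^ n + ofVec v, ?_, ?_, ?_⟩
  · exact (monic_X_pow n).add_of_left hd
  · rw [natDegree_add_eq_left_of_degree_lt hd, natDegree_X_pow]
  · intro i hi
    rw [add_mul, map_add, ← HM_mulVec L v ⟨i, hi⟩, hv]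
    simp only [add_neg_cancel]

lemma L_mul_zero (L : ℝ[X] →ₗ[ℝ] ℝ) (P : ℝ[X]) {s : ℕ} (h : ∀ i < s, L (P * X ^ i) = 0)
    (U : ℝ[X]) (hU : U.degree < s) : L (P * U) = 0 := by
  rw [← ofVec_coeff_self U hU, ofVec, Finset.mul_sum, map_sum]
  refine Finset.sum_eq_zero fun j _ => ?_
  rw [mul_left_comm, ← smul_eq_C_mul, map_smul, h j j.2, smul_zero]

/-- Growth of the block of zeros. -/
lemma block_step (L : ℝ[X] →ₗ[ℝ] ℝ) {n r : ℕ} (h : (HM L n).det ≠ 0) (P : ℝ[X]) (hP : P.Monic)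
    (hPn : P.natDegree = n) (hL : ∀ i < n + r, L (P * X ^ i) = 0)
    (h2 : (HM L (n + r + 1)).det = 0) : L (P * X ^ (n + r)) = 0 := by
  obtain ⟨A, hA0, hAd, hA⟩ := exists_annih L h2
  have hdiv : A %ₘ P + P * (A /ₘ P) = A := modByMonic_add_div A P
  set C' := A /ₘ P with hC
  set E := A %ₘ P with hE
  have hEd : E.degree < n := by
    have := degree_modByMonic_lt A hP
    rwa [degree_eq_natDegree hP.ne_zero, hPn] at this
  have hCd : C'.degree < (r + 1 : ℕ) := by
    by_cases hC0 : C' = 0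
    · rw [hC0, degree_zero]; exact WithBot.bot_lt_coe _
    have hAn : A.natDegree < n + r + 1 := by
      rw [degree_eq_natDegree hA0] at hAd; exact_mod_cast hAd
    have : C'.natDegree = A.natDegree - P.natDegree := natDegree_divByMonic A hP
    rw [degree_eq_natDegree hC0, this, hPn]
    have : A.natDegree - n < r + 1 := by omega
    exact_mod_cast this
  have hE0 : E = 0 := by
    refine annih_unique L h E hEd fun i hi => ?_
    have h1 : L (A * X ^ i) = 0 := hA i (by omega)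
    rw [← hdiv, add_mul, map_add, mul_assoc] at h1
    have h3 : L (P * (C' * X ^ i)) = 0 := by
      refine L_mul_zero L P hL _ ?_
      by_cases hC0 : C' = 0
      · rw [hC0, zero_mul, degree_zero]; exact WithBot.bot_lt_coe _
      rw [degree_mul, degree_X_pow, degree_eq_natDegree hC0]
      rw [degree_eq_natDegree hC0] at hCd
      have : C'.natDegree < r + 1 := by exact_mod_cast hCd
      have : C'.natDegree + i < n + r := by omega
      exact_mod_cast this
    rw [h3, add_zero] at h1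
    exact h1
  have hAP : A = P * C' := by rw [← hdiv, hE0, zero_add]
  have hC0 : C' ≠ 0 := by
    intro h0; apply hA0; rw [hAP, h0, mul_zero]
  have hc : C'.natDegree ≤ r := by
    rw [degree_eq_natDegree hC0] at hCd
    have : C'.natDegree < r + 1 := by exact_mod_cast hCd
    omega
  have h1 : L (A * X ^ (n + r - C'.natDegree)) = 0 := hA _ (by omega)
  have h4 : A * X ^ (n + r - C'.natDegree) =
      P * (C'.eraseLead * X ^ (n + r - C'.natDegree)) + C C'.leadingCoeff * (P * X ^ (n + r)) := by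
    have h20 : (X : ℝ[X]) ^ (n + r) = X ^ C'.natDegree * X ^ (n + r - C'.natDegree) := by
      rw [← pow_add]; congr 1; omega
    have h21 := eraseLead_add_C_mul_X_pow C'
    rw [hAP, h20]
    generalize (X : ℝ[X]) ^ (n + r - C'.natDegree) = Z
    calc P * C' * Z = P * (C'.eraseLead + C C'.leadingCoeff * X ^ C'.natDegree) * Z := by rw [h21]
      _ = _ := by ring
  rw [h4, map_add, ← smul_eq_C_mul, map_smul] at h1
  have h5 : L (P * (C'.eraseLead * X ^ (n + r - C'.natDegree))) = 0 := by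
    refine L_mul_zero L P hL _ ?_
    by_cases hE1 : C'.eraseLead = 0
    · rw [hE1, zero_mul, degree_zero]; exact WithBot.bot_lt_coe _
    have h6 : C'.eraseLead.degree < C'.degree := degree_eraseLead_lt hC0
    rw [degree_eq_natDegree hE1, degree_eq_natDegree hC0] at h6
    have h7 : C'.eraseLead.natDegree < C'.natDegree := by exact_mod_cast h6
    rw [degree_mul, degree_X_pow, degree_eq_natDegree hE1]
    have : C'.eraseLead.natDegree + (n + r - C'.natDegree) < n + r := by omega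
    exact_mod_cast this
  rw [h5, zero_add, smul_eq_mul] at h1
  exact (mul_eq_zero.1 h1).resolve_left (leadingCoeff_ne_zero.2 hC0)

/-- If three consecutive Hankel determinants after a nonzero one vanish, then a semiclassical
functional of class two is annihilated by an ideal. -/
lemma semiclassical (L : ℝ[X] →ₗ[ℝ] ℝ) (S T : ℝ[X]) (hPear : ∀ R : ℝ[X],
      L (S * R + T * derivative R) = 0)
    (hT : T.natDegree ≤ 4) (hT4 : T.coeff 4 = 2) (hS : S.natDegree ≤ 3)
    (hσ : ∀ k : ℕ, 2 * (k : ℝ) + S.coeff 3 ≠ 0) {n : ℕ} (h : (HM L n).det ≠ 0)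
    (h1 : (HM L (n + 1)).det = 0) (h2 : (HM L (n + 2)).det = 0) (h3 : (HM L (n + 3)).det = 0) :
    ∃ P : ℝ[X], P.Monic ∧ ∀ U : ℝ[X], L (P * U) = 0 := by
  obtain ⟨P, hP, hPn, hL0⟩ := exists_monic L h
  have e0 : L (P * X ^ n) = 0 := by
    simpa only [add_zero] using block_step L (r := 0) h P hP hPn (by simpa using hL0) h1
  have hL1 : ∀ i < n + 1, L (P * X ^ i) = 0 := by
    intro i hi
    rcases Nat.lt_succ_iff_lt_or_eq.1 hi with h' | rfl
    · exact hL0 i h'
    · exact e0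
  have e1 : L (P * X ^ (n + 1)) = 0 := block_step L (r := 1) h P hP hPn hL1 h2
  have hL2 : ∀ i < n + 2, L (P * X ^ i) = 0 := by
    intro i hi
    rcases Nat.lt_succ_iff_lt_or_eq.1 hi with h' | rfl
    · exact hL1 i h'
    · exact e1
  have e2 : L (P * X ^ (n + 2)) = 0 := block_step L (r := 2) h P hP hPn hL2 h3
  have hL3 : ∀ i < n + 3, L (P * X ^ i) = 0 := by
    intro i hi
    rcases Nat.lt_succ_iff_lt_or_eq.1 hi with h' | rfl
    · exact hL2 i h'
    · exact e2
  -- degree bounds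
  have hdS : ∀ U : ℝ[X], ∀ u : ℕ, U.degree < u → (S * U).degree < (u + 3 : ℕ) := by
    intro U u hU
    by_cases hU0 : U = 0
    · rw [hU0, mul_zero, degree_zero]; exact WithBot.bot_lt_coe _
    rw [degree_eq_natDegree hU0] at hU
    have hU' : U.natDegree < u := by exact_mod_cast hU
    refine lt_of_le_of_lt degree_le_natDegree ?_
    have : (S * U).natDegree < u + 3 := by
      have := natDegree_mul_le (p := S) (q := U)
      omega
    exact_mod_cast this
  have hdT : ∀ U : ℝ[X], ∀ u : ℕ, U.degree < u → (T * derivative U).degree < (u + 3 : ℕ) := by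
    intro U u hU
    by_cases hU0 : derivative U = 0
    · rw [hU0, mul_zero, degree_zero]; exact WithBot.bot_lt_coe _
    have hU1 : U ≠ 0 := by rintro rfl; simp at hU0
    rw [degree_eq_natDegree hU1] at hU
    have hU' : U.natDegree < u := by exact_mod_cast hU
    refine lt_of_le_of_lt degree_le_natDegree ?_
    have hU2 : (derivative U).natDegree < U.natDegree := by
      apply natDegree_derivative_lt
      intro h0
      apply hU0
      rw [eq_C_of_natDegree_eq_zero h0, derivative_C]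
    have : (T * derivative U).natDegree < u + 3 := by
      have := natDegree_mul_le (p := T) (q := derivative U)
      omega
    exact_mod_cast this
  -- T P' is divisible by P
  have hdiv : (T * derivative P) %ₘ P + P * ((T * derivative P) /ₘ P) = T * derivative P :=
    modByMonic_add_div _ P
  set G := (T * derivative P) /ₘ P with hG
  set E := (T * derivative P) %ₘ P with hE
  have hEd : E.degree < n := by
    have := degree_modByMonic_lt (T * derivative P) hP
    rwa [degree_eq_natDegree hP.ne_zero, hPn] at this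
  have hTPd : (T * derivative P).natDegree ≤ n + 3 := by
    have h4 : (T * derivative P).degree < (n + 1 + 3 : ℕ) := by
      refine hdT P (n + 1) ?_
      rw [degree_eq_natDegree hP.ne_zero, hPn]
      exact_mod_cast Nat.lt_succ_self n
    by_cases h0 : T * derivative P = 0
    · rw [h0]; simp
    · rw [degree_eq_natDegree h0] at h4
      have : (T * derivative P).natDegree < n + 1 + 3 := by exact_mod_cast h4
      omega
  have hGd : G.natDegree ≤ 3 := by
    have : G.natDegree = (T * derivative P).natDegree - P.natDegree := natDegree_divByMonic _ hP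
    rw [this, hPn]; omega
  have hE0 : E = 0 := by
    refine annih_unique L h E hEd fun i hi => ?_
    have hp := hPear (P * X ^ i)
    have e4 : S * (P * X ^ i) + T * derivative (P * X ^ i) =
        P * (S * X ^ i + T * derivative (X ^ i) + G * X ^ i) + E * X ^ i := by
      rw [derivative_mul]
      have : T * (derivative P * X ^ i + P * derivative (X ^ i)) =
          (T * derivative P) * X ^ i + T * (P * derivative (X ^ i)) := by ring
      rw [this, ← hdiv]
      ring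
    rw [e4, map_add] at hp
    have hi2 : ((X : ℝ[X]) ^ i).degree < (n : ℕ) := by
      rw [degree_X_pow]; exact_mod_cast hi
    have h5 : L (P * (S * X ^ i + T * derivative (X ^ i) + G * X ^ i)) = 0 := by
      refine L_mul_zero L P hL3 _ ?_
      refine lt_of_le_of_lt (degree_add_le _ _) (max_lt (lt_of_le_of_lt (degree_add_le _ _)
        (max_lt (hdS _ n hi2) (hdT _ n hi2))) ?_)
      by_cases hG0 : G = 0
      · rw [hG0, zero_mul, degree_zero]; exact WithBot.bot_lt_coe _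
      rw [degree_mul, degree_X_pow, degree_eq_natDegree hG0]
      have : G.natDegree + i < n + 3 := by omega
      exact_mod_cast this
    rw [h5, zero_add] at hp
    exact hp
  have hTP : T * derivative P = P * G := by rw [← hdiv, hE0, zero_add]
  have hG3 : G.coeff 3 = 2 * (n : ℝ) := by
    have h6 : (T * derivative P).coeff (n + 3) = (P * G).coeff (n + 3) := by rw [hTP]
    have h7 : (P * G).coeff (n + 3) = G.coeff 3 := by
      rw [coeff_mul_add_eq_of_natDegree_le (le_of_eq hPn) hGd]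
      have : P.coeff n = 1 := by rw [← hPn]; exact hP.coeff_natDegree
      rw [this, one_mul]
    rw [h7] at h6
    rw [← h6]
    rcases Nat.eq_zero_or_pos n with rfl | hn
    · have : P = 1 := by
        rw [eq_C_of_natDegree_eq_zero hPn]
        have : P.coeff 0 = 1 := by
          have := hP.coeff_natDegree
          rwa [hPn] at this
        rw [this, C_1]
      rw [this]; simp
    · obtain ⟨k, rfl⟩ : ∃ k, n = k + 1 := ⟨n - 1, by omega⟩
      have h8 : (derivative P).natDegree ≤ k := by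
        have := natDegree_derivative_le P
        omega
      have h9 : k + 1 + 3 = 4 + k := by omega
      rw [h9, coeff_mul_add_eq_of_natDegree_le hT h8, hT4, coeff_derivative]
      have : P.coeff (k + 1) = 1 := by rw [← hPn]; exact hP.coeff_natDegree
      rw [this]
      push_cast
      ring
  -- all moments vanish
  have hall : ∀ N : ℕ, ∀ i < N, L (P * X ^ i) = 0 := by
    intro N
    induction N with
    | zero => intro i hi; exact absurd hi (Nat.not_lt_zero _)
    | succ N ih =>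
      intro i hi
      rcases Nat.lt_succ_iff_lt_or_eq.1 hi with h' | rfl
      · exact ih i h'
      by_cases hi3 : i < n + 3
      · exact hL3 i hi3
      obtain ⟨u, rfl⟩ : ∃ u, i = u + 3 := ⟨i - 3, by omega⟩
      have hp := hPear (P * X ^ u)
      set V := (S + G) * X ^ u + T * derivative (X ^ u) with hV
      have e4 : S * (P * X ^ u) + T * derivative (P * X ^ u) = P * V := by
        rw [derivative_mul, hV]
        have : T * (derivative P * X ^ u + P * derivative (X ^ u)) =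
            (T * derivative P) * X ^ u + T * (P * derivative (X ^ u)) := by ring
        rw [this, hTP]
        ring
      rw [e4] at hp
      have hVd : V.natDegree ≤ u + 3 := by
        rw [hV]
        refine (natDegree_add_le _ _).trans (max_le ?_ ?_)
        · refine natDegree_mul_le.trans ?_
          rw [natDegree_X_pow]
          have := natDegree_add_le S G
          have h10 : (S + G).natDegree ≤ 3 := this.trans (max_le hS hGd)
          (clear * - h10; omega)
        · rcases Nat.eq_zero_or_pos u with rfl | hu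
          · simp only [pow_zero, derivative_one, mul_zero, natDegree_zero, zero_add, zero_le]
          · rw [derivative_X_pow]
            refine natDegree_mul_le.trans ?_
            have h11 : (C (u : ℝ) * X ^ (u - 1)).natDegree ≤ u - 1 := natDegree_C_mul_X_pow_le _ _
            omega
      have hVc : V.coeff (u + 3) = 2 * ((n + u : ℕ) : ℝ) + S.coeff 3 := by
        rw [hV, coeff_add]
        have h12 : ((S + G) * X ^ u).coeff (u + 3) = S.coeff 3 + G.coeff 3 := by
          rw [add_comm u 3, coeff_mul_X_pow, coeff_add]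
        have h13 : (T * derivative (X ^ u)).coeff (u + 3) = 2 * (u : ℝ) := by
          rcases Nat.eq_zero_or_pos u with rfl | hu
          · simp only [pow_zero, derivative_one, mul_zero, zero_add, coeff_zero, CharP.cast_eq_zero]
          · obtain ⟨k, rfl⟩ : ∃ k, u = k + 1 := ⟨u - 1, by (clear * - hu; omega)⟩
            rw [derivative_X_pow]
            have h14 : (C ((k + 1 : ℕ) : ℝ) * X ^ (k + 1 - 1)).natDegree ≤ k := by
              simpa only [Nat.cast_add, Nat.cast_one, map_add, map_natCast, map_one, add_tsub_cancel_right] using     natDegree_C_mul_X_pow_le ((k + 1 : ℕ) : ℝ) (k + 1 - 1)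
            have h9 : k + 1 + 3 = 4 + k := by (clear * -; omega)
            rw [h9, coeff_mul_add_eq_of_natDegree_le hT h14, hT4, Nat.add_sub_cancel,
              coeff_C_mul, coeff_X_pow_self, mul_one]
        rw [h12, h13, hG3]
        push_cast
        ring
      have h15 : V = C (V.coeff (u + 3)) * X ^ (u + 3) + V.erase (u + 3) := by
        rw [C_mul_X_pow_eq_monomial, monomial_add_erase]
      have h16 : (V.erase (u + 3)).degree < (u + 3 : ℕ) := by
        refine lt_of_le_of_ne ?_ ?_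
        · exact (degree_erase_le V (u + 3)).trans (degree_le_of_natDegree_le hVd)
        · intro h17
          have := degree_eq_iff_natDegree_eq_of_pos (p := V.erase (u + 3)) (n := u + 3) (by omega)
          have h18 : (V.erase (u + 3)).coeff (u + 3) ≠ 0 := coeff_ne_zero_of_eq_degree h17
          exact h18 (erase_same V (u + 3))
      rw [h15, mul_add, map_add, L_mul_zero L P ih _ h16, add_zero, mul_left_comm,
        ← smul_eq_C_mul, map_smul, smul_eq_mul, hVc] at hp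
      exact (mul_eq_zero.1 hp).resolve_left (hσ _)
  refine ⟨P, hP, fun U => ?_⟩
  by_cases hU0 : U = 0
  · rw [hU0, mul_zero, map_zero]
  refine L_mul_zero L P (s := U.natDegree + 1) (fun i hi => hall _ i hi) U ?_
  rw [degree_eq_natDegree hU0]
  exact_mod_cast Nat.lt_succ_self _

end

section
/-- The end point `-1 + 2 i`. -/
noncomputable def ep : ℂ := -1 + 2 * Complex.I

/-- The end point `-28 - 4 i` in the variable `s ^ 2 - 25`. -/
noncomputable def tp : ℂ := -28 - 4 * Complex.I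

/-- Boundary values. -/
noncomputable def bd (k : ℤ) : ℝ := 2 * (ep * tp ^ k).im

/-- The polynomial `τ ^ 2 + 56 τ + 800`. -/
noncomputable def Qp : ℝ[X] := X ^ 2 + C 56 * X + C 800

/-- The polynomial part of the weight. -/
noncomputable def Wp (a b : ℕ) : ℝ[X] := (X + C 25) ^ a * Qp ^ b

/-- The functional `τ ^ k ↦ Y (k - m)`. -/
noncomputable def Lam (Y : ℤ → ℝ) (m : ℕ) : ℝ[X] →ₗ[ℝ] ℝ :=
  Polynomial.lsum (fun k => (Y ((k : ℤ) - m)) • (LinearMap.id : ℝ →ₗ[ℝ] ℝ))

lemma Lam_monomial (Y : ℤ → ℝ) (m k : ℕ) (w : ℝ) :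
    Lam Y m (monomial k w) = w * Y ((k : ℤ) - m) := by
  rw [Lam, lsum_apply, sum_monomial_index]
  · simp only [LinearMap.smul_apply, LinearMap.id_coe, id_eq, smul_eq_mul, mul_comm]
  · simp only [LinearMap.smul_apply, LinearMap.id_coe, id_eq, smul_eq_mul, mul_zero]

lemma Lam_C_mul_X_pow (Y : ℤ → ℝ) (m k : ℕ) (w : ℝ) :
    Lam Y m (C w * X ^ k) = w * Y ((k : ℤ) - m) := by
  rw [C_mul_X_pow_eq_monomial, Lam_monomial]

lemma ep_sq : ep ^ 2 = tp + 25 := by
  rw [ep, tp]
  apply Complex.ext <;> simp [pow_two] <;> norm_num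

lemma tp_ne : tp ≠ 0 := by
  intro h
  have := congrArg Complex.re h
  simp [tp] at this

lemma tp_root : aeval tp Qp = 0 := by
  rw [Qp]
  simp only [map_add, map_mul, map_pow, aeval_X, aeval_C]
  rw [tp]
  apply Complex.ext <;> simp [pow_two] <;> norm_num

/-- Pearson equation for the unweighted functional. -/
lemma pearson0 (Y : ℤ → ℝ) (hY : ∀ k : ℤ, (2 * k + 1) * Y k + 50 * k * Y (k - 1) = bd k) (m : ℕ)
    (F : ℝ[X]) :
    Lam Y m (X * F + C 2 * (X + C 25) * (derivative (X * F) - C (m : ℝ) * F)) =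
      2 * (ep * (aeval tp (X * F)) * tp ^ (-(m : ℤ))).im := by
  induction F using Polynomial.induction_on' with
  | add p q hp hq =>
    have e1 : X * (p + q) + C 2 * (X + C 25) * (derivative (X * (p + q)) - C (m : ℝ) * (p + q)) =
        (X * p + C 2 * (X + C 25) * (derivative (X * p) - C (m : ℝ) * p)) +
        (X * q + C 2 * (X + C 25) * (derivative (X * q) - C (m : ℝ) * q)) := by
      rw [mul_add X p q, derivative_add]
      ring
    rw [e1, map_add, hp, hq, mul_add X p q, map_add, mul_add, add_mul, Complex.add_im]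
    ring
  | monomial k w =>
    have e1 : X * monomial k w + C 2 * (X + C 25) * (derivative (X * monomial k w) -
        C (m : ℝ) * monomial k w) = C (w * (1 + 2 * ((k : ℝ) + 1 - m))) * X ^ (k + 1) +
        C (w * (50 * ((k : ℝ) + 1 - m))) * X ^ k := by
      rw [← C_mul_X_pow_eq_monomial]
      have : X * (C w * X ^ k) = C w * X ^ (k + 1) := by ring
      rw [this, derivative_C_mul_X_pow]
      simp only [Nat.add_sub_cancel, map_mul, map_add, map_sub, C_1, Nat.cast_add, Nat.cast_one]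
      have h2 : (C (2 : ℝ) : ℝ[X]) = 2 := rfl
      have h25 : (C (25 : ℝ) : ℝ[X]) = 25 := rfl
      have h50 : (C (50 : ℝ) : ℝ[X]) = 50 := rfl
      rw [h2, h25, h50]
      ring
    have h3 := hY ((k : ℤ) + 1 - m)
    have h4 : (k : ℤ) + 1 - m - 1 = (k : ℤ) - m := by ring
    rw [h4] at h3
    have h5 : aeval tp (X * monomial k w) = (w : ℂ) * tp ^ (k + 1) := by
      rw [map_mul, aeval_X, aeval_monomial]
      simp only [Complex.coe_algebraMap]
      ring
    have h6 : ep * ((w : ℂ) * tp ^ (k + 1)) * tp ^ (-(m : ℤ)) =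
        (w : ℂ) * (ep * tp ^ ((k : ℤ) + 1 - m)) := by
      have : tp ^ ((k : ℤ) + 1 - m) = tp ^ (k + 1) * tp ^ (-(m : ℤ)) := by
        rw [sub_eq_add_neg, zpow_add₀ tp_ne]
        congr 1
      rw [this]
      ring
    have h7 : ((k + 1 : ℕ) : ℤ) - m = (k : ℤ) + 1 - m := by push_cast; ring
    rw [e1, map_add, Lam_C_mul_X_pow, Lam_C_mul_X_pow, h5, h6, Complex.im_ofReal_mul, h7]
    rw [bd] at h3
    push_cast at h3
    linear_combination w * h3

/-- The first Pearson coefficient. -/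
noncomputable def Sp (a b m : ℕ) : ℝ[X] :=
  X * Qp + C 2 * (X + C 25) * Qp - C (2 * (m : ℝ)) * (X + C 25) * Qp +
    C 2 * (X + C 25) * X * derivative Qp + C (2 * (a : ℝ)) * X * Qp +
    C (2 * (b : ℝ)) * (X + C 25) * X * derivative Qp

/-- The second Pearson coefficient. -/
noncomputable def Tp : ℝ[X] := C 2 * (X + C 25) * X * Qp

lemma deriv_Wp (a b : ℕ) : (X + C 25) * Qp * derivative (Wp a b) =
    Wp a b * (C (a : ℝ) * Qp + C (b : ℝ) * (X + C 25) * derivative Qp) := by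
  have h1 : (X + C 25) * derivative ((X + C (25 : ℝ)) ^ a) = C (a : ℝ) * (X + C 25) ^ a := by
    rcases Nat.eq_zero_or_pos a with rfl | ha
    · simp
    · obtain ⟨k, rfl⟩ : ∃ k, a = k + 1 := ⟨a - 1, by omega⟩
      rw [derivative_pow, derivative_add, derivative_X, derivative_C, Nat.add_sub_cancel]
      ring
  have h2 : Qp * derivative (Qp ^ b) = C (b : ℝ) * Qp ^ b * derivative Qp := by
    rcases Nat.eq_zero_or_pos b with rfl | hb
    · simp only [pow_zero, derivative_one, mul_zero, CharP.cast_eq_zero, map_zero, mul_one, zero_mul]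
    · obtain ⟨k, rfl⟩ : ∃ k, b = k + 1 := ⟨b - 1, by omega⟩
      rw [derivative_pow, Nat.add_sub_cancel]
      ring
  rw [Wp, derivative_mul]
  calc (X + C 25) * Qp * (derivative ((X + C (25 : ℝ)) ^ a) * Qp ^ b +
        (X + C 25) ^ a * derivative (Qp ^ b))
      = ((X + C 25) * derivative ((X + C (25 : ℝ)) ^ a)) * Qp * Qp ^ b +
        (X + C 25) ^ a * (X + C 25) * (Qp * derivative (Qp ^ b)) := by ring
    _ = _ := by rw [h1, h2]; ring

/-- The weighted functional. -/
noncomputable def LW (Y : ℤ → ℝ) (a b m : ℕ) : ℝ[X] →ₗ[ℝ] ℝ :=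
  (Lam Y m).comp (LinearMap.mulRight ℝ (Wp a b))

lemma LW_apply (Y : ℤ → ℝ) (a b m : ℕ) (U : ℝ[X]) : LW Y a b m U = Lam Y m (U * Wp a b) := rfl

lemma pearson (Y : ℤ → ℝ) (hY : ∀ k : ℤ, (2 * k + 1) * Y k + 50 * k * Y (k - 1) = bd k)
    (a b m : ℕ) (R : ℝ[X]) : LW Y a b m (Sp a b m * R + Tp * derivative R) = 0 := by
  have h1 := pearson0 Y hY m (Qp * R * Wp a b)
  have h2 : aeval tp (X * (Qp * R * Wp a b)) = 0 := by
    rw [map_mul, map_mul, map_mul, tp_root]; simp
  rw [h2, mul_zero, zero_mul, Complex.zero_im, mul_zero] at h1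
  rw [LW_apply, ← h1]
  congr 1
  have h3 := deriv_Wp a b
  have h4 : derivative (X * (Qp * R * Wp a b)) = Qp * R * Wp a b + X * (derivative Qp * R * Wp a b +
      Qp * derivative R * Wp a b + Qp * R * derivative (Wp a b)) := by
    rw [derivative_mul, derivative_X, derivative_mul, derivative_mul]
    ring
  rw [h4, Sp, Tp]
  have e2 : (C (2 * (m : ℝ)) : ℝ[X]) = C 2 * C (m : ℝ) := C_mul
  have e3 : (C (2 * (a : ℝ)) : ℝ[X]) = C 2 * C (a : ℝ) := C_mul
  have e4 : (C (2 * (b : ℝ)) : ℝ[X]) = C 2 * C (b : ℝ) := C_mul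
  rw [e2, e3, e4]
  linear_combination -(C 2 * X * R) * h3

lemma Qp_nat : Qp.natDegree ≤ 2 := by rw [Qp]; compute_degree

lemma Tp_nat : Tp.natDegree ≤ 4 := by
  rw [Tp, Qp]; compute_degree

lemma Tp_coeff : Tp.coeff 4 = 2 := by
  rw [Tp, Qp]
  have : (C (2:ℝ) * (X + C 25) * X * (X ^ 2 + C 56 * X + C 800) : ℝ[X]) =
      C 2 * X ^ 4 + C 162 * X ^ 3 + C 4400 * X ^ 2 + C 40000 * X := by
    have h2 : (C (2 : ℝ) : ℝ[X]) = 2 := rfl
    have h25 : (C (25 : ℝ) : ℝ[X]) = 25 := rfl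
    have h56 : (C (56 : ℝ) : ℝ[X]) = 56 := rfl
    have h800 : (C (800 : ℝ) : ℝ[X]) = 800 := rfl
    have h162 : (C (162 : ℝ) : ℝ[X]) = 162 := rfl
    have h4400 : (C (4400 : ℝ) : ℝ[X]) = 4400 := rfl
    have h40000 : (C (40000 : ℝ) : ℝ[X]) = 40000 := rfl
    rw [h2, h25, h56, h800, h162, h4400, h40000]
    ring
  rw [this]
  simp only [coeff_add, coeff_C_mul, coeff_X_pow, ↓reduceIte, mul_one, Nat.succ_ne_self, mul_zero, add_zero, Nat.reduceEqDiff, coeff_mul_X, coeff_C_succ]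

lemma derivative_Qp : derivative Qp = C 2 * X + C 56 := by
  rw [Qp]
  simp only [derivative_add, derivative_X_pow, derivative_mul, derivative_C, derivative_X]
  simp only [Nat.cast_ofNat, Nat.add_one_sub_one, pow_one, zero_mul, mul_one, zero_add, add_zero]

lemma Sp_nat (a b m : ℕ) : (Sp a b m).natDegree ≤ 3 := by
  rw [Sp, derivative_Qp, Qp]; compute_degree

lemma Sp_coeff (a b m : ℕ) : (Sp a b m).coeff 3 = 7 + 2 * (a : ℝ) + 4 * b - 2 * m := by
  rw [Sp, derivative_Qp, Qp]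
  have h2 : (C (2 : ℝ) : ℝ[X]) = 2 := rfl
  have : ∃ R : ℝ[X], R.natDegree ≤ 2 ∧ X * (X ^ 2 + C 56 * X + C 800) +
      C 2 * (X + C 25) * (X ^ 2 + C 56 * X + C 800) -
      C (2 * (m : ℝ)) * (X + C 25) * (X ^ 2 + C 56 * X + C 800) +
    C 2 * (X + C 25) * X * (C 2 * X + C 56) + C (2 * (a : ℝ)) * X * (X ^ 2 + C 56 * X + C 800) +
    C (2 * (b : ℝ)) * (X + C 25) * X * (C 2 * X + C 56) =
      C (7 + 2 * (a : ℝ) + 4 * b - 2 * m) * X ^ 3 + R := by
    refine ⟨(C 56 * X ^ 2 + C 800 * X) + C 2 * (C 81 * X ^ 2 + C 2200 * X + C 20000) -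
      C (2 * (m : ℝ)) * (C 81 * X ^ 2 + C 2200 * X + C 20000) +
      C 2 * (C 106 * X ^ 2 + C 1400 * X) + C (2 * (a : ℝ)) * (C 56 * X ^ 2 + C 800 * X) +
      C (2 * (b : ℝ)) * (C 106 * X ^ 2 + C 1400 * X), ?_, ?_⟩
    · compute_degree
    · simp only [map_mul, map_sub, map_add]
      have h25 : (C (25 : ℝ) : ℝ[X]) = 25 := rfl
      have h56 : (C (56 : ℝ) : ℝ[X]) = 56 := rfl
      have h800 : (C (800 : ℝ) : ℝ[X]) = 800 := rfl
      have h7 : (C (7 : ℝ) : ℝ[X]) = 7 := rfl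
      have h4 : (C (4 : ℝ) : ℝ[X]) = 4 := rfl
      have h81 : (C (81 : ℝ) : ℝ[X]) = 81 := rfl
      have h2200 : (C (2200 : ℝ) : ℝ[X]) = 2200 := rfl
      have h20000 : (C (20000 : ℝ) : ℝ[X]) = 20000 := rfl
      have h106 : (C (106 : ℝ) : ℝ[X]) = 106 := rfl
      have h1400 : (C (1400 : ℝ) : ℝ[X]) = 1400 := rfl
      rw [h2, h25, h56, h800, h7, h4, h81, h2200, h20000, h106, h1400]
      ring
  obtain ⟨R, hR, he⟩ := this
  rw [he, coeff_add, coeff_C_mul, coeff_X_pow_self, coeff_eq_zero_of_natDegree_lt (by omega)]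
  ring

lemma odd_ne (a b m k : ℕ) : 2 * (k : ℝ) + (Sp a b m).coeff 3 ≠ 0 := by
  rw [Sp_coeff]
  intro h
  have h1 : (((2 * (k + a + 2 * b + 3) + 1 : ℕ) : ℤ) : ℝ) = ((2 * m : ℕ) : ℤ) := by
    push_cast; linarith only [h]
  have h2 : 2 * (k + a + 2 * b + 3) + 1 = 2 * m := by exact_mod_cast h1
  (clear * - h2; omega)

end

section

open Filter Topology
lemma tendsto_eval_div (N : ℂ[X]) :
    Tendsto (fun n : ℕ => N.eval (n : ℂ) / (n : ℂ) ^ N.natDegree) atTop (𝓝 N.leadingCoeff) := by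
  have h1 : ∀ n : ℕ, N.eval (n : ℂ) / (n : ℂ) ^ N.natDegree =
      ∑ i ∈ Finset.range (N.natDegree + 1), N.coeff i * ((n : ℂ) ^ i / (n : ℂ) ^ N.natDegree) := by
    intro n
    rw [eval_eq_sum_range, Finset.sum_div]
    exact Finset.sum_congr rfl fun i _ => by rw [mul_div_assoc]
  have h2 : N.leadingCoeff = ∑ i ∈ Finset.range (N.natDegree + 1),
      N.coeff i * (if i = N.natDegree then 1 else 0) := by
    rw [Finset.sum_eq_single N.natDegree]
    · simp
    · intro i _ hi; simp [hi]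
    · intro h; exact absurd (Finset.mem_range.2 (Nat.lt_succ_self _)) h
  rw [h2]
  simp_rw [h1]
  refine tendsto_finsetSum _ fun i hi => Tendsto.const_mul _ ?_
  rw [Finset.mem_range] at hi
  by_cases h : i = N.natDegree
  · rw [if_pos h, h]
    refine tendsto_const_nhds.congr' ?_
    filter_upwards [eventually_ge_atTop 1] with n hn
    have : (n : ℂ) ≠ 0 := by exact_mod_cast (by omega : n ≠ 0)
    rw [div_self (pow_ne_zero _ this)]
  · rw [if_neg h]
    have hlt : i < N.natDegree := by omega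
    have h3 : Tendsto (fun n : ℕ => ((n : ℂ)⁻¹) ^ (N.natDegree - i)) atTop (𝓝 0) := by
      have : Tendsto (fun n : ℕ => ((n : ℂ)⁻¹)) atTop (𝓝 0) := tendsto_inv_atTop_nhds_zero_nat
      have := this.pow (N.natDegree - i)
      rwa [zero_pow (by omega)] at this
    refine h3.congr' ?_
    filter_upwards [eventually_ge_atTop 1] with n hn
    have hn0 : (n : ℂ) ≠ 0 := by exact_mod_cast (by omega : n ≠ 0)
    have : (n : ℂ) ^ N.natDegree = (n : ℂ) ^ i * (n : ℂ) ^ (N.natDegree - i) := by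
      rw [← pow_add]; congr 1; omega
    rw [this, inv_pow]
    field_simp

/-- The rotation `e ^ 2 / 5`. -/
noncomputable def rot : ℂ := ep ^ 2 / 5

lemma rot_eq : rot = -(3 / 5) - (4 / 5) * Complex.I := by
  rw [rot, ep]
  apply Complex.ext <;> simp [pow_two] <;> norm_num

lemma rot_norm : ‖rot‖ = 1 := by
  have : ‖rot‖ ^ 2 = 1 := by
    rw [← Complex.normSq_eq_norm_sq, rot_eq]
    simp only [Complex.normSq_apply, Complex.sub_re, Complex.neg_re, Complex.div_ofNat_re, Complex.re_ofNat, Complex.mul_re, Complex.I_re, mul_zero, Complex.div_ofNat_im, Complex.im_ofNat, zero_div, Complex.I_im, mul_one, sub_self, sub_zero, mul_neg, neg_mul, neg_neg, Complex.sub_im, Complex.neg_im, neg_zero, Complex.mul_im, add_zero, zero_sub]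
    norm_num
  nlinarith only [this, norm_nonneg rot]

/-- A nonzero polynomial cannot be real on the spiral. -/
lemma no_real (N : ℂ[X]) (hN : N ≠ 0) (h : ∀ n : ℕ, (ep ^ (2 * n + 1) * N.eval (n : ℂ)).im = 0) :
    False := by
  set c := N.leadingCoeff with hc
  have hc0 : c ≠ 0 := leadingCoeff_ne_zero.2 hN
  set w : ℕ → ℂ := fun n => ep * rot ^ n * c with hw
  have h1 : ∀ n : ℕ, 1 ≤ n →
      (ep * rot ^ n * (N.eval (n : ℂ) / (n : ℂ) ^ N.natDegree)).im = 0 := by
    intro n hn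
    have e1 : ep * rot ^ n * (N.eval (n : ℂ) / (n : ℂ) ^ N.natDegree) =
        (((5 ^ n * (n : ℝ) ^ N.natDegree)⁻¹ : ℝ) : ℂ) * (ep ^ (2 * n + 1) * N.eval (n : ℂ)) := by
      rw [rot, div_pow]
      push_cast
      have hn0 : (n : ℂ) ≠ 0 := by exact_mod_cast (by omega : n ≠ 0)
      have : ep ^ (2 * n + 1) = ep * (ep ^ 2) ^ n := by rw [← pow_mul]; ring
      rw [this]
      field_simp
    rw [e1, Complex.im_ofReal_mul, h n, mul_zero]
  have h2 : Tendsto (fun n => (w n).im) atTop (𝓝 0) := by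
    have h3 : Tendsto (fun n : ℕ => ‖ep‖ *
        ‖c - N.eval (n : ℂ) / (n : ℂ) ^ N.natDegree‖) atTop (𝓝 0) := by
      have := (tendsto_eval_div N).const_sub c
      rw [← hc, sub_self] at this
      have := this.norm.const_mul ‖ep‖
      rwa [norm_zero, mul_zero] at this
    refine squeeze_zero_norm' ?_ h3
    filter_upwards [eventually_ge_atTop 1] with n hn
    have e2 : (w n).im = (ep * rot ^ n * (c - N.eval (n : ℂ) / (n : ℂ) ^ N.natDegree)).im := by
      rw [mul_sub, Complex.sub_im, h1 n hn, sub_zero]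
    rw [e2]
    refine (Complex.abs_im_le_norm _).trans ?_
    rw [norm_mul, norm_mul, norm_pow, rot_norm, one_pow, mul_one]
  have h4 : Tendsto (fun n => (w n).re) atTop (𝓝 0) := by
    have e3 : ∀ n, (w n).re = ((w (n + 1)).im - rot.re * (w n).im) / rot.im := by
      intro n
      have : w (n + 1) = rot * w n := by
        simp only [hw]
        rw [pow_succ]; ring
      rw [this, Complex.mul_im]
      have hi : rot.im = -(4 / 5) := by rw [rot_eq]; simp only [Complex.sub_im, Complex.neg_im, Complex.div_ofNat_im, Complex.im_ofNat, zero_div, neg_zero, Complex.mul_im, Complex.div_ofNat_re, Complex.re_ofNat, Complex.I_im, mul_one, Complex.I_re, mul_zero, add_zero, zero_sub]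
      have hi0 : rot.im ≠ 0 := by rw [hi]; norm_num
      field_simp
      ring
    simp_rw [e3]
    have h5 := (tendsto_add_atTop_iff_nat 1).2 h2
    have := ((h5.sub (h2.const_mul rot.re)).div_const rot.im)
    simpa using this
  have h6 : ∀ n, ‖w n‖ = ‖ep‖ * ‖c‖ := by
    intro n
    simp only [hw]
    rw [norm_mul, norm_mul, norm_pow, rot_norm, one_pow, mul_one]
  have h7 : Tendsto (fun n => (w n).re ^ 2 + (w n).im ^ 2) atTop (𝓝 0) := by
    have := (h4.pow 2).add (h2.pow 2)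
    simpa using this
  have h8 : ∀ n, (w n).re ^ 2 + (w n).im ^ 2 = (‖ep‖ * ‖c‖) ^ 2 := by
    intro n
    rw [← h6 n, ← Complex.normSq_eq_norm_sq, Complex.normSq_apply]
    ring
  simp_rw [h8] at h7
  have h9 := tendsto_nhds_unique h7 tendsto_const_nhds
  have hep : ep ≠ 0 := by
    intro h0
    have := congrArg Complex.re h0
    simp [ep] at this
  have h10 : 0 < ‖ep‖ * ‖c‖ := mul_pos (norm_pos_iff.2 hep) (norm_pos_iff.2 hc0)
  have h11 : 0 < (‖ep‖ * ‖c‖) ^ 2 := by positivity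
  rw [← h9] at h11
  exact lt_irrefl _ h11

lemma pearson00 (Y : ℤ → ℝ) (hY : ∀ k : ℤ, (2 * k + 1) * Y k + 50 * k * Y (k - 1) = bd k)
    (H : ℝ[X]) : Lam Y 0 (H + C 2 * (X + C 25) * derivative H) = 2 * (ep * aeval tp H).im := by
  have h1 := pearson0 Y hY 0 H.divX
  have h2 : H = X * H.divX + C (H.coeff 0) := by
    rw [mul_comm]; exact (divX_mul_X_add H).symm
  have h0 : Lam Y 0 (C (H.coeff 0)) = H.coeff 0 * Y 0 := by
    have := Lam_C_mul_X_pow Y 0 0 (H.coeff 0)
    simpa only [pow_zero, mul_one, CharP.cast_eq_zero, sub_self] using this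
  have h3 := hY 0
  simp only [Int.cast_zero, mul_zero, zero_add, one_mul, zero_mul, add_zero] at h3
  rw [bd, zpow_zero, mul_one] at h3
  simp only [Nat.cast_zero, C_0, zero_mul, sub_zero, neg_zero, zpow_zero, mul_one] at h1
  have h4 : H + C 2 * (X + C 25) * derivative H = (X * H.divX + C 2 * (X + C 25) *
      derivative (X * H.divX)) + C (H.coeff 0) := by
    conv_lhs => rw [h2]
    rw [derivative_add, derivative_C]
    ring
  have h5 : aeval tp H = aeval tp (X * H.divX) + ((H.coeff 0 : ℝ) : ℂ) := by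
    conv_lhs => rw [h2]
    rw [map_add, aeval_C]
    rfl
  rw [h4, map_add, h1, h0, h5, h3, mul_add, Complex.add_im]
  have : (ep * ((H.coeff 0 : ℝ) : ℂ)).im = H.coeff 0 * ep.im := by
    rw [mul_comm, Complex.im_ofReal_mul]
  rw [this]
  ring

lemma Lam_shift_pow (Y : ℤ → ℝ)
    (hY : ∀ k : ℤ, (2 * k + 1) * Y k + 50 * k * Y (k - 1) = bd k) (n : ℕ) :
    (2 * (n : ℝ) + 1) * Lam Y 0 ((X + C 25) ^ n) = 2 * (ep ^ (2 * n + 1)).im := by
  have h1 := pearson00 Y hY ((X + C 25) ^ n)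
  have h2 : (X + C (25 : ℝ)) ^ n + C 2 * (X + C 25) * derivative ((X + C (25 : ℝ)) ^ n) =
      C (2 * (n : ℝ) + 1) * (X + C 25) ^ n := by
    rcases Nat.eq_zero_or_pos n with rfl | hn
    · simp
    · obtain ⟨k, rfl⟩ : ∃ k, n = k + 1 := ⟨n - 1, by omega⟩
      rw [derivative_pow, derivative_add, derivative_X, derivative_C, Nat.add_sub_cancel]
      simp only [map_add, map_mul, C_1, Nat.cast_add, Nat.cast_one]
      ring
  rw [h2, ← smul_eq_C_mul, map_smul, smul_eq_mul] at h1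
  rw [h1]
  congr 2
  rw [map_pow, map_add, aeval_X, aeval_C]
  have : tp + (algebraMap ℝ ℂ) 25 = ep ^ 2 := by
    rw [ep_sq]; simp
  rw [this, ← pow_mul]
  ring

lemma Lam_X_mul (Y : ℤ → ℝ) (m : ℕ) (F : ℝ[X]) : Lam Y m (X ^ m * F) = Lam Y 0 F := by
  induction F using Polynomial.induction_on' with
  | add p q hp hq => rw [mul_add, map_add, map_add, hp, hq]
  | monomial k w =>
    rw [X_pow_mul_monomial, Lam_monomial, Lam_monomial]
    congr 2
    push_cast
    ring

/-- No nonzero polynomial is annihilated together with all its multiples. -/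
lemma not_annih (Y : ℤ → ℝ)
    (hY : ∀ k : ℤ, (2 * k + 1) * Y k + 50 * k * Y (k - 1) = bd k) (G : ℝ[X]) (hG : G ≠ 0)
    (h : ∀ U, Lam Y 0 (G * U) = 0) : False := by
  set g := G.comp (X - C 25) with hg
  have hgG : g.comp (X + C 25) = G := by
    rw [hg, comp_assoc]
    simp only [sub_comp, X_comp, C_comp, add_sub_cancel_right, comp_X]
  have hg0 : g ≠ 0 := by
    intro h0
    apply hG
    rw [← hgG, h0, zero_comp]
  set d := g.natDegree with hd
  set N : ℂ[X] := ∑ j ∈ Finset.range (d + 1), C ((g.coeff j : ℂ) * ep ^ (2 * j)) *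
    ∏ i ∈ (Finset.range (d + 1)).erase j, (C 2 * X + C (2 * (i : ℂ) + 1)) with hN
  have hNe : ∀ x : ℂ, N.eval x = ∑ j ∈ Finset.range (d + 1), ((g.coeff j : ℂ) * ep ^ (2 * j)) *
      ∏ i ∈ (Finset.range (d + 1)).erase j, (2 * x + (2 * (i : ℂ) + 1)) := by
    intro x
    rw [hN, eval_finsetSum]
    refine Finset.sum_congr rfl fun j _ => ?_
    rw [eval_mul, eval_C, eval_prod]
    congr 1
    refine Finset.prod_congr rfl fun i _ => ?_
    simp
  have hep : ep ≠ 0 := by
    intro h0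
    have := congrArg Complex.re h0
    simp only [ep, Complex.add_re, Complex.neg_re, Complex.one_re, Complex.mul_re, Complex.re_ofNat, Complex.I_re, mul_zero, Complex.im_ofNat, Complex.I_im, mul_one, sub_self, add_zero, Complex.zero_re, neg_eq_zero, one_ne_zero] at this
  have hN0 : N ≠ 0 := by
    intro h0
    have h1 : N.eval (-(2 * (d : ℂ) + 1) / 2) = 0 := by rw [h0, eval_zero]
    rw [hNe, Finset.sum_eq_single d] at h1
    · rcases mul_eq_zero.1 h1 with h2 | h2
      · rcases mul_eq_zero.1 h2 with h3 | h3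
        · apply hg0
          rw [← leadingCoeff_eq_zero]
          exact_mod_cast h3
        · exact pow_ne_zero _ hep h3
      · rw [Finset.prod_eq_zero_iff] at h2
        obtain ⟨i, hi, h3⟩ := h2
        rw [Finset.mem_erase] at hi
        apply hi.1
        have : (i : ℂ) = (d : ℂ) := by linear_combination h3 / 2
        exact_mod_cast this
    · intro j hj hjd
      rw [Finset.prod_eq_zero (i := d), mul_zero]
      · rw [Finset.mem_erase, Finset.mem_range]
        exact ⟨fun h => hjd h.symm, Nat.lt_succ_self _⟩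
      · ring
    · intro h2; exact absurd (Finset.mem_range.2 (Nat.lt_succ_self _)) h2
  refine no_real N hN0 fun n => ?_
  have h1 := h ((X + C 25) ^ n)
  have h2 : G * (X + C 25) ^ n = ∑ j ∈ Finset.range (d + 1), C (g.coeff j) * (X + C 25) ^ (n + j) := by
    conv_lhs => rw [← hgG]
    rw [comp, eval₂_eq_sum_range, Finset.sum_mul]
    refine Finset.sum_congr rfl fun j _ => ?_
    rw [pow_add]; ring
  rw [h2, map_sum] at h1
  have h3 : ∀ j ∈ Finset.range (d + 1), Lam Y 0 (C (g.coeff j) * (X + C 25) ^ (n + j)) =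
      (∏ i ∈ Finset.range (d + 1), (2 * (n : ℝ) + (2 * (i : ℝ) + 1)))⁻¹ *
      (2 * ((g.coeff j * ∏ i ∈ (Finset.range (d + 1)).erase j, (2 * (n : ℝ) + (2 * (i : ℝ) + 1))) *
        (ep ^ (2 * (n + j) + 1)).im)) := by
    intro j hj
    have h4 := Lam_shift_pow Y hY (n + j)
    rw [← smul_eq_C_mul, map_smul, smul_eq_mul]
    rw [← Finset.mul_prod_erase _ _ hj]
    have h5 : (∏ i ∈ (Finset.range (d + 1)).erase j, (2 * (n : ℝ) + (2 * (i : ℝ) + 1))) ≠ 0 :=
      Finset.prod_ne_zero_iff.2 fun i _ => by (clear * -; positivity)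
    have h6 : (2 * (n : ℝ) + (2 * (j : ℝ) + 1)) ≠ 0 := by (clear * -; positivity)
    set Pr := ∏ i ∈ (Finset.range (d + 1)).erase j, (2 * (n : ℝ) + (2 * (i : ℝ) + 1)) with hPr
    have h7 : Lam Y 0 ((X + C 25) ^ (n + j)) =
        2 * (ep ^ (2 * (n + j) + 1)).im / (2 * (n : ℝ) + (2 * (j : ℝ) + 1)) := by
      rw [eq_div_iff h6, ← h4]
      push_cast
      ring
    rw [h7]
    (clear * - h5 h6; field_simp)
  rw [Finset.sum_congr rfl h3, ← Finset.mul_sum, ← Finset.mul_sum] at h1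
  have h4 : (∏ i ∈ Finset.range (d + 1), (2 * (n : ℝ) + (2 * (i : ℝ) + 1)))⁻¹ ≠ 0 :=
    inv_ne_zero (Finset.prod_ne_zero_iff.2 fun i _ => by (clear * -; positivity))
  have h5 := (mul_eq_zero.1 ((mul_eq_zero.1 h1).resolve_left h4)).resolve_left two_ne_zero
  rw [hNe, Finset.mul_sum, Complex.im_sum, ← h5]
  refine Finset.sum_congr rfl fun j _ => ?_
  have h6 : ep ^ (2 * n + 1) * ((g.coeff j : ℂ) * ep ^ (2 * j) *
      ∏ i ∈ (Finset.range (d + 1)).erase j, (2 * (n : ℂ) + (2 * (i : ℂ) + 1))) =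
      ((g.coeff j * ∏ i ∈ (Finset.range (d + 1)).erase j,
        (2 * (n : ℝ) + (2 * (i : ℝ) + 1)) : ℝ) : ℂ) * ep ^ (2 * (n + j) + 1) := by
    push_cast
    have : ep ^ (2 * (n + j) + 1) = ep ^ (2 * n + 1) * ep ^ (2 * j) := by
      rw [← pow_add]; congr 1; ring
    rw [this]
    ring
  rw [h6, Complex.im_ofReal_mul]

/-- **Non-vanishing**: among three consecutive Hankel determinants of the weighted functional at
least one is nonzero. -/
theorem nonvan_HM (Y : ℤ → ℝ)
    (hY : ∀ k : ℤ, (2 * k + 1) * Y k + 50 * k * Y (k - 1) = bd k) (a b m K : ℕ) :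
    ∃ K', K ≤ K' ∧ K' ≤ K + 2 ∧ (HM (LW Y a b m) K').det ≠ 0 := by
  by_contra hcon
  push Not at hcon
  -- the last nonvanishing index below `K`
  have hex : ∃ n, n < K ∧ (HM (LW Y a b m) n).det ≠ 0 ∧
      ∀ k, n < k → k ≤ K + 2 → (HM (LW Y a b m) k).det = 0 := by
    have hP : ∀ N, N ≤ K → (∀ k, N ≤ k → k ≤ K + 2 → (HM (LW Y a b m) k).det = 0) →
        ∃ n, n < K ∧ (HM (LW Y a b m) n).det ≠ 0 ∧
          ∀ k, n < k → k ≤ K + 2 → (HM (LW Y a b m) k).det = 0 := by
      intro N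
      induction N with
      | zero =>
        intro _ h
        exfalso
        have := h 0 le_rfl (by omega)
        simp at this
      | succ N ih =>
        intro hN h
        by_cases h0 : (HM (LW Y a b m) N).det = 0
        · refine ih (by omega) fun k hk1 hk2 => ?_
          rcases Nat.eq_or_lt_of_le hk1 with rfl | h'
          · exact h0
          · exact h k h' hk2
        · exact ⟨N, by omega, h0, fun k hk1 hk2 => h k hk1 hk2⟩
    exact hP K le_rfl fun k h1 h2 => hcon k h1 h2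
  obtain ⟨n, hn, hn0, hz⟩ := hex
  obtain ⟨P, hP, hPU⟩ := semiclassical (LW Y a b m) (Sp a b m) Tp (pearson Y hY a b m) Tp_nat
    Tp_coeff (Sp_nat a b m) (odd_ne a b m) hn0 (hz _ (by omega) (by omega))
    (hz _ (by omega) (by omega)) (hz _ (by omega) (by omega))
  have hW0 : Wp a b ≠ 0 := by
    rw [Wp]
    refine mul_ne_zero (pow_ne_zero _ (X_add_C_ne_zero 25)) (pow_ne_zero _ ?_)
    intro h0
    have := congrArg (fun p => coeff p 2) h0
    simp only [Qp, coeff_add, coeff_X_pow, ↓reduceIte, coeff_mul_X, coeff_C_succ, add_zero, coeff_zero, one_ne_zero] at this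
  refine not_annih Y hY (P * Wp a b) (mul_ne_zero hP.ne_zero hW0) fun U => ?_
  have h1 := hPU (X ^ m * U)
  rw [LW_apply] at h1
  rw [← Lam_X_mul Y m, ← h1]
  congr 1
  ring

/-- The weighted moments. -/
noncomputable def cc (Y : ℤ → ℝ) (a b m n : ℕ) : ℝ :=
  (Wp a b).sum fun k w => w * Y ((n : ℤ) + k - m)

lemma LW_X_pow (Y : ℤ → ℝ) (a b m n : ℕ) : LW Y a b m (X ^ n) = cc Y a b m n := by
  rw [LW_apply, cc]
  conv_lhs => rw [← sum_monomial_eq (Wp a b)]
  rw [Polynomial.sum, Finset.mul_sum, map_sum, Polynomial.sum]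
  refine Finset.sum_congr rfl fun k _ => ?_
  rw [X_pow_mul_monomial, Lam_monomial]
  congr 2
  push_cast
  ring

/-- **Non-vanishing**, matrix form. -/
theorem nonvan (Y : ℤ → ℝ)
    (hY : ∀ k : ℤ, (2 * k + 1) * Y k + 50 * k * Y (k - 1) = bd k) (a b m K : ℕ) :
    ∃ K', K ≤ K' ∧ K' ≤ K + 2 ∧
      (Matrix.of fun i j : Fin K' => cc Y a b m ((i : ℕ) + (j : ℕ))).det ≠ 0 := by
  obtain ⟨K', h1, h2, h3⟩ := nonvan_HM Y hY a b m K
  refine ⟨K', h1, h2, ?_⟩
  have : HM (LW Y a b m) K' = Matrix.of fun i j : Fin K' => cc Y a b m ((i : ℕ) + (j : ℕ)) := by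
    ext i j
    rw [HM, Matrix.of_apply, Matrix.of_apply, LW_X_pow]
  rwa [this] at h3

end

section
lemma tau_ne (y : ℝ) : (-1 + (y : ℂ) * Complex.I) ^ 2 - 25 ≠ 0 := form_tau_ne y

lemma hasDerivAt_stau (k : ℤ) (y : ℝ) :
    HasDerivAt (fun y : ℝ => (-1 + (y : ℂ) * Complex.I) *
        ((-1 + (y : ℂ) * Complex.I) ^ 2 - 25) ^ k)
      (Complex.I * ((2 * (k : ℂ) + 1) * ((-1 + (y : ℂ) * Complex.I) ^ 2 - 25) ^ k +
        50 * (k : ℂ) * ((-1 + (y : ℂ) * Complex.I) ^ 2 - 25) ^ (k - 1))) y := by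
  have h1 : HasDerivAt (fun y : ℝ => (-1 + (y : ℂ) * Complex.I)) Complex.I y := by
    have := ((Complex.ofRealCLM.hasDerivAt (x := y)).mul_const Complex.I).const_add (-1 : ℂ)
    simpa only [hasDerivAt_const_add_iff, Complex.ofRealCLM_apply, Complex.ofReal_one, one_mul] using this
  have h2 : HasDerivAt (fun y : ℝ => (-1 + (y : ℂ) * Complex.I) ^ 2 - 25)
      (2 * (-1 + (y : ℂ) * Complex.I) * Complex.I) y := by
    have := (h1.pow 2).sub_const (25 : ℂ)
    simpa only [hasDerivAt_sub_const_iff, Pi.pow_apply, Nat.cast_ofNat, Nat.add_one_sub_one, pow_one] using this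
  have h3 : HasDerivAt (fun y : ℝ => ((-1 + (y : ℂ) * Complex.I) ^ 2 - 25) ^ k)
      ((k : ℂ) * ((-1 + (y : ℂ) * Complex.I) ^ 2 - 25) ^ (k - 1) *
        (2 * (-1 + (y : ℂ) * Complex.I) * Complex.I)) y :=
    (hasDerivAt_zpow k _ (Or.inl (tau_ne y))).comp_of_eq y h2 rfl
  refine HasDerivAt.congr_deriv (h1.mul h3) ?_
  set s : ℂ := -1 + (y : ℂ) * Complex.I with hs
  have h5 : (s ^ 2 - 25) ^ k = (s ^ 2 - 25) ^ (k - 1) * (s ^ 2 - 25) := by
    rw [← zpow_add_one₀ (tau_ne y), sub_add_cancel]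
  rw [h5]
  ring

lemma continuous_tau (k : ℤ) :
    Continuous (fun y : ℝ => ((-1 + (y : ℂ) * Complex.I) ^ 2 - 25) ^ k) := by
  refine Continuous.zpow₀ (by fun_prop) k fun y => Or.inl (tau_ne y)

lemma XX_rec (k : ℤ) : (2 * (k : ℂ) + 1) * XX k + 50 * (k : ℂ) * XX (k - 1) = (bd k : ℂ) := by
  have h1 := intervalIntegral.integral_eq_sub_of_hasDerivAt (a := (-2 : ℝ)) (b := 2)
    (fun y _ => hasDerivAt_stau k y)
    (Continuous.intervalIntegrable (by
      have := continuous_tau k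
      have := continuous_tau (k - 1)
      fun_prop) _ _)
  rw [intervalIntegral.integral_const_mul, intervalIntegral.integral_add,
    intervalIntegral.integral_const_mul, intervalIntegral.integral_const_mul] at h1
  · have h2 : XX k = ∫ y in (-2 : ℝ)..2, ((-1 + (y : ℂ) * Complex.I) ^ 2 - 25) ^ k := rfl
    have h3 : XX (k - 1) = ∫ y in (-2 : ℝ)..2, ((-1 + (y : ℂ) * Complex.I) ^ 2 - 25) ^ (k - 1) := rfl
    rw [← h2, ← h3] at h1
    have e1 : (-1 + ((2 : ℝ) : ℂ) * Complex.I) = ep := by rw [ep]; push_cast; ring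
    have e2 : (-1 + ((-2 : ℝ) : ℂ) * Complex.I) = (starRingEnd ℂ) ep := by
      rw [ep, map_add, map_mul, Complex.conj_I, map_neg, map_one, Complex.conj_ofNat]
      push_cast
      ring
    have e3 : ep ^ 2 - 25 = tp := by rw [ep_sq]; ring
    rw [e1, e2, ← map_pow, e3] at h1
    have e4 : (starRingEnd ℂ) (ep ^ 2) - 25 = (starRingEnd ℂ) tp := by
      rw [← e3, map_sub]
      congr 1
      exact (Complex.conj_ofNat 25).symm
    rw [e4, ← map_zpow₀, ← map_mul, xneg_sub_conj] at h1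
    have h5 : Complex.I * ((2 * (k : ℂ) + 1) * XX k + 50 * (k : ℂ) * XX (k - 1)) =
        Complex.I * (bd k : ℂ) := by
      rw [h1, bd]
      push_cast
      ring
    exact mul_left_cancel₀ Complex.I_ne_zero h5
  · exact ((continuous_tau k).const_mul _).intervalIntegrable _ _
  · exact ((continuous_tau (k - 1)).const_mul _).intervalIntegrable _ _

lemma aco_rec (k : ℤ) : (2 * (k : ℚ) + 1) * aco k + 50 * (k : ℚ) * aco (k - 1) = 0 := by
  rcases lt_trichotomy k 0 with hk | rfl | hk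
  · obtain ⟨n, rfl⟩ : ∃ n : ℕ, k = -((n + 1 : ℕ) : ℤ) := ⟨k.natAbs - 1, by omega⟩
    rw [aco, aco, if_neg (by omega), if_neg (by omega)]
    have h1 : (-((n + 1 : ℕ) : ℤ)).natAbs = n + 1 := by omega
    have h2 : (-((n + 1 : ℕ) : ℤ) - 1).natAbs = n + 2 := by omega
    rw [h1, h2]
    have e1 : 2 * (n + 1) - 2 = 2 * n := by omega
    have e2 : n + 1 - 1 = n := by omega
    have e3 : 2 * (n + 1) - 1 = 2 * n + 1 := by omega
    have e4 : 2 * (n + 2) - 2 = 2 * (n + 1) := by omega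
    have e5 : n + 2 - 1 = n + 1 := by omega
    have e6 : 2 * (n + 2) - 1 = 2 * n + 1 + 2 := by omega
    rw [e1, e2, e3, e4, e5, e6]
    have h3 := Nat.succ_mul_centralBinom_succ n
    rw [Nat.centralBinom, Nat.centralBinom] at h3
    have h4 : ((n : ℚ) + 1) * ((2 * (n + 1)).choose (n + 1) : ℚ) =
        2 * (2 * n + 1) * ((2 * n).choose n : ℚ) := by exact_mod_cast h3
    rw [pow_add (10 : ℚ) (2 * n + 1) 2, pow_succ (-1 : ℚ) (n + 1)]
    have h10 : (10 : ℚ) ^ (2 * n + 1) ≠ 0 := by positivity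
    push_cast
    field_simp
    linear_combination (50 * (-1 : ℚ) ^ (n + 1)) * h4
  · simp only [Int.cast_zero, mul_zero, zero_add, aco, Std.le_refl, ↓reduceIte, zero_sub, Int.reduceNeg, Int.neg_nonneg, Int.reduceLE, IsUnit.neg_iff, isUnit_one, Int.natAbs_of_isUnit, pow_one, mul_one, tsub_self, Nat.choose_self, Nat.cast_one, Nat.add_one_sub_one, zero_mul, add_zero]
  · rw [aco, aco, if_pos (by omega), if_pos (by omega)]
    ring

lemma bco_rec (k : ℤ) :
    (2 * (k : ℝ) + 1) * (bco k : ℝ) + 50 * (k : ℝ) * (bco (k - 1) : ℝ) = bd k := by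
  have h1 := XX_rec k
  rw [XX_eq, XX_eq] at h1
  have h2 : (2 * (k : ℂ) + 1) * (aco k : ℂ) + 50 * (k : ℂ) * (aco (k - 1) : ℂ) = 0 := by
    exact_mod_cast congrArg (Rat.cast : ℚ → ℂ) (aco_rec k)
  have h3 : (2 * (k : ℂ) + 1) * (bco k : ℂ) + 50 * (k : ℂ) * (bco (k - 1) : ℂ) = (bd k : ℂ) := by
    linear_combination h1 - ((Real.pi : ℂ) / 2) * h2
  exact_mod_cast h3

lemma comb_rec (x : ℝ) (k : ℤ) :
    (2 * (k : ℝ) + 1) * (x * (aco k : ℝ) + (bco k : ℝ)) +
      50 * (k : ℝ) * (x * (aco (k - 1) : ℝ) + (bco (k - 1) : ℝ)) = bd k := by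
  have h1 := bco_rec k
  have h2 : (2 * (k : ℝ) + 1) * (aco k : ℝ) + 50 * (k : ℝ) * (aco (k - 1) : ℝ) = 0 := by
    exact_mod_cast congrArg (Rat.cast : ℚ → ℝ) (aco_rec k)
  linear_combination h1 + x * h2

lemma wp_map (a b : ℕ) : (wp a b).map (Int.castRingHom ℝ) = Wp a b := by
  rw [wp, Wp, Qp]
  have e : ∀ n : ℤ, (C n : ℤ[X]).map (Int.castRingHom ℝ) = C (n : ℝ) := fun n => by
    rw [map_C]; rfl
  simp only [Polynomial.map_mul, Polynomial.map_pow, Polynomial.map_add, map_X, e]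
  norm_num

lemma Wp_natDegree (a b : ℕ) : (Wp a b).natDegree < a + 2 * b + 1 := by
  rw [Wp]
  have h1 : (X + C (25 : ℝ)).natDegree ≤ 1 := by compute_degree
  have h3 := natDegree_pow_le_of_le a h1
  have h4 := natDegree_pow_le_of_le b Qp_nat
  have h5 := natDegree_mul_le_of_le h3 h4
  (clear * - h5; omega)

/-- **Non-vanishing** (real form): for every real `x` one of three consecutive Hankel determinants
of the functional `x * aco + bco` is nonzero. -/
theorem nonvan_real (x : ℝ) (a b m K : ℕ) : ∃ K', K ≤ K' ∧ K' ≤ K + 2 ∧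
    (Matrix.of fun i j : Fin K' => ∑ l ∈ Finset.range (a + 2 * b + 1),
      ((wp a b).coeff l : ℝ) * (x * (aco ((i : ℤ) + j - m + l) : ℝ) +
        (bco ((i : ℤ) + j - m + l) : ℝ))).det ≠ 0 := by
  obtain ⟨K', h1, h2, h3⟩ := nonvan (fun k => x * (aco k : ℝ) + (bco k : ℝ)) (comb_rec x) a b m K
  refine ⟨K', h1, h2, ?_⟩
  convert h3 using 3
  ext i j
  rw [cc, sum_over_range' _ (by simp only [Nat.cast_add, zero_mul, implies_true]) (a + 2 * b + 1) (Wp_natDegree a b)]
  refine Finset.sum_congr rfl fun l _ => ?_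
  have e1 : (i : ℤ) + j - m + l = (((i : ℕ) + (j : ℕ) : ℕ) : ℤ) + l - m := by push_cast; ring
  rw [← wp_map, coeff_map, e1]
  simp only [Nat.cast_add, eq_intCast]

/-- **Non-vanishing** of `mat`: for rationals `u`, `v ≠ 0` and a positive integer `D`, one of three
consecutive determinants is nonzero. -/
theorem nonvan_mat (u v : ℚ) (hv : v ≠ 0) (D : ℕ) (hD : D ≠ 0) (a b m K : ℕ) :
    ∃ K', K ≤ K' ∧ K' ≤ K + 2 ∧
      (mat K' a b m D (fun k => u * aco k + v * bco k)).det ≠ 0 := by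
  obtain ⟨K', h1, h2, h3⟩ := nonvan_real ((u / v : ℚ) : ℝ) a b m K
  refine ⟨K', h1, h2, fun h0 => h3 ?_⟩
  have hDv : ((D : ℚ) * v) ≠ 0 := mul_ne_zero (by exact_mod_cast hD) hv
  have h4 : mat K' a b m D (fun k => u * aco k + v * bco k) = ((D : ℚ) * v) •
      (Matrix.of fun i j : Fin K' => ∑ l ∈ Finset.range (a + 2 * b + 1),
      ((wp a b).coeff l : ℚ) * ((u / v) * aco ((i : ℤ) + j - m + l) +
        bco ((i : ℤ) + j - m + l))) := by
    ext i j
    rw [Matrix.smul_apply, Matrix.of_apply, mat, ent, smul_eq_mul, mul_assoc]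
    congr 1
    rw [Finset.mul_sum]
    refine Finset.sum_congr rfl fun l _ => ?_
    field_simp
  rw [h4, Matrix.det_smul] at h0
  have h5 := (mul_eq_zero.1 h0).resolve_left (pow_ne_zero _ hDv)
  have h6 := congrArg (Rat.castHom ℝ) h5
  rw [RingHom.map_det, map_zero] at h6
  rw [← h6]
  congr 1
  ext i j
  simp only [Rat.cast_div, Matrix.of_apply, RingHom.mapMatrix_apply, Rat.coe_castHom, Matrix.map_apply, Rat.cast_sum, Rat.cast_mul, Rat.cast_intCast, Rat.cast_add]

end

theorem lam_rec (x : ℝ) (k : ℤ) :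
    (2 * (k : ℝ) + 1) * lam x k + 50 * (k : ℝ) * lam x (k - 1) = bd k := by
  have h := comb_rec (x / 2) k
  rw [lam, lam]
  linear_combination h

end Vale.Agent.P021.Det.NV

namespace Vale.Agent.P021.Det

open Polynomial

/-- **Non-vanishing**: one of three consecutive determinants is nonzero. -/
theorem exists_det_ne_zero (x : ℝ) (a b m K : ℕ) :
    ∃ κ ≤ 2, (HM x a b m (K + κ)).det ≠ 0 := by
  obtain ⟨K', h1, h2, h3⟩ := NV.nonvan_HM (lam x) (NV.lam_rec x) a b m K
  refine ⟨K' - K, by omega, ?_⟩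
  have e : K + (K' - K) = K' := by omega
  rw [e]
  exact h3

end Vale.Agent.P021.Det
end

section

open Filter Topology

namespace Vale.Agent.P021.Det

/-- the upper bound for `μ(π)` from an arithmetic lower bound with constant `cc` and a
certificate. -/
theorem main_bound_gen {K0 a0 b0 m0 N : ℕ} {w : ℝ} {S T : Set ℂ} (cc μ0 : ℝ)
    (C : Cert K0 a0 b0 m0 N w S T) (hw : 0 < w) (hK0 : 0 < K0) (hT : BetBound T)
    (hTb : Bornology.IsBounded T)
    (l : List ℂ) (x0 : ℝ) (hh : l.head? = some (x0 : ℂ))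
    (hl : l.getLast? = some (-1 + 2 * Complex.I)) (hs : ∀ v ∈ l, |v.re| < 5)
    (hS : PathIn S l) (hSb : Bornology.IsBounded S)
    (har : ∀ ε : ℝ, 0 < ε → ∀ᶠ n : ℕ in atTop, ∀ κ ≤ 2, ∀ p q : ℤ, 0 < q →
      (HM ((p : ℝ) / q) (a0 * n) (b0 * n) (m0 * n) (K0 * n + κ)).det ≠ 0 →
      Real.exp (-(cc + ε) * (n : ℝ) ^ 2) ≤
        (q : ℝ) ^ (K0 * n + κ) *
          |(HM ((p : ℝ) / q) (a0 * n) (b0 * n) (m0 * n) (K0 * n + κ)).det|)
    (hδ : 0 < -C.total - cc) (hμ : w * K0 ≤ μ0 * (-C.total - cc)) :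
    irrationalityExponent Real.pi ≤ (μ0 : EReal) :=
  core_bound (fun n κ x => (HM x (a0 * n) (b0 * n) (m0 * n) (K0 * n + κ)).det) K0 hK0 w cc
    C.total μ0 hw har
    (fun _ hε => arch_upper C hw.le hT hTb l x0 hh hl hs hS hSb hε)
    (fun n x => exists_det_ne_zero x (a0 * n) (b0 * n) (m0 * n) (K0 * n)) hδ hμ

end Vale.Agent.P021.Det
end

section

/-!
# The crude local bounds
-/

open Polynomial

namespace Vale.Agent.P021.Det

/-- the coefficient sequence of the rational determinant -/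
noncomputable def cpq (p q : ℤ) : ℤ → ℚ := fun k => (p : ℚ) * aco k + ((2 * q : ℤ) : ℚ) * bco k

theorem loc_good (p q : ℤ) (L : ℕ) {lo hi : ℤ} (hlo : -lo ≤ L) (hhi : 2 * hi + 1 ≤ L) :
    Good (Nat.lcmUpto L) lo hi (cpq p q) := by
  have h := (good_aco (D := Nat.lcmUpto L) (lo := lo) (hi := hi)).comb
    (good_bco (D := Nat.lcmUpto L) (L := L) (fun j hj1 hj2 => ?_) hlo hhi) p (2 * q)
  · exact h
  · exact Finset.dvd_lcm (f := id) (Finset.mem_Icc.2 ⟨hj1, hj2⟩)

theorem loc_norm_lcm (L l : ℕ) (hl : l.Prime) :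
    padicNorm l (Nat.lcmUpto L : ℚ) = ((l : ℚ) ^ (Nat.log l L))⁻¹ := by
  have : Fact l.Prime := ⟨hl⟩
  have h0 : (Nat.lcmUpto L : ℚ) ≠ 0 := by exact_mod_cast Nat.lcmUpto_ne_zero L
  rw [padicNorm.eq_zpow_of_nonzero h0, padicValRat.of_nat, zpow_neg, zpow_natCast,
    ← Nat.factorization_def _ hl, Nat.factorization_lcmUpto _ hl]

theorem loc_norm_lcm_inv_le (L l : ℕ) (hl : l.Prime) (hL : 1 ≤ L) :
    (padicNorm l (Nat.lcmUpto L : ℚ))⁻¹ ≤ L := by
  rw [loc_norm_lcm L l hl, inv_inv]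
  exact_mod_cast Nat.pow_log_le_self l (by omega)

theorem loc_norm_lcm_lt (L l : ℕ) (hl : l.Prime) (hL : L < l) :
    padicNorm l (Nat.lcmUpto L : ℚ) = 1 := by
  rw [loc_norm_lcm L l hl, Nat.log_of_lt hL]
  simp

theorem loc_mat (a b m K D : ℕ) (c : ℤ → ℚ) :
    (mat K a b m D c).det = (D : ℚ) ^ K * (mat K a b m 1 c).det := by
  have h : mat K a b m D c = (D : ℚ) • mat K a b m 1 c := by
    ext i j
    rw [Matrix.smul_apply, mat, mat, smul_eq_mul]
    push_cast
    ring
  rw [h, Matrix.det_smul, Fintype.card_fin]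

theorem loc_NN (a b m K : ℕ) (p q : ℤ) :
    NN a b m K p q = (mat K a b m 1 (cpq p q)).det := rfl

/-- norm of `NN` from the norm of the determinant multiplied by `D` -/
theorem loc_norm_eq (a b m K D l : ℕ) (hl : l.Prime) (hD : D ≠ 0) (p q : ℤ) :
    padicNorm l (NN a b m K p q) =
      ((padicNorm l (D : ℚ))⁻¹) ^ K * padicNorm l (mat K a b m D (cpq p q)).det := by
  have : Fact l.Prime := ⟨hl⟩
  have h0 : padicNorm l (D : ℚ) ≠ 0 := padicNorm.nonzero (by exact_mod_cast hD)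
  rw [loc_mat, padicNorm.mul, val_norm_pow, inv_pow, ← mul_assoc,
    inv_mul_cancel₀ (pow_ne_zero _ h0), one_mul, loc_NN]

theorem loc_rng_good (a b m K : ℕ) (p q : ℤ) :
    Good (Nat.lcmUpto (rng a b m K)) (-(m : ℤ)) (2 * K + a + 2 * b) (cpq p q) := by
  apply loc_good
  · unfold rng; omega
  · unfold rng; omega

/-- primes larger than `rng` -/
theorem local_big (a b m K : ℕ) (p q : ℤ) (l : ℕ) (hl : l.Prime) (h7 : 7 ≤ l)
    (hr : rng a b m K < l) : padicNorm l (NN a b m K p q) ≤ 1 := by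
  rw [loc_norm_eq a b m K (Nat.lcmUpto (rng a b m K)) l hl (Nat.lcmUpto_ne_zero _) p q,
    loc_norm_lcm_lt _ l hl hr, inv_one, one_pow, one_mul]
  exact other_det (K := K) (a := a) (b := b) (m := m) (loc_rng_good a b m K p q) le_rfl
    (by (clear * -; omega)) l hl (by omega) (by omega)

/-- crude bound -/
theorem local_crude (a b m K : ℕ) (p q : ℤ) (l : ℕ) (hl : l.Prime) (h2 : l ≠ 2) (h5 : l ≠ 5) :
    padicNorm l (NN a b m K p q) ≤ (rng a b m K : ℚ) ^ K := by
  have : Fact l.Prime := ⟨hl⟩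
  rw [loc_norm_eq a b m K (Nat.lcmUpto (rng a b m K)) l hl (Nat.lcmUpto_ne_zero _) p q]
  have h1 := other_det (K := K) (a := a) (b := b) (m := m) (loc_rng_good a b m K p q) le_rfl
    (by omega) l hl h2 h5
  have h3 := loc_norm_lcm_inv_le (rng a b m K) l hl (by unfold rng; omega)
  calc ((padicNorm l (Nat.lcmUpto (rng a b m K) : ℚ))⁻¹) ^ K *
        padicNorm l (mat K a b m (Nat.lcmUpto (rng a b m K)) (cpq p q)).det
      ≤ (rng a b m K : ℚ) ^ K * 1 := by
        apply mul_le_mul _ h1 (padicNorm.nonneg _) (by positivity)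
        exact pow_le_pow_left₀ (inv_nonneg.2 (padicNorm.nonneg _)) h3 K
    _ = _ := mul_one _

/-- the prime 2 -/
theorem local_two (a b m K : ℕ) (p q : ℤ) :
    (padicNorm 2 (NN a b m K p q)) ^ 2 ≤
      (rng a b m K : ℚ) ^ (2 * K) * (32 : ℚ) ^ ((K : ℤ) * (m - 2 * b) - K * (K - 1)) := by
  rw [loc_norm_eq a b m K (Nat.lcmUpto (rng a b m K)) 2 Nat.prime_two (Nat.lcmUpto_ne_zero _) p q]
  have h1 := two_det (K := K) (a := a) (b := b) (m := m) (loc_rng_good a b m K p q) le_rfl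
    (by omega)
  have h3 := loc_norm_lcm_inv_le (rng a b m K) 2 Nat.prime_two (by unfold rng; omega)
  rw [mul_pow, ← pow_mul, mul_comm K 2]
  apply mul_le_mul _ h1 (by (clear * -; positivity)) (by (clear * -; positivity))
  exact pow_le_pow_left₀ (inv_nonneg.2 (padicNorm.nonneg _)) h3 _

/-- the prime 5 -/
theorem local_five (a b m K : ℕ) (p q : ℤ) :
    padicNorm 5 (NN a b m K p q) ≤
      (rng a b m K : ℚ) ^ K * (5 : ℚ) ^ (2 * ∑ i ∈ Finset.range K, (m - (a + b + 2 * i))) := by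
  rw [loc_norm_eq a b m K (Nat.lcmUpto (rng a b m K)) 5 Nat.prime_five (Nat.lcmUpto_ne_zero _) p q]
  have h1 := five_det (K := K) (a := a) (b := b) (m := m) (loc_rng_good a b m K p q) le_rfl
    (by omega)
  have h3 := loc_norm_lcm_inv_le (rng a b m K) 5 Nat.prime_five (by unfold rng; omega)
  apply mul_le_mul _ h1 (padicNorm.nonneg _) (by (clear * -; positivity))
  exact pow_le_pow_left₀ (inv_nonneg.2 (padicNorm.nonneg _)) h3 _

end Vale.Agent.P021.Det
end

section

/-!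
# The window saving
-/

open Polynomial

namespace Vale.Agent.P021.Det

/-- `F ↦ ∑ F_k c (k - m)` on integer polynomials -/
noncomputable def LZ (c : ℤ → ℚ) (m : ℕ) : ℤ[X] →ₗ[ℤ] ℚ :=
  Polynomial.lsum fun k => LinearMap.toSpanSingleton ℤ ℚ (c ((k : ℤ) - m))

theorem LZ_eq_sum (c : ℤ → ℚ) (m : ℕ) (F : ℤ[X]) {N : ℕ} (hN : F.natDegree < N) :
    LZ c m F = ∑ j ∈ Finset.range N, (F.coeff j : ℚ) * c ((j : ℤ) - m) := by
  unfold LZ
  rw [Polynomial.lsum_apply, Polynomial.sum_over_range' _ _ N hN]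
  · apply Finset.sum_congr rfl
    intro j _
    simp only [LinearMap.toSpanSingleton_apply, zsmul_eq_mul]
  · intro j
    simp only [LinearMap.toSpanSingleton_apply, zero_smul]

theorem LZ_X_pow (c : ℤ → ℚ) (m k : ℕ) : LZ c m (X ^ k) = c ((k : ℤ) - m) := by
  unfold LZ
  rw [Polynomial.lsum_apply, ← Polynomial.monomial_one_right_eq_X_pow,
    Polynomial.sum_monomial_index]
  · simp only [LinearMap.toSpanSingleton_apply, one_smul]
  · simp only [LinearMap.toSpanSingleton_apply, zero_smul]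

theorem LZ_monomial (c : ℤ → ℚ) (m k : ℕ) (w : ℤ) :
    LZ c m (monomial k w) = w * c ((k : ℤ) - m) := by
  unfold LZ
  rw [Polynomial.lsum_apply, Polynomial.sum_monomial_index]
  · simp only [LinearMap.toSpanSingleton_apply, zsmul_eq_mul]
  · simp

/-- shift -/
theorem LZ_shift (c : ℤ → ℚ) (m e : ℕ) (F : ℤ[X]) : LZ c (m + e) (X ^ e * F) = LZ c m F := by
  induction F using Polynomial.induction_on' with
  | add p q hp hq => rw [mul_add, map_add, map_add, hp, hq]
  | monomial k w =>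
    rw [X_pow_mul_monomial, LZ_monomial, LZ_monomial]
    congr 2
    push_cast
    ring

/-- linear combinations of sequences -/
theorem LZ_comb (c c' : ℤ → ℚ) (u v : ℚ) (m : ℕ) (F : ℤ[X]) :
    LZ (fun k => u * c k + v * c' k) m F = u * LZ c m F + v * LZ c' m F := by
  rw [LZ_eq_sum _ m F (Nat.lt_succ_self _), LZ_eq_sum _ m F (Nat.lt_succ_self _),
    LZ_eq_sum _ m F (Nat.lt_succ_self _), Finset.mul_sum, Finset.mul_sum,
    ← Finset.sum_add_distrib]
  apply Finset.sum_congr rfl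
  intro j _
  ring

/-- norm bound -/
theorem LZ_norm_le (l : ℕ) [Fact l.Prime] (c : ℤ → ℚ) (m : ℕ) (F : ℤ[X]) (B : ℚ) (hB : 0 ≤ B)
    (lo hi : ℤ) (hc : ∀ k, lo ≤ k → k ≤ hi → padicNorm l (c k) ≤ B) (hlo : lo ≤ -(m : ℤ))
    (hhi : (F.natDegree : ℤ) - m ≤ hi) : padicNorm l (LZ c m F) ≤ B := by
  rw [LZ_eq_sum c m F (Nat.lt_succ_self _)]
  have h := val_sum_le l 1 (Finset.range (F.natDegree + 1))
    (fun j => (F.coeff j : ℚ) * c ((j : ℤ) - m)) hB one_ne_zero ?_
  · rw [pow_one] at h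
    exact h
  · intro j hj
    rw [Finset.mem_range] at hj
    rw [pow_one, padicNorm.mul]
    calc padicNorm l (F.coeff j : ℚ) * padicNorm l (c ((j : ℤ) - m))
        ≤ 1 * B := mul_le_mul (padicNorm.of_int _) (hc _ (by omega) (by omega))
          (padicNorm.nonneg _) zero_le_one
      _ = B := one_mul _

/-- `ent` as a value of `LZ` -/
theorem ent_eq_LZ (a b : ℕ) (c : ℤ → ℚ) (m e : ℕ) :
    ent a b c ((e : ℤ) - m) = LZ c m (X ^ e * wp a b) := by
  have hdeg : (wp a b).natDegree < a + 2 * b + 1 := by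
    rw [wp]
    have h1 : (X + C (25 : ℤ)).natDegree ≤ 1 := by compute_degree
    have h2 : (X ^ 2 + C (56 : ℤ) * X + C 800).natDegree ≤ 2 := by compute_degree
    have h3 := natDegree_pow_le_of_le a h1
    have h4 := natDegree_pow_le_of_le b h2
    have h5 := natDegree_mul_le_of_le h3 h4
    omega
  have h0 : LZ c m (X ^ e * wp a b) = ∑ j ∈ Finset.range (a + 2 * b + 1),
      ((wp a b).coeff j : ℚ) * c ((e : ℤ) - m + j) := by
    conv_lhs => rw [(wp a b).as_sum_range' _ hdeg, Finset.mul_sum, map_sum]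
    apply Finset.sum_congr rfl
    intro j _
    rw [X_pow_mul_monomial, LZ_monomial]
    congr 2
    push_cast
    ring
  rw [h0, ent]

theorem win_real (c : ℤ → ℚ) (m : ℕ) (F : ℤ[X]) :
    ((LZ c m F : ℚ) : ℝ) = NV.Lam (fun k => (c k : ℝ)) m (F.map (Int.castRingHom ℝ)) := by
  induction F using Polynomial.induction_on' with
  | add p q hp hq => rw [map_add, Polynomial.map_add, map_add, Rat.cast_add, hp, hq]
  | monomial k w =>
    rw [LZ_monomial, Polynomial.map_monomial, NV.Lam_monomial]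
    simp

/-- the polynomial `τ^2+56τ+800` over `ℤ` -/
noncomputable def QZ : ℤ[X] := X ^ 2 + C 56 * X + C 800

theorem QZ_map : QZ.map (Int.castRingHom ℝ) = NV.Qp := by
  rw [QZ, NV.Qp]
  have e : ∀ n : ℤ, (C n : ℤ[X]).map (Int.castRingHom ℝ) = C (n : ℝ) := fun n => by
    rw [map_C]; rfl
  simp only [Polynomial.map_mul, Polynomial.map_pow, Polynomial.map_add, map_X, e]
  norm_num

/-- the auxiliary polynomial -/
noncomputable def GZ : ℤ[X] :=
  X * QZ + C 2 * (X + C 25) * X * derivative QZ - C 4 * (X + C 25) * QZ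

/-- the Pearson identity for the window (one sequence) -/
theorem win_pearson (Y : ℤ → ℝ)
    (hY : ∀ k : ℤ, (2 * k + 1) * Y k + 50 * k * Y (k - 1) = NV.bd k) (h r : ℕ) :
    (2 * (h : ℝ) + 1) * NV.Lam Y (2 * (2 * h + 1))
        ((X ^ r * GZ * wp h (2 * h)).map (Int.castRingHom ℝ)) +
      2 * ((r : ℝ) + 1) * NV.Lam Y (2 * (2 * h + 1))
        ((X ^ r * wp (h + 1) (2 * h + 1)).map (Int.castRingHom ℝ)) = 0 := by
  have h1 := NV.pearson Y hY h (2 * h) (2 * (2 * h + 1)) (X ^ r)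
  rw [NV.LW_apply] at h1
  have e : ∀ n : ℤ, (C n : ℤ[X]).map (Int.castRingHom ℝ) = C (n : ℝ) := fun n => by
    rw [map_C]; rfl
  have hG : GZ.map (Int.castRingHom ℝ) =
      X * NV.Qp + C 2 * (X + C 25) * X * derivative NV.Qp - C 4 * (X + C 25) * NV.Qp := by
    rw [GZ, ← QZ_map]
    simp only [Polynomial.map_sub, Polynomial.map_add, Polynomial.map_mul, map_X, e, derivative_map]
    norm_num
  have e1 : ((X ^ r * GZ * wp h (2 * h)).map (Int.castRingHom ℝ)) =
      X ^ r * (X * NV.Qp + C 2 * (X + C 25) * X * derivative NV.Qp -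
        C 4 * (X + C 25) * NV.Qp) * NV.Wp h (2 * h) := by
    rw [Polynomial.map_mul, Polynomial.map_mul, Polynomial.map_pow, map_X, hG, NV.wp_map]
  have e2 : ((X ^ r * wp (h + 1) (2 * h + 1)).map (Int.castRingHom ℝ)) =
      X ^ r * ((X + C 25) * NV.Qp) * NV.Wp h (2 * h) := by
    rw [Polynomial.map_mul, Polynomial.map_pow, map_X, NV.wp_map, NV.Wp, NV.Wp, pow_succ, pow_succ]
    ring
  have e3 : (NV.Sp h (2 * h) (2 * (2 * h + 1)) * X ^ r + NV.Tp * derivative (X ^ r)) *
      NV.Wp h (2 * h) =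
      C (2 * (h : ℝ) + 1) * (X ^ r * (X * NV.Qp + C 2 * (X + C 25) * X * derivative NV.Qp -
        C 4 * (X + C 25) * NV.Qp) * NV.Wp h (2 * h)) +
      C (2 * ((r : ℝ) + 1)) * (X ^ r * ((X + C 25) * NV.Qp) * NV.Wp h (2 * h)) := by
    rw [NV.Sp, NV.Tp]
    have h2 : (X : ℝ[X]) * derivative (X ^ r : ℝ[X]) = C (r : ℝ) * X ^ r := by
      rcases Nat.eq_zero_or_pos r with rfl | hr
      · simp only [pow_zero, derivative_one, mul_zero, CharP.cast_eq_zero, map_zero, mul_one]
      · obtain ⟨k, rfl⟩ : ∃ k, r = k + 1 := ⟨r - 1, by omega⟩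
        rw [derivative_X_pow, Nat.add_sub_cancel]
        ring
    have h3 : C 2 * (X + C 25) * X * NV.Qp * derivative (X ^ r : ℝ[X]) =
        C 2 * (X + C 25) * NV.Qp * (C (r : ℝ) * X ^ r) := by
      rw [← h2]; ring
    rw [add_mul, h3]
    simp only [map_add, map_mul, C_1, Nat.cast_mul, Nat.cast_add, Nat.cast_one, Nat.cast_ofNat]
    have e2 : (C (2 : ℝ) : ℝ[X]) = 2 := rfl
    have e4 : (C (4 : ℝ) : ℝ[X]) = 4 := rfl
    rw [e2, e4]
    ring
  rw [e3, map_add] at h1
  rw [e1, e2]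
  have h4 : ∀ (w : ℝ) (F : ℝ[X]), NV.Lam Y (2 * (2 * h + 1)) (C w * F) =
      w * NV.Lam Y (2 * (2 * h + 1)) F := by
    intro w F
    rw [← smul_eq_C_mul, map_smul, smul_eq_mul]
  rw [h4, h4] at h1
  exact h1

/-- the identity over `ℚ` for `bco` -/
theorem win_id_bco (h r : ℕ) :
    (2 * (h : ℚ) + 1) * LZ bco (2 * (2 * h + 1)) (X ^ r * GZ * wp h (2 * h)) +
      2 * ((r : ℚ) + 1) * LZ bco (2 * (2 * h + 1)) (X ^ r * wp (h + 1) (2 * h + 1)) = 0 := by
  have h1 := win_pearson (fun k => (bco k : ℝ)) (fun k => NV.bco_rec k) h r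
  rw [← win_real, ← win_real] at h1
  exact_mod_cast h1

/-- the identity over `ℚ` for `aco` -/
theorem win_id_aco (h r : ℕ) :
    (2 * (h : ℚ) + 1) * LZ aco (2 * (2 * h + 1)) (X ^ r * GZ * wp h (2 * h)) +
      2 * ((r : ℚ) + 1) * LZ aco (2 * (2 * h + 1)) (X ^ r * wp (h + 1) (2 * h + 1)) = 0 := by
  have h1 := win_pearson (fun k => (1 : ℝ) * (aco k : ℝ) + (bco k : ℝ))
    (fun k => NV.comb_rec 1 k) h r
  have h3 : (fun k => (1 : ℝ) * (aco k : ℝ) + (bco k : ℝ)) =
      fun k => (((fun k => (1 : ℚ) * aco k + 1 * bco k) k : ℚ) : ℝ) := by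
    funext k
    push_cast
    ring
  rw [h3, ← win_real, ← win_real] at h1
  have h4 : (2 * (h : ℚ) + 1) * LZ (fun k => (1 : ℚ) * aco k + 1 * bco k) (2 * (2 * h + 1))
      (X ^ r * GZ * wp h (2 * h)) +
      2 * ((r : ℚ) + 1) * LZ (fun k => (1 : ℚ) * aco k + 1 * bco k) (2 * (2 * h + 1))
      (X ^ r * wp (h + 1) (2 * h + 1)) = 0 := by
    exact_mod_cast h1
  rw [LZ_comb, LZ_comb] at h4
  have h5 := win_id_bco h r
  linear_combination h4 - h5

/-- the identity for `cpq` -/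
theorem win_id (p q : ℤ) (h r : ℕ) :
    (2 * (h : ℚ) + 1) * LZ (cpq p q) (2 * (2 * h + 1)) (X ^ r * GZ * wp h (2 * h)) +
      2 * ((r : ℚ) + 1) * LZ (cpq p q) (2 * (2 * h + 1)) (X ^ r * wp (h + 1) (2 * h + 1)) = 0 := by
  unfold cpq
  rw [LZ_comb, LZ_comb]
  linear_combination (p : ℚ) * win_id_aco h r + ((2 * q : ℤ) : ℚ) * win_id_bco h r


/-! ### norms -/

theorem win_c_one (p q : ℤ) (l : ℕ) (hl : l.Prime) (h7 : 7 ≤ l) (k : ℤ) (h1 : -(l : ℤ) < k)
    (h2 : 2 * k + 1 < l) : padicNorm l (cpq p q k) ≤ 1 := by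
  have : Fact l.Prime := ⟨hl⟩
  have h := (loc_good p q (l - 1) (lo := k) (hi := k) (by omega) (by omega) k le_rfl le_rfl).1
    l hl (by omega) (by omega)
  rw [padicNorm.mul, loc_norm_lcm_lt (l - 1) l hl (by omega), one_mul] at h
  exact h

theorem win_c_l (p q : ℤ) (l : ℕ) (hl : l.Prime) (h7 : 7 ≤ l) (k : ℤ) (h1 : -((l : ℤ) ^ 2) < k)
    (h2 : 2 * k + 1 < (l : ℤ) ^ 2) : padicNorm l (cpq p q k) ≤ l := by
  have : Fact l.Prime := ⟨hl⟩
  have hl2 : 1 ≤ l ^ 2 := Nat.one_le_pow _ _ (by omega)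
  have hc : ((l ^ 2 - 1 : ℕ) : ℤ) = (l : ℤ) ^ 2 - 1 := by
    rw [Nat.cast_sub hl2]; push_cast; ring
  have h := (loc_good p q (l ^ 2 - 1) (lo := k) (hi := k) (by rw [hc]; omega)
    (by rw [hc]; (clear * - h2 hc; omega)) k le_rfl le_rfl).1 l hl (by omega) (by omega)
  have hlog : Nat.log l (l ^ 2 - 1) = 1 := by
    rw [Nat.log_eq_iff (Or.inr ⟨by omega, by
      have : 7 * 7 ≤ l ^ 2 := by rw [sq]; exact Nat.mul_le_mul h7 h7
      omega⟩)]
    constructor
    · rw [pow_one]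
      have : l * 7 ≤ l ^ 2 := by rw [sq]; exact Nat.mul_le_mul le_rfl h7
      (clear * - h1 h2 hl2 hc this; omega)
    · have h11 : l ^ (1 + 1) = l ^ 2 := rfl
      omega
  rw [padicNorm.mul, loc_norm_lcm (l ^ 2 - 1) l hl, hlog, pow_one] at h
  have hl0 : (0 : ℚ) < l := by exact_mod_cast hl.pos
  rwa [inv_mul_le_iff₀ hl0, mul_one] at h

theorem wp_natDegree_le (a b : ℕ) : (wp a b).natDegree ≤ a + 2 * b := by
  rw [wp]
  have h1 : (X + C (25 : ℤ)).natDegree ≤ 1 := by compute_degree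
  have h2 : (X ^ 2 + C (56 : ℤ) * X + C 800).natDegree ≤ 2 := by compute_degree
  have h3 := natDegree_pow_le_of_le a h1
  have h4 := natDegree_pow_le_of_le b h2
  have h5 := natDegree_mul_le_of_le h3 h4
  omega

theorem GZ_natDegree_le : GZ.natDegree ≤ 3 := by
  rw [GZ, QZ]
  simp only [derivative_add, derivative_X_pow, derivative_mul, derivative_C, derivative_X]
  compute_degree

/-- the window, monomials -/
theorem win_monomial (p q : ℤ) (h r : ℕ) (hl : (2 * h + 1).Prime) (h7 : 7 ≤ 2 * h + 1)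
    (hr : r + 1 ≤ 2 * h) :
    padicNorm (2 * h + 1) (LZ (cpq p q) (2 * (2 * h + 1)) (X ^ r * wp (h + 1) (2 * h + 1))) ≤ 1 := by
  have : Fact (2 * h + 1).Prime := ⟨hl⟩
  have hh : 3 ≤ h := by (clear * - h7; omega)
  have hh2 : 3 * h ≤ h * h := Nat.mul_le_mul hh le_rfl
  have hh3 : (3 * h : ℤ) ≤ ((h * h : ℕ) : ℤ) := by exact_mod_cast hh2
  have hsqz : ((((2 * h + 1 : ℕ)) : ℤ)) ^ 2 = 4 * ((h * h : ℕ) : ℤ) + 4 * h + 1 := by
    push_cast; ring
  have hB : padicNorm (2 * h + 1) (LZ (cpq p q) (2 * (2 * h + 1)) (X ^ r * GZ * wp h (2 * h))) ≤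
      ((2 * h + 1 : ℕ) : ℚ) := by
    have hdeg : (X ^ r * GZ * wp h (2 * h)).natDegree ≤ r + 3 + (h + 2 * (2 * h)) := by
      apply natDegree_mul_le_of_le
      · apply natDegree_mul_le_of_le (natDegree_X_pow_le r) GZ_natDegree_le
      · exact wp_natDegree_le _ _
    refine LZ_norm_le (2 * h + 1) (cpq p q) _ _ _ (by positivity)
      (-((2 * (2 * h + 1) : ℕ) : ℤ)) (3 * h) (fun k hk1 hk2 => ?_) le_rfl ?_
    · apply win_c_l p q (2 * h + 1) hl h7
      · rw [hsqz]; omega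
      · rw [hsqz]; omega
    · push_cast
      omega
  have hid := win_id p q h r
  set A := LZ (cpq p q) (2 * (2 * h + 1)) (X ^ r * wp (h + 1) (2 * h + 1)) with hA
  set B := LZ (cpq p q) (2 * (2 * h + 1)) (X ^ r * GZ * wp h (2 * h)) with hB'
  have hid2 : ((2 * (r + 1) : ℕ) : ℚ) * A = -(((2 * h + 1 : ℕ) : ℚ) * B) := by
    push_cast
    linear_combination hid
  have hn := congrArg (padicNorm (2 * h + 1)) hid2
  rw [padicNorm.neg, padicNorm.mul, padicNorm.mul] at hn
  have h2 : padicNorm (2 * h + 1) ((2 * (r + 1) : ℕ) : ℚ) = 1 := by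
    apply val_norm_nat_eq_one
    intro hd
    rcases (Nat.Prime.dvd_mul hl).1 hd with h3 | h3
    · have := Nat.le_of_dvd (by omega) h3
      omega
    · have := Nat.le_of_dvd (by omega) h3
      omega
  rw [h2, one_mul, padicNorm.padicNorm_p_of_prime] at hn
  rw [hn]
  have hl0 : (0 : ℚ) < ((2 * h + 1 : ℕ) : ℚ) := by (clear * - hh; positivity)
  rw [inv_mul_le_iff₀ hl0, mul_one]
  exact hB

/-- the window, polynomials -/
theorem win_poly (p q : ℤ) (h : ℕ) (hl : (2 * h + 1).Prime) (h7 : 7 ≤ 2 * h + 1) (n : ℤ[X])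
    (hn : n.natDegree + 1 ≤ 2 * h) :
    padicNorm (2 * h + 1) (LZ (cpq p q) (2 * (2 * h + 1)) (n * wp (h + 1) (2 * h + 1))) ≤ 1 := by
  have : Fact (2 * h + 1).Prime := ⟨hl⟩
  have e : LZ (cpq p q) (2 * (2 * h + 1)) (n * wp (h + 1) (2 * h + 1)) =
      ∑ r ∈ Finset.range (n.natDegree + 1), (n.coeff r : ℚ) *
        LZ (cpq p q) (2 * (2 * h + 1)) (X ^ r * wp (h + 1) (2 * h + 1)) := by
    conv_lhs => rw [n.as_sum_range, Finset.sum_mul, map_sum]
    apply Finset.sum_congr rfl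
    intro r _
    rw [← smul_X_eq_monomial, smul_mul_assoc, map_smul, zsmul_eq_mul]
  rw [e]
  have h0 := val_sum_le (2 * h + 1) 1 (Finset.range (n.natDegree + 1))
    (fun r => (n.coeff r : ℚ) *
        LZ (cpq p q) (2 * (2 * h + 1)) (X ^ r * wp (h + 1) (2 * h + 1))) zero_le_one one_ne_zero ?_
  · rw [pow_one] at h0
    exact h0
  · intro r hr
    rw [Finset.mem_range] at hr
    rw [pow_one, padicNorm.mul]
    exact mul_le_one₀ (padicNorm.of_int _) (padicNorm.nonneg _)
      (win_monomial p q h r hl h7 (by omega))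

/-! ### change of rows -/

theorem win_expand (K : ℕ) {p : ℤ[X]} (hp : p.natDegree < K) :
    p = ∑ k : Fin K, p.coeff k • (X : ℤ[X]) ^ (k : ℕ) := by
  conv_lhs => rw [p.as_sum_range' K hp]
  rw [Finset.sum_range]
  refine Finset.sum_congr rfl fun k _ => ?_
  rw [smul_X_eq_monomial]

theorem win_rows (a b m K : ℕ) (p q : ℤ) (f : ℕ → ℤ[X]) (hf : ∀ i < K, (f i).Monic)
    (hd : ∀ i < K, (f i).natDegree = i) :
    NN a b m K p q =
      (Matrix.of fun i j : Fin K =>
        LZ (cpq p q) m (f i * X ^ (j : ℕ) * wp a b)).det := by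
  set U : Matrix (Fin K) (Fin K) ℚ := Matrix.of fun i k => ((f i).coeff k : ℚ) with hU
  have hdet : U.det = 1 := by
    rw [Matrix.det_of_isLowerTriangular]
    · refine Finset.prod_eq_one fun i _ => ?_
      have h1 := hf i i.2
      rw [Monic, leadingCoeff, hd i i.2] at h1
      rw [hU, Matrix.of_apply, h1, Int.cast_one]
    · intro i j hij
      have hij' : (i : ℕ) < j := hij
      rw [hU, Matrix.of_apply, coeff_eq_zero_of_natDegree_lt (by rw [hd i i.2]; exact hij'),
        Int.cast_zero]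
  have hmat : (Matrix.of fun i j : Fin K =>
        LZ (cpq p q) m (f i * X ^ (j : ℕ) * wp a b)) =
      U * mat K a b m 1 (cpq p q) := by
    ext i j
    rw [Matrix.of_apply, Matrix.mul_apply]
    have hi := win_expand K (by rw [hd i i.2]; exact i.2 : (f i).natDegree < K)
    conv_lhs => rw [hi]
    rw [Finset.sum_mul, Finset.sum_mul, map_sum]
    refine Finset.sum_congr rfl fun k _ => ?_
    rw [smul_mul_assoc, smul_mul_assoc, map_smul, zsmul_eq_mul, ← pow_add, mat, hU,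
      Matrix.of_apply, Nat.cast_one, one_mul]
    congr 1
    rw [← ent_eq_LZ]
    push_cast
    rfl
  rw [hmat, Matrix.det_mul, hdet, one_mul, loc_NN]

theorem win_det_bound (a b m K : ℕ) (p q : ℤ) (l : ℕ) (hl : l.Prime) (f : ℕ → ℤ[X])
    (hf : ∀ i < K, (f i).Monic) (hd : ∀ i < K, (f i).natDegree = i)
    (good : ℕ → Prop) [DecidablePred good] (N : ℕ)
    (hN : ((Finset.range K).filter fun i => ¬ good i).card ≤ N)
    (hgood : ∀ i < K, good i → ∀ j < K,
      padicNorm l (LZ (cpq p q) m (f i * X ^ j * wp a b)) ≤ 1)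
    (hall : ∀ i < K, ∀ j < K, padicNorm l (LZ (cpq p q) m (f i * X ^ j * wp a b)) ≤ l) :
    padicNorm l (NN a b m K p q) ≤ (l : ℚ) ^ N := by
  have : Fact l.Prime := ⟨hl⟩
  rw [win_rows a b m K p q f hf hd]
  have hl1 : (1 : ℚ) ≤ l := by exact_mod_cast hl.one_lt.le
  have h0 := norm_det_le l 1 one_ne_zero
    (Matrix.of fun i j : Fin K => LZ (cpq p q) m (f i * X ^ (j : ℕ) * wp a b))
    (fun i => if good i then 1 else l) (fun _ => 1)
    (fun i => by split_ifs <;> linarith only []) (fun _ => zero_le_one) ?_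
  · rw [pow_one, Finset.prod_const_one, mul_one] at h0
    refine h0.trans ?_
    rw [Fin.prod_univ_eq_prod_range (fun i => if good i then (1 : ℚ) else l) K, Finset.prod_ite,
      Finset.prod_const_one, one_mul, Finset.prod_const]
    exact pow_le_pow_right₀ hl1 hN
  · intro i j
    rw [Matrix.of_apply, pow_one, mul_one]
    split_ifs with hg
    · exact hgood i i.2 hg j j.2
    · exact hall i i.2 j j.2

end Vale.Agent.P021.Det
end

section

/-!
# The local bound at the odd primes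
-/

open Polynomial

namespace Vale.Agent.P021.Det

/-- all entries have norm at most `l` -/
theorem lo_all (a b m K : ℕ) (p q : ℤ) (l : ℕ) (hl : l.Prime) (h7 : 7 ≤ l)
    (hr : rng a b m K < l ^ 2) (F : ℤ[X]) {i j : ℕ} (hF : F.natDegree = i) (hi : i < K)
    (hj : j < K) : padicNorm l (LZ (cpq p q) m (F * X ^ j * wp a b)) ≤ l := by
  have : Fact l.Prime := ⟨hl⟩
  have hdeg : (F * X ^ j * wp a b).natDegree ≤ i + j + (a + 2 * b) := by
    apply natDegree_mul_le_of_le
    · exact natDegree_mul_le_of_le hF.le (natDegree_X_pow_le j)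
    · exact wp_natDegree_le _ _
  have hrz : ((rng a b m K : ℕ) : ℤ) < (l : ℤ) ^ 2 := by exact_mod_cast hr
  unfold rng at hrz
  push_cast at hrz
  refine LZ_norm_le l (cpq p q) m _ _ (by positivity) (-(m : ℤ)) (2 * K + a + 2 * b)
    (fun k hk1 hk2 => ?_) le_rfl (by (clear * - hi hj hdeg; omega))
  apply win_c_l p q l hl h7 k
  · omega
  · omega

/-- the trivial bound -/
theorem lo_K (a b m K : ℕ) (p q : ℤ) (l : ℕ) (hl : l.Prime) (h7 : 7 ≤ l)
    (hr : rng a b m K < l ^ 2) : padicNorm l (NN a b m K p q) ≤ (l : ℚ) ^ K := by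
  refine win_det_bound a b m K p q l hl (fun i => X ^ i) (fun i _ => monic_X_pow i)
    (fun i _ => natDegree_X_pow i) (fun _ => False) K ?_ (fun _ _ h => h.elim)
    (fun i hi j hj => lo_all a b m K p q l hl h7 hr _ (natDegree_X_pow i) hi hj)
  exact (Finset.card_filter_le _ _).trans (by rw [Finset.card_range])

theorem lo_count (K s x : ℕ) (P : ℕ → Prop) [DecidablePred P]
    (h : ∀ i < K, ¬ P i → i < s ∨ K ≤ i + x) :
    ((Finset.range K).filter fun i => ¬ P i).card ≤ s + x := by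
  have h1 : ((Finset.range K).filter fun i => ¬ P i) ⊆ Finset.range s ∪ Finset.Ico (K - x) K := by
    intro i hi
    rw [Finset.mem_filter, Finset.mem_range] at hi
    rw [Finset.mem_union, Finset.mem_range, Finset.mem_Ico]
    rcases h i hi.1 hi.2 with h2 | h2
    · exact Or.inl h2
    · exact Or.inr ⟨by omega, hi.1⟩
  refine (Finset.card_le_card h1).trans ((Finset.card_union_le _ _).trans ?_)
  rw [Finset.card_range, Nat.card_Ico]
  omega

/-- the bound in the monomial basis -/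
theorem lo_plain (a b m K : ℕ) (p q : ℤ) (l : ℕ) (hl : l.Prime) (h7 : 7 ≤ l)
    (hr : rng a b m K < l ^ 2) : padicNorm l (NN a b m K p q) ≤
      (l : ℚ) ^ ((m + 1 - l) + (((4 * K + 2 * a + 4 * b) - (l + 2 * m)) / 2 + 1)) := by
  have : Fact l.Prime := ⟨hl⟩
  refine win_det_bound a b m K p q l hl (fun i => X ^ i) (fun i _ => monic_X_pow i)
    (fun i _ => natDegree_X_pow i)
    (fun i => m < i + l ∧ 2 * (i + K + a + 2 * b) ≤ l + 2 * m) _ ?_ ?_
    (fun i hi j hj => lo_all a b m K p q l hl h7 hr _ (natDegree_X_pow i) hi hj)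
  · apply lo_count
    intro i hi hni
    by_contra hcon
    rw [not_or] at hcon
    apply hni
    omega
  · intro i hi hg j hj
    have hdeg : (X ^ i * X ^ j * wp a b).natDegree ≤ i + j + (a + 2 * b) := by
      apply natDegree_mul_le_of_le
      · exact natDegree_mul_le_of_le (natDegree_X_pow_le i) (natDegree_X_pow_le j)
      · exact wp_natDegree_le _ _
    have hsh : LZ (cpq p q) m (X ^ i * X ^ j * wp a b) =
        ∑ k ∈ Finset.range (a + 2 * b + 1), ((wp a b).coeff k : ℚ) *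
          cpq p q (((i + j : ℕ) : ℤ) - m + k) := by
      rw [← pow_add, ← ent_eq_LZ, ent]
    rw [hsh]
    have h0 := val_sum_le l 1 (Finset.range (a + 2 * b + 1))
      (fun k => ((wp a b).coeff k : ℚ) *
          cpq p q (((i + j : ℕ) : ℤ) - m + k)) zero_le_one one_ne_zero ?_
    · rw [pow_one] at h0
      exact h0
    · intro k hk
      rw [Finset.mem_range] at hk
      rw [pow_one, padicNorm.mul]
      refine mul_le_one₀ (padicNorm.of_int _) (padicNorm.nonneg _) ?_
      apply win_c_one p q l hl h7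
      · omega
      · omega

/-- the window rows -/
noncomputable def wrow (b m h v l : ℕ) (i : ℕ) : ℤ[X] :=
  if 2 * (l - b) + v + (m - 2 * l) ≤ i then
    QZ ^ (l - b) * (X + C 25) ^ v * X ^ (m - 2 * l) * X ^ (i - (2 * (l - b) + v + (m - 2 * l)))
  else X ^ i

theorem QZ_monic : QZ.Monic := by
  rw [QZ]
  monicity!

theorem QZ_natDegree : QZ.natDegree = 2 := by
  rw [QZ]
  compute_degree!

theorem wrow_monic (b m h v l i : ℕ) : (wrow b m h v l i).Monic := by
  unfold wrow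
  split_ifs
  · exact (((QZ_monic.pow _).mul ((monic_X_add_C 25).pow _)).mul (monic_X_pow _)).mul
      (monic_X_pow _)
  · exact monic_X_pow _

theorem wrow_natDegree (b m h v l i : ℕ) : (wrow b m h v l i).natDegree = i := by
  unfold wrow
  split_ifs with h1
  · have m1 := (QZ_monic.pow (l - b))
    have m2 := ((monic_X_add_C (25 : ℤ)).pow v)
    rw [Monic.natDegree_mul ((m1.mul m2).mul (monic_X_pow _)) (monic_X_pow _),
      Monic.natDegree_mul (m1.mul m2) (monic_X_pow _), Monic.natDegree_mul m1 m2,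
      Monic.natDegree_pow QZ_monic, Monic.natDegree_pow (monic_X_add_C 25), natDegree_X_pow,
      natDegree_X_pow, QZ_natDegree, natDegree_X_add_C]
    (clear * - h1; omega)
  · exact natDegree_X_pow _

theorem wp_mul (A B A' B' : ℕ) : wp A B * wp A' B' = wp (A + A') (B + B') := by
  unfold wp
  rw [pow_add, pow_add]
  ring

/-- good window rows -/
theorem wrow_good (a b m K : ℕ) (p q : ℤ) (h : ℕ) (hl : (2 * h + 1).Prime) (h7 : 7 ≤ 2 * h + 1)
    (i j : ℕ) (hj : j < K)
    (h1 : 2 * (2 * h + 1 - b) + (h + 1 - a) + (m - 2 * (2 * h + 1)) ≤ i)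
    (h2 : i + K + a + 2 * b ≤ 3 * h + 1 + m) :
    padicNorm (2 * h + 1) (LZ (cpq p q) m
      (wrow b m h (h + 1 - a) (2 * h + 1) i * X ^ j * wp a b)) ≤ 1 := by
  have : Fact (2 * h + 1).Prime := ⟨hl⟩
  set l := 2 * h + 1 with hldef
  set v := h + 1 - a with hv
  set s := 2 * (l - b) + v + (m - 2 * l) with hs
  set A := a + v with hA
  set B := b + (l - b) with hB
  have hA1 : h + 1 ≤ A := by (clear * -; omega)
  have hB1 : l ≤ B := by (clear * -; omega)
  set n : ℤ[X] := X ^ (2 * l - m) * X ^ (i - s + j) * wp (A - (h + 1)) (B - l) with hn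
  have hdeg : n.natDegree + 1 ≤ 2 * h := by
    have hd : n.natDegree ≤ (2 * l - m) + (i - s + j) + ((A - (h + 1)) + 2 * (B - l)) := by
      apply natDegree_mul_le_of_le
      · exact natDegree_mul_le_of_le (natDegree_X_pow_le _) (natDegree_X_pow_le _)
      · exact wp_natDegree_le _ _
    omega
  have hkey := win_poly p q h hl h7 n hdeg
  have hF : X ^ (2 * l - m) * (wrow b m h v l i * X ^ j * wp a b) =
      X ^ (m - 2 * l) * (n * wp (h + 1) l) := by
    unfold wrow
    rw [if_pos h1, hn]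
    have e1 : wp (A - (h + 1)) (B - l) * wp (h + 1) l = wp A B := by
      rw [wp_mul]; congr 1 <;> omega
    have e2 : QZ ^ (l - b) * (X + C 25) ^ v * wp a b = wp A B := by
      have : QZ ^ (l - b) * (X + C 25) ^ v = wp v (l - b) := by
        unfold wp QZ; ring
      rw [this, wp_mul]; congr 1 <;> omega
    calc X ^ (2 * l - m) * (QZ ^ (l - b) * (X + C 25) ^ v * X ^ (m - 2 * l) * X ^ (i - s) * X ^ j *
          wp a b)
        = X ^ (2 * l - m) * X ^ (m - 2 * l) * X ^ (i - s + j) *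
          (QZ ^ (l - b) * (X + C 25) ^ v * wp a b) := by rw [pow_add]; ring
      _ = X ^ (2 * l - m) * X ^ (m - 2 * l) * X ^ (i - s + j) *
          (wp (A - (h + 1)) (B - l) * wp (h + 1) l) := by rw [e1, e2]
      _ = _ := by ring
  have hval : LZ (cpq p q) m (wrow b m h v l i * X ^ j * wp a b) =
      LZ (cpq p q) (2 * l) (n * wp (h + 1) l) := by
    have s1 := LZ_shift (cpq p q) m (2 * l - m) (wrow b m h v l i * X ^ j * wp a b)
    have s2 := LZ_shift (cpq p q) (2 * l) (m - 2 * l) (n * wp (h + 1) l)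
    have hidx : m + (2 * l - m) = 2 * l + (m - 2 * l) := by omega
    rw [← s1, ← s2, hF, hidx]
  rw [hval]
  exact hkey

/-- the bound in the window basis -/
theorem lo_window (a b m K : ℕ) (p q : ℤ) (h : ℕ) (hl : (2 * h + 1).Prime) (h7 : 7 ≤ 2 * h + 1)
    (hr : rng a b m K < (2 * h + 1) ^ 2) : padicNorm (2 * h + 1) (NN a b m K p q) ≤
      ((2 * h + 1 : ℕ) : ℚ) ^ ((2 * (2 * h + 1 - b) + (h + 1 - a) + (m - 2 * (2 * h + 1))) +
        (((4 * K + 2 * a + 4 * b) - (3 * (2 * h + 1) + 2 * m)) / 2 + 1)) := by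
  have : Fact (2 * h + 1).Prime := ⟨hl⟩
  refine win_det_bound a b m K p q (2 * h + 1) hl (wrow b m h (h + 1 - a) (2 * h + 1))
    (fun i _ => wrow_monic _ _ _ _ _ _) (fun i _ => wrow_natDegree _ _ _ _ _ _)
    (fun i => 2 * (2 * h + 1 - b) + (h + 1 - a) + (m - 2 * (2 * h + 1)) ≤ i ∧
      i + K + a + 2 * b ≤ 3 * h + 1 + m) _ ?_
    (fun i _ hg j hj => wrow_good a b m K p q h hl h7 i j hj hg.1 hg.2)
    (fun i hi j hj => lo_all a b m K p q _ hl h7 hr _ (wrow_natDegree _ _ _ _ _ _) hi hj)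
  apply lo_count
  intro i hi hni
  by_contra hcon
  rw [not_or] at hcon
  apply hni
  omega

theorem lo_sub (x y : ℕ) : ((x - y : ℕ) : ℝ) ≤ max ((x : ℝ) - y) 0 := by
  rcases le_total y x with h | h
  · rw [Nat.cast_sub h]
    exact le_max_left _ _
  · rw [Nat.sub_eq_zero_of_le h]
    simp only [CharP.cast_eq_zero, le_sup_right]

theorem lo_sub_div (x y : ℕ) : (((x - y) / 2 : ℕ) : ℝ) ≤ max ((x : ℝ) - y) 0 / 2 := by
  have h1 := lo_sub x y
  have h2 : (((x - y) / 2 : ℕ) : ℝ) ≤ ((x - y : ℕ) : ℝ) / 2 := by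
    exact_mod_cast Nat.cast_div_le (α := ℝ) (m := x - y) (n := 2)
  linarith

/-- all primes with `l^2 > rng` -/
theorem local_odd (a b m K : ℕ) (p q : ℤ) (l : ℕ) (hl : l.Prime) (h7 : 7 ≤ l)
    (hr : rng a b m K < l ^ 2) :
    ∃ e : ℕ, padicNorm l (NN a b m K p q) ≤ (l : ℚ) ^ e ∧ (e : ℝ) ≤ badR a b m K l + 8 := by
  obtain ⟨h, rfl⟩ : ∃ h, l = 2 * h + 1 := by
    rcases hl.eq_two_or_odd' with h2 | h2
    · omega
    · exact h2
  set eP := (m + 1 - (2 * h + 1)) +
    (((4 * K + 2 * a + 4 * b) - ((2 * h + 1) + 2 * m)) / 2 + 1) with heP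
  set eW := (2 * (2 * h + 1 - b) + (h + 1 - a) + (m - 2 * (2 * h + 1))) +
        (((4 * K + 2 * a + 4 * b) - (3 * (2 * h + 1) + 2 * m)) / 2 + 1) with heW
  have hK := lo_K a b m K p q (2 * h + 1) hl h7 hr
  have hP := lo_plain a b m K p q (2 * h + 1) hl h7 hr
  have hW := lo_window a b m K p q h hl h7 hr
  rw [← heP] at hP
  rw [← heW] at hW
  refine ⟨min K (min eP eW), ?_, ?_⟩
  · rcases min_choice K (min eP eW) with h1 | h1
    · rw [h1]; exact hK
    · rw [h1]
      rcases min_choice eP eW with h2 | h2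
      · rw [h2]; exact hP
      · rw [h2]; exact hW
  · have c1 : (K : ℝ) ≤ K + 8 := by linarith only []
    have c2 : (eP : ℝ) ≤ plainR a b m K ((2 * h + 1 : ℕ) : ℝ) + 8 := by
      have d1 := lo_sub (m + 1) (2 * h + 1)
      have d2 := lo_sub_div (4 * K + 2 * a + 4 * b) ((2 * h + 1) + 2 * m)
      have d3 : max (((m + 1 : ℕ) : ℝ) - ((2 * h + 1 : ℕ) : ℝ)) 0 ≤
          max ((m : ℝ) - ((2 * h + 1 : ℕ) : ℝ)) 0 + 1 := by
        apply max_le
        · have := le_max_left ((m : ℝ) - ((2 * h + 1 : ℕ) : ℝ)) 0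
          push_cast at this ⊢
          linarith only [this]
        · have := le_max_right ((m : ℝ) - ((2 * h + 1 : ℕ) : ℝ)) 0
          linarith only [this]
      have d4 : max (((4 * K + 2 * a + 4 * b : ℕ) : ℝ) - (((2 * h + 1) + 2 * m : ℕ) : ℝ)) 0 =
          max (2 * (a : ℝ) + 4 * b - 2 * m + 4 * K - ((2 * h + 1 : ℕ) : ℝ)) 0 := by
        congr 1
        push_cast
        ring
      rw [d4] at d2
      rw [heP, Nat.cast_add, Nat.cast_add, Nat.cast_one, plainR]
      linarith only [d1, d2, d3]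
    have c3 : (eW : ℝ) ≤ winR a b m K ((2 * h + 1 : ℕ) : ℝ) + 8 := by
      have d1 := lo_sub (2 * h + 1) b
      have d2 := lo_sub (h + 1) a
      have d3 := lo_sub m (2 * (2 * h + 1))
      have d4 := lo_sub_div (4 * K + 2 * a + 4 * b) (3 * (2 * h + 1) + 2 * m)
      have d5 : max (((h + 1 : ℕ) : ℝ) - (a : ℝ)) 0 ≤
          max (((2 * h + 1 : ℕ) : ℝ) - 2 * a) 0 / 2 + 1 := by
        apply max_le
        · have := le_max_left (((2 * h + 1 : ℕ) : ℝ) - 2 * a) 0
          push_cast at this ⊢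
          linarith only [this]
        · have := le_max_right (((2 * h + 1 : ℕ) : ℝ) - 2 * a) 0
          linarith only [this]
      have d6 : max (((4 * K + 2 * a + 4 * b : ℕ) : ℝ) -
          ((3 * (2 * h + 1) + 2 * m : ℕ) : ℝ)) 0 =
          max (2 * (a : ℝ) + 4 * b - 2 * m + 4 * K - 3 * ((2 * h + 1 : ℕ) : ℝ)) 0 := by
        congr 1
        push_cast
        ring
      have d7 : max ((m : ℝ) - ((2 * (2 * h + 1) : ℕ) : ℝ)) 0 =
          max ((m : ℝ) - 2 * ((2 * h + 1 : ℕ) : ℝ)) 0 := by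
        congr 1
        push_cast
        ring
      rw [d6] at d4
      rw [d7] at d3
      rw [heW, Nat.cast_add, Nat.cast_add, Nat.cast_add, Nat.cast_add, Nat.cast_mul,
        Nat.cast_one, Nat.cast_ofNat, winR]
      linarith only [d1, d2, d3, d4, d5]
    rw [badR, Nat.cast_min, Nat.cast_min]
    have e1 : min (K : ℝ) (min (plainR a b m K ((2 * h + 1 : ℕ) : ℝ))
        (winR a b m K ((2 * h + 1 : ℕ) : ℝ))) + 8 =
        min ((K : ℝ) + 8) (min (plainR a b m K ((2 * h + 1 : ℕ) : ℝ) + 8)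
        (winR a b m K ((2 * h + 1 : ℕ) : ℝ) + 8)) := by
      rw [min_add_add_right, min_add_add_right]
    rw [e1]
    exact min_le_min c1 (min_le_min c2 c3)

end Vale.Agent.P021.Det
end

section

/-!
# Lower bound for a rational number from its `p`-adic norms
-/

namespace Vale.Agent.P021.Det

open Finset

lemma log_nat_eq_sum (m B : ℕ) (hB : m ≤ B) (hm : m ≠ 0) :
    Real.log m = ∑ p ∈ (Ioc 0 B).filter Nat.Prime, (m.factorization p : ℝ) * Real.log p := by
  rw [Real.log_nat_eq_sum_factorization, Finsupp.sum]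
  refine sum_subset ?_ ?_
  · intro p hp
    rw [Nat.support_factorization, Nat.mem_primeFactors] at hp
    rw [Finset.mem_filter, mem_Ioc]
    exact ⟨⟨hp.1.pos, (Nat.le_of_dvd (Nat.pos_of_ne_zero hm) hp.2.1).trans hB⟩, hp.1⟩
  · intro p _ hp
    rw [Finsupp.mem_support_iff, not_not] at hp
    rw [hp]; simp

lemma log_padicNorm (p : ℕ) (hp : p.Prime) (x : ℚ) (hx : x ≠ 0) :
    Real.log (padicNorm p x : ℚ) =
      -((x.num.natAbs.factorization p : ℝ) - x.den.factorization p) * Real.log p := by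
  have hv : padicNorm p x = (p : ℚ) ^ (-(padicValRat p x)) := padicNorm.eq_zpow_of_nonzero hx
  rw [hv]
  push_cast
  have h0 : padicValRat p x = (padicValNat p x.num.natAbs : ℤ) - padicValNat p x.den := rfl
  rw [Real.log_zpow, h0, Nat.factorization_def _ hp, Nat.factorization_def _ hp, Int.cast_neg,
    Int.cast_sub, Int.cast_natCast, Int.cast_natCast]

/-- Lower bound of a nonzero rational number from upper bounds of its `p`-adic norms. -/
theorem log_abs_ge (x : ℚ) (hx : x ≠ 0) (R : ℕ) (β : ℕ → ℝ)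
    (h1 : ∀ p : ℕ, p.Prime → p ≤ R → Real.log (padicNorm p x : ℚ) ≤ β p)
    (h2 : ∀ p : ℕ, p.Prime → R < p → padicNorm p x ≤ 1) :
    -∑ p ∈ (Ioc 0 R).filter Nat.Prime, β p ≤ Real.log |(x : ℝ)| := by
  have hnum : x.num.natAbs ≠ 0 := by
    rw [Ne, Int.natAbs_eq_zero]; exact Rat.num_ne_zero.2 hx
  set B := max R (max x.num.natAbs x.den) with hB
  have e1 := log_nat_eq_sum x.num.natAbs B ((le_max_left _ _).trans (le_max_right _ _)) hnum
  have e2 := log_nat_eq_sum x.den B ((le_max_right _ _).trans (le_max_right _ _)) x.den_ne_zero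
  have e3 : Real.log |(x : ℝ)| = Real.log x.num.natAbs - Real.log x.den := by
    have h3 : |(x : ℝ)| = (x.num.natAbs : ℝ) / x.den := by
      conv_lhs => rw [← Rat.num_div_den x]
      push_cast
      rw [abs_div, Nat.abs_cast, Nat.cast_natAbs, Int.cast_abs]
    rw [h3, Real.log_div (by exact_mod_cast hnum) (by exact_mod_cast x.den_ne_zero)]
  have e4 : Real.log |(x : ℝ)| = -∑ p ∈ (Ioc 0 B).filter Nat.Prime,
      Real.log (padicNorm p x : ℚ) := by
    rw [e3, e1, e2, ← sum_sub_distrib, ← sum_neg_distrib]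
    refine sum_congr rfl fun p hp => ?_
    rw [log_padicNorm p (Finset.mem_filter.1 hp).2 x hx]
    ring
  rw [e4, neg_le_neg_iff]
  have hsub : (Ioc 0 R).filter Nat.Prime ⊆ (Ioc 0 B).filter Nat.Prime := by
    intro p hp
    rw [Finset.mem_filter, mem_Ioc] at hp ⊢
    exact ⟨⟨hp.1.1, hp.1.2.trans (le_max_left _ _)⟩, hp.2⟩
  rw [← sum_sdiff hsub]
  have h3 : ∑ p ∈ (Ioc 0 B).filter Nat.Prime \ (Ioc 0 R).filter Nat.Prime,
      Real.log (padicNorm p x : ℚ) ≤ 0 := by
    refine sum_nonpos fun p hp => ?_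
    rw [Finset.mem_sdiff, Finset.mem_filter, Finset.mem_filter, mem_Ioc, mem_Ioc] at hp
    have hp1 : R < p := by
      by_contra h
      exact hp.2 ⟨⟨hp.1.1.1, not_lt.1 h⟩, hp.1.2⟩
    refine Real.log_nonpos ?_ ?_
    · exact_mod_cast padicNorm.nonneg _
    · exact_mod_cast h2 p hp.1.2 hp1
  have h4 : ∑ p ∈ (Ioc 0 R).filter Nat.Prime, Real.log (padicNorm p x : ℚ) ≤
      ∑ p ∈ (Ioc 0 R).filter Nat.Prime, β p := by
    refine sum_le_sum fun p hp => ?_
    rw [Finset.mem_filter, mem_Ioc] at hp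
    exact h1 p hp.2 hp.1.2
  linarith only [h3, h4]

end Vale.Agent.P021.Det
end

section

/-!
# The arithmetic lower bound with window savings
-/

namespace Vale.Agent.P021.Det

open Filter Topology Finset

/-! ### relation between `NN` and `HM` -/

lemma Lam_wp (x : ℝ) (a b m s : ℕ) : Lam x m (Polynomial.X ^ s * Wp a b) =
    ∑ l ∈ range (a + 2 * b + 1), ((wp a b).coeff l : ℝ) * lam x ((s : ℤ) - m + l) := by
  have h1 := NV.LW_X_pow (lam x) a b m s
  have h2 : Lam x m (Polynomial.X ^ s * Wp a b) = NV.LW (lam x) a b m (Polynomial.X ^ s) := rfl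
  rw [h2, h1, NV.cc, Polynomial.sum_over_range' _ (by simp only [zero_mul, implies_true]) (a + 2 * b + 1) (NV.Wp_natDegree a b)]
  refine sum_congr rfl fun l _ => ?_
  have e1 : (s : ℤ) - m + l = (s : ℤ) + l - m := by ring
  rw [← NV.wp_map, Polynomial.coeff_map, e1]
  simp only [eq_intCast]

lemma NN_eq (a b m K : ℕ) (p q : ℤ) (hq : 0 < q) :
    ((NN a b m K p q : ℚ) : ℝ) = (2 * (q : ℝ)) ^ K * (HM ((p : ℝ) / q) a b m K).det := by
  have hq0 : (q : ℝ) ≠ 0 := by exact_mod_cast hq.ne'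
  have h1 : ((NN a b m K p q : ℚ) : ℝ) = (Matrix.map (mat K a b m 1
      (fun k => (p : ℚ) * aco k + ((2 * q : ℤ) : ℚ) * bco k)) (Rat.castHom ℝ)).det := by
    rw [NN, ← RingHom.mapMatrix_apply, ← RingHom.map_det]; rfl
  have h2 : (Matrix.map (mat K a b m 1
      (fun k => (p : ℚ) * aco k + ((2 * q : ℤ) : ℚ) * bco k)) (Rat.castHom ℝ)) =
      (2 * (q : ℝ)) • HM ((p : ℝ) / q) a b m K := by
    ext i j
    rw [Matrix.map_apply, Matrix.smul_apply, mat, ent, HM, Matrix.of_apply, Lam_wp]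
    rw [Nat.cast_one, one_mul, map_sum, smul_eq_mul, mul_sum]
    refine sum_congr rfl fun l _ => ?_
    have e1 : (((i : ℕ) + (j : ℕ) : ℕ) : ℤ) - m + l = (i : ℤ) + j - m + l := by push_cast; ring
    rw [e1, lam]
    simp only [eq_ratCast, Rat.cast_mul, Rat.cast_add, Rat.cast_intCast, Int.cast_mul,
      Int.cast_ofNat]
    push_cast
    field_simp
  rw [h1, h2, Matrix.det_smul, Fintype.card_fin]

/-! ### the rank function -/

lemma max_sub_le (u v : ℝ) : |max u 0 - max v 0| ≤ |u - v| := by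
  have := abs_max_sub_max_le_abs u v 0
  simpa only [ge_iff_le] using this

lemma badR_nonneg {a b m K l : ℝ} (hK : 0 ≤ K) : 0 ≤ badR a b m K l := by
  refine le_min hK (le_min ?_ ?_)
  · unfold plainR; positivity
  · unfold winR; positivity

lemma plainR_lip (a b m K x y : ℝ) : |plainR a b m K x - plainR a b m K y| ≤ 2 * |x - y| := by
  have h1 := max_sub_le (m - x) (m - y)
  have h2 := max_sub_le (2 * a + 4 * b - 2 * m + 4 * K - x) (2 * a + 4 * b - 2 * m + 4 * K - y)
  have e1 : m - x - (m - y) = -(x - y) := by ring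
  have e2 : 2 * a + 4 * b - 2 * m + 4 * K - x - (2 * a + 4 * b - 2 * m + 4 * K - y) =
    -(x - y) := by ring
  rw [e1, abs_neg] at h1
  rw [e2, abs_neg] at h2
  rw [abs_le] at h1 h2 ⊢
  unfold plainR
  constructor <;> linarith only [h1, h2]

lemma winR_lip (a b m K x y : ℝ) : |winR a b m K x - winR a b m K y| ≤ 6 * |x - y| := by
  have h1 := max_sub_le (x - b) (y - b)
  have h2 := max_sub_le (x - 2 * a) (y - 2 * a)
  have h3 := max_sub_le (m - 2 * x) (m - 2 * y)
  have h4 := max_sub_le (2 * a + 4 * b - 2 * m + 4 * K - 3 * x)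
    (2 * a + 4 * b - 2 * m + 4 * K - 3 * y)
  have e1 : x - b - (y - b) = x - y := by ring
  have e2 : x - 2 * a - (y - 2 * a) = x - y := by ring
  have e3 : m - 2 * x - (m - 2 * y) = -(2 * (x - y)) := by ring
  have e4 : 2 * a + 4 * b - 2 * m + 4 * K - 3 * x - (2 * a + 4 * b - 2 * m + 4 * K - 3 * y) =
    -(3 * (x - y)) := by ring
  rw [e1] at h1
  rw [e2] at h2
  rw [e3, abs_neg, abs_mul, abs_of_pos (by norm_num : (0 : ℝ) < 2)] at h3
  rw [e4, abs_neg, abs_mul, abs_of_pos (by norm_num : (0 : ℝ) < 3)] at h4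
  rw [abs_le] at h1 h2 h3 h4 ⊢
  unfold winR
  constructor <;> linarith only [h1, h2, h3, h4]

lemma badR_lip (a b m K x y : ℝ) : |badR a b m K x - badR a b m K y| ≤ 6 * |x - y| := by
  unfold badR
  refine (abs_min_sub_min_le_max _ _ _ _).trans ?_
  rw [sub_self, abs_zero]
  refine max_le (by positivity) ((abs_min_sub_min_le_max _ _ _ _).trans (max_le ?_ ?_))
  · refine (plainR_lip a b m K x y).trans ?_
    linarith [abs_nonneg (x - y)]
  · exact winR_lip a b m K x y

lemma mul_max_zero {c x : ℝ} (hc : 0 ≤ c) : max (c * x) 0 = c * max x 0 := by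
  rw [mul_max_of_nonneg _ _ hc, mul_zero]

lemma badR_scale (a b m K l : ℝ) {n : ℝ} (hn : 0 < n) (κ : ℝ) (hκ : 0 ≤ κ) :
    badR (a * n) (b * n) (m * n) (K * n + κ) l ≤ n * badR a b m K (l / n) + 2 * κ := by
  have hl : l = n * (l / n) := by (clear * - hn; field_simp)
  set y := l / n with hy
  have hadd : ∀ u v : ℝ, 0 ≤ v → max (u + v) 0 ≤ max u 0 + v := by
    intro u v hv
    exact max_le (by linarith only [le_max_left u 0]) (by linarith only [hv, le_max_right u 0])
  have h1 : plainR (a * n) (b * n) (m * n) (K * n + κ) l ≤ n * plainR a b m K y + 2 * κ := by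
    unfold plainR
    have e1 : m * n - l = n * (m - y) := by rw [hl]; ring
    have e2 : 2 * (a * n) + 4 * (b * n) - 2 * (m * n) + 4 * (K * n + κ) - l =
        n * (2 * a + 4 * b - 2 * m + 4 * K - y) + 4 * κ := by rw [hl]; ring
    rw [e1, e2, mul_max_zero hn.le]
    have := hadd (n * (2 * a + 4 * b - 2 * m + 4 * K - y)) (4 * κ) (by linarith only [hκ])
    rw [mul_max_zero hn.le] at this
    linarith only [this]
  have h2 : winR (a * n) (b * n) (m * n) (K * n + κ) l ≤ n * winR a b m K y + 2 * κ := by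
    unfold winR
    have e1 : l - b * n = n * (y - b) := by rw [hl]; ring
    have e2 : l - 2 * (a * n) = n * (y - 2 * a) := by rw [hl]; ring
    have e3 : m * n - 2 * l = n * (m - 2 * y) := by rw [hl]; ring
    have e4 : 2 * (a * n) + 4 * (b * n) - 2 * (m * n) + 4 * (K * n + κ) - 3 * l =
        n * (2 * a + 4 * b - 2 * m + 4 * K - 3 * y) + 4 * κ := by rw [hl]; ring
    rw [e1, e2, e3, e4, mul_max_zero hn.le, mul_max_zero hn.le, mul_max_zero hn.le]
    have := hadd (n * (2 * a + 4 * b - 2 * m + 4 * K - 3 * y)) (4 * κ) (by linarith only [hκ])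
    rw [mul_max_zero hn.le] at this
    linarith only [this]
  unfold badR
  have e3 : n * min K (min (plainR a b m K y) (winR a b m K y)) =
      min (n * K) (min (n * plainR a b m K y) (n * winR a b m K y)) := by
    rw [mul_min_of_nonneg _ _ hn.le, mul_min_of_nonneg _ _ hn.le]
  rw [e3, ← min_add_add_right, ← min_add_add_right]
  exact min_le_min (by nlinarith only [hκ]) (min_le_min h1 h2)

lemma four_mul_sum_le (K : ℕ) : ∀ M : ℕ, 4 * ∑ i ∈ range K, (M - 2 * i) ≤ (M + 1) ^ 2 := by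
  induction K with
  | zero => intro M; simp only [range_zero, sum_empty, mul_zero, zero_le]
  | succ K ih =>
    intro M
    rw [sum_range_succ']
    have e1 : ∀ i, M - 2 * (i + 1) = (M - 2) - 2 * i := fun i => by omega
    simp_rw [e1]
    have h := ih (M - 2)
    rcases Nat.lt_or_ge M 2 with hM | hM
    · have : M - 2 = 0 := by omega
      rw [this] at h ⊢
      interval_cases M <;> omega
    · obtain ⟨k, rfl⟩ : ∃ k, M = k + 2 := ⟨M - 2, by omega⟩
      simp only [Nat.add_sub_cancel, Nat.mul_zero, Nat.sub_zero] at h ⊢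
      nlinarith only [h]

/-! ### the sum of the local bounds -/

/-- the logarithmic size of the `2`-adic part -/
noncomputable def T2 (b m K : ℕ) : ℝ :=
  5 / 2 * Real.log 2 * ((K : ℝ) * (m - 2 * b) - K * (K - 1))

/-- the logarithmic size of the `5`-adic part -/
noncomputable def T5 (a b m K : ℕ) : ℝ :=
  2 * ((∑ i ∈ range K, (m - (a + b + 2 * i)) : ℕ) : ℝ) * Real.log 5

/-- the local bounds -/
noncomputable def bet (a b m K p : ℕ) : ℝ :=
  (badR a b m K p + 8) * Real.log p +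
    (if p ^ 2 ≤ rng a b m K ∨ p < 7 then (K : ℝ) * Real.log (rng a b m K) else 0) +
    (if p = 2 then T2 b m K else 0) + (if p = 5 then T5 a b m K else 0)

lemma log_norm_le (a b m K : ℕ) (p q : ℤ) (hN : NN a b m K p q ≠ 0) (l : ℕ) (hl : l.Prime) :
    Real.log (padicNorm l (NN a b m K p q) : ℚ) ≤ bet a b m K l := by
  have : Fact l.Prime := ⟨hl⟩
  have hpos : (0 : ℝ) < (padicNorm l (NN a b m K p q) : ℚ) := by
    have h1 : padicNorm l (NN a b m K p q) ≠ 0 := padicNorm.nonzero hN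
    have h2 : 0 ≤ padicNorm l (NN a b m K p q) := padicNorm.nonneg _
    exact_mod_cast lt_of_le_of_ne h2 h1.symm
  have hR0 : (0 : ℝ) < rng a b m K := by
    have : 0 < rng a b m K := by unfold rng; (clear * -; omega)
    exact_mod_cast this
  have hlog : 0 ≤ (badR a b m K l + 8) * Real.log l := by
    have := badR_nonneg (a := a) (b := b) (m := m) (l := l) (Nat.cast_nonneg K : (0 : ℝ) ≤ K)
    have h2 : 0 ≤ Real.log l := Real.log_natCast_nonneg _
    positivity
  have hKR : 0 ≤ (K : ℝ) * Real.log (rng a b m K) := by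
    have := Real.log_natCast_nonneg (rng a b m K)
    (clear * -; positivity)
  unfold bet
  by_cases h2 : l = 2
  · subst h2
    have h3 := local_two a b m K p q
    have h4 : ((padicNorm 2 (NN a b m K p q) : ℚ) : ℝ) ^ 2 ≤
        (rng a b m K : ℝ) ^ (2 * K) * (32 : ℝ) ^ ((K : ℤ) * (m - 2 * b) - K * (K - 1)) := by
      have h4' := (Rat.cast_le (K := ℝ)).2 h3
      rw [Rat.cast_pow, Rat.cast_mul, Rat.cast_pow, Rat.cast_zpow, Rat.cast_natCast,
        Rat.cast_ofNat] at h4'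
      exact h4'
    have h5 := Real.log_le_log (by (clear * - hpos; positivity)) h4
    rw [Real.log_pow, Real.log_mul (by positivity) (by positivity), Real.log_pow,
      Real.log_zpow, show (32 : ℝ) = 2 ^ 5 by norm_num, Real.log_pow] at h5
    rw [if_pos (Or.inr (by norm_num)), if_pos rfl, if_neg (by norm_num), T2]
    push_cast at h5 hlog ⊢
    have h6 : (K : ℝ) * (m - 2 * b) * (5 * Real.log 2) = 2 * (5 / 2 * Real.log 2 *
      (K * (m - 2 * b))) := by ring
    have h7 : ((K : ℝ) * (m - 2 * b) - K * (K - 1)) * (5 * Real.log 2) = 2 * (5 / 2 * Real.log 2 *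
      (K * (m - 2 * b) - K * (K - 1))) := by ring
    linarith only [hlog, h5]
  by_cases h5 : l = 5
  · subst h5
    have h3 := local_five a b m K p q
    have h4 : ((padicNorm 5 (NN a b m K p q) : ℚ) : ℝ) ≤
        (rng a b m K : ℝ) ^ K * (5 : ℝ) ^ (2 * ∑ i ∈ range K, (m - (a + b + 2 * i))) := by
      exact_mod_cast h3
    have h6 := Real.log_le_log hpos h4
    rw [Real.log_mul (by (clear * - hR0; positivity)) (by positivity), Real.log_pow, Real.log_pow] at h6
    rw [if_pos (Or.inr (by norm_num)), if_neg (by norm_num), if_pos rfl, T5]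
    push_cast at h6 hlog ⊢
    linarith only [hlog, h6]
  rw [if_neg h2, if_neg h5, add_zero, add_zero]
  by_cases h7 : l ^ 2 ≤ rng a b m K ∨ l < 7
  · rw [if_pos h7]
    have h3 := local_crude a b m K p q l hl h2 h5
    have h4 : ((padicNorm l (NN a b m K p q) : ℚ) : ℝ) ≤ (rng a b m K : ℝ) ^ K := by
      exact_mod_cast h3
    have h6 := Real.log_le_log hpos h4
    rw [Real.log_pow] at h6
    linarith only [hlog, h6]
  · rw [if_neg h7, add_zero]
    push Not at h7
    obtain ⟨e, he1, he2⟩ := local_odd a b m K p q l hl h7.2 h7.1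
    have h4 : ((padicNorm l (NN a b m K p q) : ℚ) : ℝ) ≤ (l : ℝ) ^ e := by
      exact_mod_cast he1
    have h6 := Real.log_le_log hpos h4
    rw [Real.log_pow] at h6
    exact h6.trans (mul_le_mul_of_nonneg_right he2 (Real.log_natCast_nonneg _))

lemma log_NN_ge (a b m K : ℕ) (p q : ℤ) (hN : NN a b m K p q ≠ 0) :
    -(∑ l ∈ (Ioc 0 (rng a b m K)).filter Nat.Prime, (badR a b m K l + 8) * Real.log l +
      (Real.sqrt (rng a b m K) + 7) * ((K : ℝ) * Real.log (rng a b m K)) +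
      T2 b m K + T5 a b m K) ≤ Real.log |((NN a b m K p q : ℚ) : ℝ)| := by
  have h1 := log_abs_ge (NN a b m K p q) hN (rng a b m K) (bet a b m K)
    (fun l hl _ => log_norm_le a b m K p q hN l hl)
    (fun l hl hR => by
      have hR5 : 5 ≤ rng a b m K := by unfold rng; (clear * -; omega)
      have : 7 ≤ l := by
        have h6 : l ≠ 6 := by rintro rfl; exact absurd hl (by norm_num)
        omega
      exact local_big a b m K p q l hl this hR)
  refine le_trans ?_ h1
  rw [neg_le_neg_iff]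
  unfold bet
  rw [sum_add_distrib, sum_add_distrib, sum_add_distrib]
  have hR5 : 5 ≤ rng a b m K := by unfold rng; omega
  have e2 : ∑ x ∈ (Ioc 0 (rng a b m K)).filter Nat.Prime, (if x = 2 then T2 b m K else 0) =
      T2 b m K := by
    rw [sum_ite_eq', if_pos]
    rw [Finset.mem_filter, mem_Ioc]
    exact ⟨⟨by norm_num, by omega⟩, Nat.prime_two⟩
  have e5 : ∑ x ∈ (Ioc 0 (rng a b m K)).filter Nat.Prime, (if x = 5 then T5 a b m K else 0) =
      T5 a b m K := by
    rw [sum_ite_eq', if_pos]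
    rw [Finset.mem_filter, mem_Ioc]
    exact ⟨⟨by norm_num, by omega⟩, Nat.prime_five⟩
  rw [e2, e5]
  have hKR : 0 ≤ (K : ℝ) * Real.log (rng a b m K) := by
    have := Real.log_natCast_nonneg (rng a b m K)
    (clear * -; positivity)
  have h3 : ∑ x ∈ (Ioc 0 (rng a b m K)).filter Nat.Prime,
      (if x ^ 2 ≤ rng a b m K ∨ x < 7 then (K : ℝ) * Real.log (rng a b m K) else 0) ≤
      (Real.sqrt (rng a b m K) + 7) * ((K : ℝ) * Real.log (rng a b m K)) := by
    rw [← sum_filter, sum_const, nsmul_eq_mul]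
    refine mul_le_mul_of_nonneg_right ?_ hKR
    have h4 : (((Ioc 0 (rng a b m K)).filter Nat.Prime).filter
        (fun x => x ^ 2 ≤ rng a b m K ∨ x < 7)) ⊆ range (Nat.sqrt (rng a b m K) + 7) := by
      intro x hx
      rw [Finset.mem_filter] at hx
      rw [Finset.mem_range]
      rcases hx.2 with h | h
      · have : x ≤ Nat.sqrt (rng a b m K) := Nat.le_sqrt'.2 h
        omega
      · omega
    have h5 := card_le_card h4
    rw [card_range] at h5
    have h6 : ((Nat.sqrt (rng a b m K) : ℕ) : ℝ) ≤ Real.sqrt (rng a b m K) := Real.nat_sqrt_le_real_sqrt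
    calc (_ : ℝ) ≤ ((Nat.sqrt (rng a b m K) + 7 : ℕ) : ℝ) := by exact_mod_cast h5
      _ ≤ _ := by push_cast; (clear * - h6; linarith)
  linarith only [h3]

/-! ### asymptotics -/

/-- the arithmetic cost with window savings -/
noncomputable def cwin (K0 a0 b0 m0 : ℕ) : ℝ :=
  (∫ y in (0 : ℝ)..(2 * (m0 + 2 * K0 + a0 + 2 * b0) + 1), badR a0 b0 m0 K0 y) +
    ((m0 - (a0 + b0) : ℕ) : ℝ) ^ 2 / 2 * Real.log 5 -
    5 / 2 * K0 * (2 * (b0 : ℝ) + K0 - m0) * Real.log 2

lemma sum_bad_le (K0 a0 b0 m0 n κ : ℕ) (hn : 13 ≤ n) (hκ : κ ≤ 2) :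
    ∑ l ∈ (Ioc 0 (rng (a0 * n) (b0 * n) (m0 * n) (K0 * n + κ))).filter Nat.Prime,
      (badR ((a0 * n : ℕ) : ℝ) ((b0 * n : ℕ) : ℝ) ((m0 * n : ℕ) : ℝ) ((K0 * n + κ : ℕ) : ℝ) l + 8) *
        Real.log l ≤
      n * psum (badR a0 b0 m0 K0) n (2 * (m0 + 2 * K0 + a0 + 2 * b0) + 1) +
        12 * (Real.log 4 * ((2 * (m0 + 2 * K0 + a0 + 2 * b0) + 1) * n)) := by
  have hnR : (0 : ℝ) < n := by
    have : 0 < n := by omega
    exact_mod_cast this
  set X : ℝ := 2 * (m0 + 2 * K0 + a0 + 2 * b0) + 1 with hX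
  have hX0 : 0 ≤ X * n := by (clear * - hn; positivity)
  have h1 := Chebyshev.theta_le_log4_mul_x hX0
  have hsub : (Ioc 0 (rng (a0 * n) (b0 * n) (m0 * n) (K0 * n + κ))).filter Nat.Prime ⊆
      (Ioc 0 ⌊X * n⌋₊).filter Nat.Prime := by
    intro l hl
    rw [Finset.mem_filter, mem_Ioc] at hl ⊢
    refine ⟨⟨hl.1.1, hl.1.2.trans ((Nat.le_floor_iff hX0).2 ?_)⟩, hl.2⟩
    have h2 : rng (a0 * n) (b0 * n) (m0 * n) (K0 * n + κ) ≤
        (2 * (m0 + 2 * K0 + a0 + 2 * b0) + 1) * n := by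
      unfold rng
      have e1 : 2 * (m0 * n + 2 * (K0 * n + κ) + a0 * n + 2 * (b0 * n)) + 5 =
        2 * (m0 + 2 * K0 + a0 + 2 * b0) * n + (4 * κ + 5) := by ring
      rw [e1, add_mul, one_mul]
      omega
    calc ((rng (a0 * n) (b0 * n) (m0 * n) (K0 * n + κ) : ℕ) : ℝ) ≤
        (((2 * (m0 + 2 * K0 + a0 + 2 * b0) + 1) * n : ℕ) : ℝ) := by exact_mod_cast h2
      _ = X * n := by rw [hX]; push_cast; ring
  have hφ0 : ∀ y, 0 ≤ badR a0 b0 m0 K0 y := fun y => badR_nonneg (Nat.cast_nonneg K0)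
  have h3 : ∀ l : ℕ, (badR ((a0 * n : ℕ) : ℝ) ((b0 * n : ℕ) : ℝ) ((m0 * n : ℕ) : ℝ)
      ((K0 * n + κ : ℕ) : ℝ) l + 8) * Real.log l ≤
      n * (badR a0 b0 m0 K0 ((l : ℝ) / n) * Real.log l) + 12 * Real.log l := by
    intro l
    have h4 := badR_scale a0 b0 m0 K0 l hnR κ (Nat.cast_nonneg _)
    have hκ' : (κ : ℝ) ≤ 2 := by exact_mod_cast hκ
    have h5 := Real.log_natCast_nonneg l
    push_cast
    have h6 : badR ((a0 : ℝ) * n) (b0 * n) (m0 * n) (K0 * n + κ) l + 8 ≤
        n * badR a0 b0 m0 K0 ((l : ℝ) / n) + 12 := by linarith only [h4, hκ']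
    have h7 := mul_le_mul_of_nonneg_right h6 h5
    linarith only [h7]
  calc _ ≤ ∑ l ∈ (Ioc 0 (rng (a0 * n) (b0 * n) (m0 * n) (K0 * n + κ))).filter Nat.Prime,
        (n * (badR a0 b0 m0 K0 ((l : ℝ) / n) * Real.log l) + 12 * Real.log l) :=
        sum_le_sum fun l _ => h3 l
    _ ≤ ∑ l ∈ (Ioc 0 ⌊X * n⌋₊).filter Nat.Prime,
        (n * (badR a0 b0 m0 K0 ((l : ℝ) / n) * Real.log l) + 12 * Real.log l) := by
        refine sum_le_sum_of_subset_of_nonneg hsub fun l _ _ => ?_
        have := hφ0 ((l : ℝ) / n)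
        have h5 := Real.log_natCast_nonneg l
        (clear * - hn this; positivity)
    _ = n * psum (badR a0 b0 m0 K0) n X + 12 * Chebyshev.theta (X * n) := by
        rw [sum_add_distrib, ← mul_sum, ← mul_sum, psum, Chebyshev.theta]
    _ ≤ _ := by linarith only [h1]

lemma T5_le (K0 a0 b0 m0 n κ : ℕ) : T5 (a0 * n) (b0 * n) (m0 * n) (K0 * n + κ) ≤
    ((m0 - (a0 + b0) : ℕ) : ℝ) ^ 2 / 2 * Real.log 5 * n ^ 2 +
      (((m0 - (a0 + b0) : ℕ) : ℝ) * n + 1) * Real.log 5 := by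
  have h1 := four_mul_sum_le (K0 * n + κ) ((m0 - (a0 + b0)) * n)
  have e1 : ∀ i, m0 * n - (a0 * n + b0 * n + 2 * i) = (m0 - (a0 + b0)) * n - 2 * i := by
    intro i
    rw [Nat.sub_mul, add_mul]
    omega
  unfold T5
  simp_rw [e1]
  have h2 : 4 * ((∑ i ∈ range (K0 * n + κ), ((m0 - (a0 + b0)) * n - 2 * i) : ℕ) : ℝ) ≤
      (((m0 - (a0 + b0) : ℕ) : ℝ) * n + 1) ^ 2 := by exact_mod_cast h1
  have h5 : 0 < Real.log 5 := Real.log_pos (by norm_num)
  nlinarith only [h5, h2]

lemma T2_le (K0 b0 m0 n κ : ℕ) (hκ : κ ≤ 2) : T2 (b0 * n) (m0 * n) (K0 * n + κ) ≤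
    -(5 / 2 * K0 * (2 * (b0 : ℝ) + K0 - m0) * Real.log 2) * n ^ 2 +
      5 / 2 * Real.log 2 * ((2 * m0 + K0) * n + 2) := by
  unfold T2
  have h2 : 0 < Real.log 2 := Real.log_pos (by norm_num)
  have hκ' : (κ : ℝ) ≤ 2 := by exact_mod_cast hκ
  have hκ0 : (0 : ℝ) ≤ κ := Nat.cast_nonneg _
  have hn0 : (0 : ℝ) ≤ n := Nat.cast_nonneg _
  have hb0 : (0 : ℝ) ≤ b0 := Nat.cast_nonneg _
  have hm0 : (0 : ℝ) ≤ m0 := Nat.cast_nonneg _
  have hK0 : (0 : ℝ) ≤ K0 := Nat.cast_nonneg _
  push_cast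
  have h3 : ((K0 : ℝ) * n + κ) * (m0 * n - 2 * (b0 * n)) - (K0 * n + κ) * (K0 * n + κ - 1) ≤
      -(K0 * (2 * (b0 : ℝ) + K0 - m0)) * n ^ 2 + ((2 * m0 + K0) * n + 2) := by
    have e1 : ((K0 : ℝ) * n + κ) * (m0 * n - 2 * (b0 * n)) - (K0 * n + κ) * (K0 * n + κ - 1) =
      -(K0 * (2 * (b0 : ℝ) + K0 - m0)) * n ^ 2 + (κ * (m0 * n) - 2 * κ * (b0 * n) -
        2 * κ * (K0 * n) + K0 * n - κ ^ 2 + κ) := by ring
    rw [e1]
    have h4 : (κ : ℝ) * (m0 * n) ≤ 2 * (m0 * n) := mul_le_mul_of_nonneg_right hκ' (by (clear * -; positivity))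
    have h5 : 0 ≤ 2 * (κ : ℝ) * (b0 * n) := by (clear * -; positivity)
    have h6 : 0 ≤ 2 * (κ : ℝ) * (K0 * n) := by (clear * -; positivity)
    nlinarith only [h4, h5, h6]
  nlinarith only [h2, h3]

/-- the constant bounding the range -/
noncomputable def XR (K0 a0 b0 m0 : ℕ) : ℝ := 2 * (m0 + 2 * K0 + a0 + 2 * b0) + 1

lemma XR_pos (K0 a0 b0 m0 : ℕ) : 1 ≤ XR K0 a0 b0 m0 := by
  unfold XR
  have : (0 : ℝ) ≤ 2 * (m0 + 2 * K0 + a0 + 2 * b0) := by (clear * -; positivity)
  linarith only []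

lemma rng_le (K0 a0 b0 m0 n κ : ℕ) (hn : 13 ≤ n) (hκ : κ ≤ 2) :
    (rng (a0 * n) (b0 * n) (m0 * n) (K0 * n + κ) : ℝ) ≤ XR K0 a0 b0 m0 * n := by
  have h2 : rng (a0 * n) (b0 * n) (m0 * n) (K0 * n + κ) ≤
      (2 * (m0 + 2 * K0 + a0 + 2 * b0) + 1) * n := by
    unfold rng
    have e1 : 2 * (m0 * n + 2 * (K0 * n + κ) + a0 * n + 2 * (b0 * n)) + 5 =
      2 * (m0 + 2 * K0 + a0 + 2 * b0) * n + (4 * κ + 5) := by ring
    rw [e1, add_mul, one_mul]
    omega
  calc ((rng (a0 * n) (b0 * n) (m0 * n) (K0 * n + κ) : ℕ) : ℝ) ≤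
      (((2 * (m0 + 2 * K0 + a0 + 2 * b0) + 1) * n : ℕ) : ℝ) := by exact_mod_cast h2
    _ = XR K0 a0 b0 m0 * n := by unfold XR; push_cast; ring

lemma sqrt_log_small {X η : ℝ} (hX : 0 < X) (hη : 0 < η) :
    ∀ᶠ n : ℕ in atTop, (Real.sqrt (X * n) + 7) * Real.log (X * n) ≤ η * (X * n) := by
  have h1 : (fun x : ℝ => (Real.sqrt x + 7) * Real.log x) =o[atTop] (fun x : ℝ => x) := by
    have h2 : (fun x : ℝ => Real.sqrt x + 7) =O[atTop] (fun x : ℝ => x ^ (1 / 2 : ℝ)) := by
      refine Asymptotics.IsBigO.of_bound 8 ?_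
      filter_upwards [eventually_ge_atTop 1] with x hx
      have h3 : 1 ≤ Real.sqrt x := Real.one_le_sqrt.2 hx
      rw [← Real.sqrt_eq_rpow, Real.norm_of_nonneg (by positivity),
        Real.norm_of_nonneg (by positivity)]
      linarith only [h3]
    have h4 := h2.mul_isLittleO (isLittleO_log_rpow_atTop (r := 1 / 2) (by norm_num))
    refine h4.congr' (EventuallyEq.rfl) ?_
    filter_upwards [eventually_gt_atTop 0] with x hx
    rw [← Real.rpow_add hx]
    norm_num
  have h0 : Tendsto (fun n : ℕ => X * (n : ℝ)) atTop atTop :=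
    tendsto_natCast_atTop_atTop.const_mul_atTop hX
  have h5 := (h1.bound hη)
  filter_upwards [h0.eventually h5] with n hn
  have h6 : (0 : ℝ) ≤ X * n := by positivity
  rw [Real.norm_of_nonneg h6] at hn
  exact (le_abs_self _).trans hn

lemma mid_le {R Y k A Z : ℝ} (hR : 1 ≤ R) (hRY : R ≤ Y) (hk0 : 0 ≤ k) (hk : k ≤ A)
    (hZ : (Real.sqrt Y + 7) * Real.log Y ≤ Z) :
    (Real.sqrt R + 7) * (k * Real.log R) ≤ A * Z := by
  have h1 : Real.sqrt R ≤ Real.sqrt Y := Real.sqrt_le_sqrt hRY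
  have h2 : Real.log R ≤ Real.log Y := Real.log_le_log (by linarith) hRY
  have h3 : 0 ≤ Real.log R := Real.log_nonneg hR
  have h4 := Real.sqrt_nonneg R
  have h5 : 0 ≤ (Real.sqrt Y + 7) * Real.log Y := by
    have := h3.trans h2
    (clear * - this; positivity)
  calc (Real.sqrt R + 7) * (k * Real.log R) = k * ((Real.sqrt R + 7) * Real.log R) := by ring
    _ ≤ k * ((Real.sqrt Y + 7) * Real.log Y) :=
        mul_le_mul_of_nonneg_left (mul_le_mul (by linarith) h2 h3 (by positivity)) hk0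
    _ ≤ k * Z := mul_le_mul_of_nonneg_left hZ hk0
    _ ≤ A * Z := mul_le_mul_of_nonneg_right hk (h5.trans hZ)

lemma lin_le {X M n k m0 K0 l2 l4 l5 : ℝ} (hn : 1 ≤ n) (h2 : 0 ≤ l2)
    (h5 : 0 ≤ l5) (hk : k ≤ (K0 + 2) * n) :
    12 * (l4 * (X * n)) + (M * n + 1) * l5 + 5 / 2 * l2 * ((2 * m0 + K0) * n + 2) + k * l2 ≤
      (12 * (l4 * X) + (M + 1) * l5 + 5 / 2 * l2 * (2 * m0 + K0 + 2) + (K0 + 2) * l2) * n := by
  have e3 : (M * n + 1) * l5 ≤ (M + 1) * n * l5 := mul_le_mul_of_nonneg_right (by linarith) h5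
  have e4 : 5 / 2 * l2 * ((2 * m0 + K0) * n + 2) ≤ 5 / 2 * l2 * ((2 * m0 + K0 + 2) * n) :=
    mul_le_mul_of_nonneg_left (by linarith) (by positivity)
  have e5 : k * l2 ≤ (K0 + 2) * n * l2 := mul_le_mul_of_nonneg_right hk h2
  have e6 : (12 * (l4 * X) + (M + 1) * l5 + 5 / 2 * l2 * (2 * m0 + K0 + 2) + (K0 + 2) * l2) * n =
    12 * (l4 * (X * n)) + (M + 1) * n * l5 + 5 / 2 * l2 * ((2 * m0 + K0 + 2) * n) +
      (K0 + 2) * n * l2 := by ring
  rw [e6]
  linarith

lemma log_NN_eq (a b m K : ℕ) (p q : ℤ) (hq : 0 < q)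
    (hdet : (HM ((p : ℝ) / q) a b m K).det ≠ 0) :
    Real.log |((NN a b m K p q : ℚ) : ℝ)| =
      (K : ℝ) * Real.log 2 + Real.log ((q : ℝ) ^ K * |(HM ((p : ℝ) / q) a b m K).det|) := by
  have hqR : (0 : ℝ) < q := by exact_mod_cast hq
  have h1 : (0 : ℝ) < (q : ℝ) ^ K * |(HM ((p : ℝ) / q) a b m K).det| :=
    mul_pos (pow_pos hqR K) (abs_pos.2 hdet)
  have h2 : (0 : ℝ) < (2 * (q : ℝ)) ^ K := pow_pos (by linarith only [hqR]) K
  have h3 : |((NN a b m K p q : ℚ) : ℝ)| = 2 ^ K * ((q : ℝ) ^ K *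
      |(HM ((p : ℝ) / q) a b m K).det|) := by
    rw [NN_eq a b m K p q hq, abs_mul, abs_of_pos h2, mul_pow, mul_assoc]
  rw [h3, Real.log_mul (pow_ne_zero K (by norm_num)) h1.ne', Real.log_pow]

theorem arith_lower_win (K0 a0 b0 m0 : ℕ) {ε : ℝ} (hε : 0 < ε) :
    ∀ᶠ n : ℕ in atTop, ∀ κ ≤ 2, ∀ p q : ℤ, 0 < q →
      (HM ((p : ℝ) / q) (a0 * n) (b0 * n) (m0 * n) (K0 * n + κ)).det ≠ 0 →
      Real.exp (-(cwin K0 a0 b0 m0 + ε) * (n : ℝ) ^ 2) ≤
        (q : ℝ) ^ (K0 * n + κ) *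
          |(HM ((p : ℝ) / q) (a0 * n) (b0 * n) (m0 * n) (K0 * n + κ)).det| := by
  set X : ℝ := XR K0 a0 b0 m0 with hXdef
  have hX1 : 1 ≤ X := XR_pos K0 a0 b0 m0
  have hX0 : 0 < X := by linarith
  set η : ℝ := ε / (4 * (K0 + 2) * X) with hη
  have hη0 : 0 < η := by (clear * - hε hX1; positivity)
  have hη1 : (K0 + 2) * (η * X) = ε / 4 := by rw [hη]; (clear * - hX1 hε; field_simp)
  set M : ℝ := ((m0 - (a0 + b0) : ℕ) : ℝ) with hM
  have hM0 : 0 ≤ M := Nat.cast_nonneg _
  have hl2 : 0 < Real.log 2 := Real.log_pos (by norm_num)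
  have hl4 : 0 < Real.log 4 := Real.log_pos (by norm_num)
  have hl5 : 0 < Real.log 5 := Real.log_pos (by norm_num)
  set B : ℝ := 12 * (Real.log 4 * X) + (M + 1) * Real.log 5 +
    5 / 2 * Real.log 2 * (2 * m0 + K0 + 2) + (K0 + 2) * Real.log 2 with hB
  have hB0 : 0 ≤ B := by rw [hB]; (clear * - hX1; positivity)
  obtain ⟨N0, hN0⟩ := exists_nat_gt (4 * B / ε)
  filter_upwards [psum_le_integral (φ := badR a0 b0 m0 K0) hX0 (by norm_num : (0 : ℝ) ≤ 6)
    (badR_lip a0 b0 m0 K0) (by positivity : 0 < ε / 4), sqrt_log_small hX0 hη0,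
    eventually_ge_atTop (N0 + 13)] with n hn1 hn2 hn3 κ hκ p q hq hdet
  have hn13 : 13 ≤ n := by omega
  have hnR : (1 : ℝ) ≤ n := by
    have : 1 ≤ n := by omega
    exact_mod_cast this
  have hnB : B * n ≤ ε / 4 * n ^ 2 := by
    have h1 : (N0 : ℝ) ≤ n := by
      have : N0 ≤ n := by omega
      exact_mod_cast this
    have h2 : 4 * B / ε < n := hN0.trans_le h1
    rw [div_lt_iff₀ hε] at h2
    nlinarith only [h2]
  have hκR : (κ : ℝ) ≤ 2 := by exact_mod_cast hκ
  have hκ0 : (0 : ℝ) ≤ κ := Nat.cast_nonneg _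
  have hqR : (0 : ℝ) < q := by exact_mod_cast hq
  have hNN := NN_eq (a0 * n) (b0 * n) (m0 * n) (K0 * n + κ) p q hq
  have hNNR : ((NN (a0 * n) (b0 * n) (m0 * n) (K0 * n + κ) p q : ℚ) : ℝ) ≠ 0 := by
    rw [hNN]
    exact mul_ne_zero (pow_ne_zero _ (by positivity)) hdet
  have hNN0 : NN (a0 * n) (b0 * n) (m0 * n) (K0 * n + κ) p q ≠ 0 := by
    exact_mod_cast hNNR
  have h3 := log_NN_ge _ _ _ _ p q hNN0
  have h4 := sum_bad_le K0 a0 b0 m0 n κ hn13 hκ
  have h5 := T5_le K0 a0 b0 m0 n κ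
  have h6 := T2_le K0 b0 m0 n κ hκ
  have h7 := rng_le K0 a0 b0 m0 n κ hn13 hκ
  have hrng1 : (1 : ℝ) ≤ rng (a0 * n) (b0 * n) (m0 * n) (K0 * n + κ) := by
    have : 1 ≤ rng (a0 * n) (b0 * n) (m0 * n) (K0 * n + κ) := by unfold rng; omega
    exact_mod_cast this
  have hXR : 2 * ((m0 : ℝ) + 2 * K0 + a0 + 2 * b0) + 1 = X := rfl
  rw [hXR] at h4
  rw [← hM] at h5
  rw [← hXdef] at h7
  have h12 : ((K0 * n + κ : ℕ) : ℝ) ≤ (K0 + 2) * n := by
    push_cast
    nlinarith only [hnR, hκR]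
  have h8 : (Real.sqrt (rng (a0 * n) (b0 * n) (m0 * n) (K0 * n + κ)) + 7) *
      (((K0 * n + κ : ℕ) : ℝ) * Real.log (rng (a0 * n) (b0 * n) (m0 * n) (K0 * n + κ))) ≤
      ε / 4 * n ^ 2 := by
    have h13 := mid_le hrng1 h7 (Nat.cast_nonneg (K0 * n + κ)) h12 hn2
    have h14 : ((K0 : ℝ) + 2) * n * (η * (X * n)) = ((K0 + 2) * (η * X)) * n ^ 2 := by ring
    rw [h14, hη1] at h13
    exact h13
  have h9 : (n : ℝ) * psum (badR a0 b0 m0 K0) n X ≤
      (∫ y in (0 : ℝ)..X, badR a0 b0 m0 K0 y) * n ^ 2 + ε / 4 * n ^ 2 := by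
    have := mul_le_mul_of_nonneg_left hn1 (by linarith only [] : (0 : ℝ) ≤ n)
    calc _ ≤ _ := this
      _ = _ := by ring
  have hlogeq := log_NN_eq (a0 * n) (b0 * n) (m0 * n) (K0 * n + κ) p q hq hdet
  have hfin : -(cwin K0 a0 b0 m0 + ε) * (n : ℝ) ^ 2 ≤ Real.log ((q : ℝ) ^ (K0 * n + κ) *
          |(HM ((p : ℝ) / q) (a0 * n) (b0 * n) (m0 * n) (K0 * n + κ)).det|) := by
    have e1 : cwin K0 a0 b0 m0 * (n : ℝ) ^ 2 = (∫ y in (0 : ℝ)..X, badR a0 b0 m0 K0 y) * n ^ 2 +
      M ^ 2 / 2 * Real.log 5 * n ^ 2 +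
      -(5 / 2 * K0 * (2 * (b0 : ℝ) + K0 - m0) * Real.log 2) * n ^ 2 := by
      rw [cwin, hXR, ← hM]; ring
    have e2 : 12 * (Real.log 4 * (X * n)) + (M * n + 1) * Real.log 5 +
        5 / 2 * Real.log 2 * ((2 * m0 + K0) * n + 2) +
        ((K0 * n + κ : ℕ) : ℝ) * Real.log 2 ≤ B * n := by
      rw [hB]
      exact lin_le hnR hl2.le hl5.le h12
    have e6 : -(cwin K0 a0 b0 m0 + ε) * (n : ℝ) ^ 2 = -(cwin K0 a0 b0 m0 * (n : ℝ) ^ 2) -
      ε * n ^ 2 := by ring
    rw [e6, e1]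
    rw [hlogeq] at h3
    have e7 : 0 ≤ ε * (n : ℝ) ^ 2 := by positivity
    linarith only [hnB, h3, h4, h5, h6, h8, h9, e2, e7]
  have hpos : 0 < (q : ℝ) ^ (K0 * n + κ) *
      |(HM ((p : ℝ) / q) (a0 * n) (b0 * n) (m0 * n) (K0 * n + κ)).det| := by
    have := abs_pos.2 hdet
    (clear * - hq hdet; positivity)
  exact (Real.le_log_iff_exp_le hpos).1 hfin

end Vale.Agent.P021.Det
end

section

/-!
# Evaluation of the constant `cwin`
-/

namespace Vale.Agent.P021.Det

open Filter Topology Finset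

lemma continuous_badR (a b m K : ℝ) : Continuous (badR a b m K) := by
  unfold badR plainR winR
  fun_prop

lemma continuous_plainR (a b m K : ℝ) : Continuous (plainR a b m K) := by
  unfold plainR
  fun_prop

lemma continuous_winR (a b m K : ℝ) : Continuous (winR a b m K) := by
  unfold winR
  (clear * -; fun_prop)

/-- a function below its chord has integral at most the trapezoid -/
lemma int_le_trap {f : ℝ → ℝ} (hf : Continuous f) {u v A B : ℝ} (huv : u < v)
    (h : ∀ y ∈ Set.Icc u v, f y * (v - u) ≤ A * (v - y) + B * (y - u)) :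
    ∫ y in u..v, f y ≤ (v - u) * (A + B) / 2 := by
  have huv0 : 0 < v - u := by linarith
  have h1 : ∫ y in u..v, f y ≤ ∫ y in u..v, ((A * v - B * u) / (v - u) + (B - A) / (v - u) * y) := by
    refine intervalIntegral.integral_mono_on huv.le (hf.intervalIntegrable _ _)
      (Continuous.intervalIntegrable (by fun_prop) _ _) fun y hy => ?_
    have h2 := h y hy
    rw [← le_div_iff₀ huv0] at h2
    refine h2.trans_eq ?_
    field_simp
    ring
  refine h1.trans_eq ?_
  rw [intervalIntegral.integral_add (by simp) (Continuous.intervalIntegrable (by fun_prop) _ _),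
    intervalIntegral.integral_const, intervalIntegral.integral_const_mul, integral_id, smul_eq_mul]
  field_simp
  ring

lemma max_chord {c d u v y : ℝ} (huv : u ≤ v) (hy : y ∈ Set.Icc u v) :
    max (c + d * y) 0 * (v - u) ≤ max (c + d * u) 0 * (v - y) + max (c + d * v) 0 * (y - u) := by
  obtain ⟨h1, h2⟩ := hy
  rw [max_mul_of_nonneg _ _ (by linarith only [huv]), zero_mul]
  refine max_le ?_ ?_
  · have h3 := mul_le_mul_of_nonneg_right (le_max_left (c + d * u) 0) (by linarith only [h2] : 0 ≤ v - y)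
    have h4 := mul_le_mul_of_nonneg_right (le_max_left (c + d * v) 0) (by linarith : 0 ≤ y - u)
    linarith
  · have h3 := mul_nonneg (le_max_right (c + d * u) 0) (by linarith : 0 ≤ v - y)
    have h4 := mul_nonneg (le_max_right (c + d * v) 0) (by linarith : 0 ≤ y - u)
    linarith only [h3, h4]

lemma plainR_chord (a b m K : ℝ) {u v y : ℝ} (huv : u ≤ v) (hy : y ∈ Set.Icc u v) :
    plainR a b m K y * (v - u) ≤ plainR a b m K u * (v - y) + plainR a b m K v * (y - u) := by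
  have h1 := max_chord (c := m) (d := -1) huv hy
  have h2 := max_chord (c := 2 * a + 4 * b - 2 * m + 4 * K) (d := -1) huv hy
  simp only [neg_one_mul, ← sub_eq_add_neg] at h1 h2
  unfold plainR
  linarith

lemma winR_chord (a b m K : ℝ) {u v y : ℝ} (huv : u ≤ v) (hy : y ∈ Set.Icc u v) :
    winR a b m K y * (v - u) ≤ winR a b m K u * (v - y) + winR a b m K v * (y - u) := by
  have h1 := max_chord (c := -b) (d := 1) huv hy
  have h2 := max_chord (c := -(2 * a)) (d := 1) huv hy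
  have h3 := max_chord (c := m) (d := -2) huv hy
  have h4 := max_chord (c := 2 * a + 4 * b - 2 * m + 4 * K) (d := -3) huv hy
  simp only [one_mul, neg_mul, ← sub_eq_add_neg, neg_add_eq_sub] at h1 h2 h3 h4
  unfold winR
  linarith

/-- the bound on one interval; `c` is the choice of the piece -/
lemma int_badR_plain (a b m K : ℝ) {u v : ℝ} (huv : u < v) :
    ∫ y in u..v, badR a b m K y ≤ (v - u) * (plainR a b m K u + plainR a b m K v) / 2 :=
  int_le_trap (continuous_badR a b m K) huv fun y hy =>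
    (mul_le_mul_of_nonneg_right ((min_le_right _ _).trans (min_le_left _ _))
      (by linarith [hy.1, hy.2])).trans (plainR_chord a b m K huv.le hy)

lemma int_badR_win (a b m K : ℝ) {u v : ℝ} (huv : u < v) :
    ∫ y in u..v, badR a b m K y ≤ (v - u) * (winR a b m K u + winR a b m K v) / 2 :=
  int_le_trap (continuous_badR a b m K) huv fun y hy =>
    (mul_le_mul_of_nonneg_right ((min_le_right _ _).trans (min_le_right _ _))
      (by linarith [hy.1, hy.2])).trans (winR_chord a b m K huv.le hy)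

lemma int_badR_K (a b m K : ℝ) {u v : ℝ} (huv : u < v) :
    ∫ y in u..v, badR a b m K y ≤ (v - u) * K := by
  have h := int_le_trap (continuous_badR a b m K) huv (A := K) (B := K) fun y hy => by
    have h1 : badR a b m K y ≤ K := min_le_left _ _
    have h2 := mul_le_mul_of_nonneg_right h1 (by linarith [hy.1, hy.2] : 0 ≤ v - u)
    linarith
  linarith only [h]

/-- splitting of the integral at consecutive points -/
lemma int_badR_add (a b m K : ℝ) (u v w : ℝ) :
    ∫ y in u..w, badR a b m K y = (∫ y in u..v, badR a b m K y) + ∫ y in v..w, badR a b m K y :=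
  (intervalIntegral.integral_add_adjacent_intervals
    ((continuous_badR a b m K).intervalIntegrable _ _)
    ((continuous_badR a b m K).intervalIntegrable _ _)).symm

/-- the general shape: full rows up to `y1`, window between `y1` and `y2` with the intermediate
points `x1, x2, x3`, full rows up to `y3`, then the plain bound with intermediate point `m`,
until `X1`. -/
theorem cwin_le (K0 a0 b0 m0 : ℕ) {y1 x1 x2 x3 y2 y3 x4 X1 : ℝ} (h0 : 0 < y1) (h1 : y1 < x1)
    (h2 : x1 < x2) (h3 : x2 < x3) (h4 : x3 < y2) (h5 : y2 < y3) (h6 : y3 < x4) (h7 : x4 < X1)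
    (h8 : X1 < 2 * (m0 + 2 * K0 + a0 + 2 * b0) + 1)
    (h9 : plainR a0 b0 m0 K0 X1 = 0)
    (h10 : plainR a0 b0 m0 K0 (2 * (m0 + 2 * K0 + a0 + 2 * b0) + 1) = 0) :
    cwin K0 a0 b0 m0 ≤ y1 * K0 +
      (x1 - y1) * (winR a0 b0 m0 K0 y1 + winR a0 b0 m0 K0 x1) / 2 +
      (x2 - x1) * (winR a0 b0 m0 K0 x1 + winR a0 b0 m0 K0 x2) / 2 +
      (x3 - x2) * (winR a0 b0 m0 K0 x2 + winR a0 b0 m0 K0 x3) / 2 +
      (y2 - x3) * (winR a0 b0 m0 K0 x3 + winR a0 b0 m0 K0 y2) / 2 +
      (y3 - y2) * K0 +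
      (x4 - y3) * (plainR a0 b0 m0 K0 y3 + plainR a0 b0 m0 K0 x4) / 2 +
      (X1 - x4) * plainR a0 b0 m0 K0 x4 / 2 +
      ((m0 - (a0 + b0) : ℕ) : ℝ) ^ 2 / 2 * Real.log 5 -
      5 / 2 * K0 * (2 * (b0 : ℝ) + K0 - m0) * Real.log 2 := by
  unfold cwin
  set Z : ℝ := 2 * (m0 + 2 * K0 + a0 + 2 * b0) + 1 with hZ
  have e := int_badR_add a0 b0 m0 K0 0 y1 Z
  have e1 := int_badR_add a0 b0 m0 K0 y1 x1 Z
  have e2 := int_badR_add a0 b0 m0 K0 x1 x2 Z
  have e3 := int_badR_add a0 b0 m0 K0 x2 x3 Z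
  have e4 := int_badR_add a0 b0 m0 K0 x3 y2 Z
  have e5 := int_badR_add a0 b0 m0 K0 y2 y3 Z
  have e6 := int_badR_add a0 b0 m0 K0 y3 x4 Z
  have e7 := int_badR_add a0 b0 m0 K0 x4 X1 Z
  have i0 := int_badR_K a0 b0 m0 K0 h0
  have i1 := int_badR_win a0 b0 m0 K0 h1
  have i2 := int_badR_win a0 b0 m0 K0 h2
  have i3 := int_badR_win a0 b0 m0 K0 h3
  have i4 := int_badR_win a0 b0 m0 K0 h4
  have i5 := int_badR_K a0 b0 m0 K0 h5
  have i6 := int_badR_plain a0 b0 m0 K0 h6
  have i7 := int_badR_plain a0 b0 m0 K0 h7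
  have i8 := int_badR_plain a0 b0 m0 K0 h8
  rw [h9] at i7
  rw [h9, h10] at i8
  linarith only [e, e1, e2, e3, e4, e5, e6, e7, i0, i1, i2, i3, i4, i5, i6, i7, i8]

end Vale.Agent.P021.Det
end

section

/-!
# The constant for the shape `(5 s, 6 s, 13 s, 26 s)`
-/

namespace Vale.Agent.P021.Det

lemma plainR_scale (a b m K y s : ℝ) (hs : 0 ≤ s) :
    plainR (a * s) (b * s) (m * s) (K * s) (y * s) = s * plainR a b m K y := by
  unfold plainR
  have e1 : m * s - y * s = s * (m - y) := by ring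
  have e2 : 2 * (a * s) + 4 * (b * s) - 2 * (m * s) + 4 * (K * s) - y * s =
    s * (2 * a + 4 * b - 2 * m + 4 * K - y) := by ring
  rw [e1, e2, mul_max_zero hs, mul_max_zero hs]
  ring

lemma winR_scale (a b m K y s : ℝ) (hs : 0 ≤ s) :
    winR (a * s) (b * s) (m * s) (K * s) (y * s) = s * winR a b m K y := by
  unfold winR
  have e1 : y * s - b * s = s * (y - b) := by ring
  have e2 : y * s - 2 * (a * s) = s * (y - 2 * a) := by ring
  have e3 : m * s - 2 * (y * s) = s * (m - 2 * y) := by ring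
  have e4 : 2 * (a * s) + 4 * (b * s) - 2 * (m * s) + 4 * (K * s) - 3 * (y * s) =
    s * (2 * a + 4 * b - 2 * m + 4 * K - 3 * y) := by ring
  rw [e1, e2, e3, e4, mul_max_zero hs, mul_max_zero hs, mul_max_zero hs, mul_max_zero hs]
  ring

lemma win5_val : winR 6 13 26 5 (74 / 7) = 5 ∧ winR 6 13 26 5 (32 / 3) = 14 / 3 ∧
    winR 6 13 26 5 12 = 2 ∧ winR 6 13 26 5 13 = 1 / 2 ∧ winR 6 13 26 5 (74 / 5) = 5 := by
  unfold winR
  refine ⟨?_, ?_, ?_, ?_, ?_⟩ <;> norm_num [max_def]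

lemma plain5_val : plainR 6 13 26 5 (74 / 3) = 5 ∧ plainR 6 13 26 5 26 = 3 ∧
    plainR 6 13 26 5 32 = 0 := by
  unfold plainR
  refine ⟨?_, ?_, ?_⟩ <;> norm_num [max_def]

theorem cwin_five (s : ℕ) (hs : 1 ≤ s) : cwin (5 * s) (6 * s) (13 * s) (26 * s) ≤
    (s : ℝ) ^ 2 * (4467 / 35 + 49 / 2 * Real.log 5 - 125 / 2 * Real.log 2) := by
  have hs0 : (1 : ℝ) ≤ s := by exact_mod_cast hs
  have hs' : (0 : ℝ) ≤ s := by linarith only []
  obtain ⟨w1, w2, w3, w4, w5⟩ := win5_val
  obtain ⟨p1, p2, p3⟩ := plain5_val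
  have hw : ∀ y : ℝ, winR ((6 * s : ℕ) : ℝ) ((13 * s : ℕ) : ℝ) ((26 * s : ℕ) : ℝ)
      ((5 * s : ℕ) : ℝ) (y * s) = s * winR 6 13 26 5 y := by
    intro y
    push_cast
    exact winR_scale 6 13 26 5 y s hs'
  have hp : ∀ y : ℝ, plainR ((6 * s : ℕ) : ℝ) ((13 * s : ℕ) : ℝ) ((26 * s : ℕ) : ℝ)
      ((5 * s : ℕ) : ℝ) (y * s) = s * plainR 6 13 26 5 y := by
    intro y
    push_cast
    exact plainR_scale 6 13 26 5 y s hs'
  have hX : plainR ((6 * s : ℕ) : ℝ) ((13 * s : ℕ) : ℝ) ((26 * s : ℕ) : ℝ) ((5 * s : ℕ) : ℝ)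
      (2 * (((26 * s : ℕ) : ℝ) + 2 * ((5 * s : ℕ) : ℝ) + ((6 * s : ℕ) : ℝ) +
        2 * ((13 * s : ℕ) : ℝ)) + 1) = 0 := by
    unfold plainR
    push_cast
    rw [max_eq_right (by linarith only []), max_eq_right (by linarith only [])]
    norm_num
  have h := cwin_le (5 * s) (6 * s) (13 * s) (26 * s) (y1 := 74 / 7 * s) (x1 := 32 / 3 * s)
    (x2 := 12 * s) (x3 := 13 * s) (y2 := 74 / 5 * s) (y3 := 74 / 3 * s) (x4 := 26 * s)
    (X1 := 32 * s) (by linarith only [hs0]) (by linarith only [hs0]) (by linarith only [hs0]) (by linarith only [hs0]) (by linarith only [hs0])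
    (by linarith only [hs0]) (by linarith only [hs0]) (by linarith only [hs0]) (by push_cast; linarith only [])
    (by rw [hp, p3, mul_zero]) hX
  rw [hw, hw, hw, hw, hw, hp, hp, w1, w2, w3, w4, w5, p1, p2] at h
  refine h.trans (le_of_eq ?_)
  have e1 : 26 * s - (6 * s + 13 * s) = 7 * s := by (clear * - hs; omega)
  rw [e1]
  push_cast
  ring

end Vale.Agent.P021.Det
end

section

/-!
# The bound for `μ(π)` from a certificate of shape `(5 s, 6 s, 13 s, 26 s)`
-/

namespace Vale.Agent.P021.Det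

lemma cwin_five_num (s : ℕ) (hs : 1 ≤ s) : cwin (5 * s) (6 * s) (13 * s) (26 * s) ≤
    (s : ℝ) ^ 2 * (1237382 / 10000) := by
  have h5 := Real.log_five_lt_d9
  have h2 := Real.log_two_gt_d9
  exact (cwin_five s hs).trans (mul_le_mul_of_nonneg_left (by linarith) (by positivity))

/-- From a certificate with total exponent at most `-Tt` to the bound for `μ(π)`. -/
theorem final_bound (s : ℕ) (hs : 1 ≤ s) {N : ℕ} {w : ℝ} {S T : Set ℂ}
    (C : Cert (5 * s) (6 * s) (13 * s) (26 * s) N w S T) (Tt μ0 : ℝ) (hTt : C.total ≤ -Tt)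
    (hw : 0 < w) (hT : BetBound T) (hTb : Bornology.IsBounded T)
    (l : List ℂ) (x0 : ℝ) (hh : l.head? = some (x0 : ℂ))
    (hl : l.getLast? = some (-1 + 2 * Complex.I)) (hre : ∀ v ∈ l, |v.re| < 5)
    (hS : PathIn S l) (hSb : Bornology.IsBounded S) (hμ0 : 0 ≤ μ0)
    (hδ : 0 < Tt - (s : ℝ) ^ 2 * (1237382 / 10000))
    (hμ : w * (5 * s) ≤ μ0 * (Tt - (s : ℝ) ^ 2 * (1237382 / 10000))) :
    irrationalityExponent Real.pi ≤ (μ0 : EReal) := by
  have h1 := cwin_five_num s hs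
  have h2 : Tt - (s : ℝ) ^ 2 * (1237382 / 10000) ≤
      -C.total - cwin (5 * s) (6 * s) (13 * s) (26 * s) := by linarith only [hTt, h1]
  refine main_bound_gen (cwin (5 * s) (6 * s) (13 * s) (26 * s)) μ0 C hw (by omega) hT hTb l x0 hh
    hl hre hS hSb (fun ε hε => arith_lower_win _ _ _ _ hε) (by linarith only [hTt, hδ, h1]) ?_
  refine le_trans (le_of_eq ?_) (hμ.trans (mul_le_mul_of_nonneg_left h2 hμ0))
  push_cast
  ring

end Vale.Agent.P021.Det
end

section

namespace Vale.Agent.P021.Det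

theorem pnt10_zero : pnt10 (0, 0) = ((0 : ℝ) : ℂ) := by simp [pnt10]

theorem pnt10_e : pnt10 (-1024, 2048) = -1 + 2 * Complex.I := by
  unfold pnt10
  norm_num

theorem result1 (hT : BetBound T1) :
    irrationalityExponent Real.pi ≤ ((6.0781 : ℝ) : EReal) := by
  have hl2 := Real.log_two_gt_d9
  have hl2' := Real.log_two_lt_d9
  refine final_bound 200 (by norm_num) cert1 (12587990 * Real.log 2) 6.0781
    (by rw [cert1_total]; linarith only []) (by positivity) hT T1_bounded l1 0 ?_ ?_ ?_ l1_path S1_bounded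
    (by norm_num) ?_ ?_
  · simp [l1, pnt10_zero]
  · simp [l1, pnt10_e]
  · intro v hv
    simp only [l1, List.mem_cons, List.not_mem_nil, or_false] at hv
    rcases hv with rfl | rfl | rfl <;> simp [pnt10] <;> norm_num
  · norm_num
    linarith only [hl2]
  · norm_num
    nlinarith only [hl2]

end Vale.Agent.P021.Det
end

section

/-!
# General windows: the exponent `(2j+1)/2` at `u = 0`, `z+1` at the end points, pole order `c`
-/

open Polynomial

namespace Vale.Agent.P021.Det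

/-- the auxiliary polynomial -/
noncomputable def GG (j z c : ℕ) : ℤ[X] :=
  C (2 * (j : ℤ) + 1) * X * QZ + C (2 * ((z : ℤ) + 1)) * (X + C 25) * X * derivative QZ -
    C (2 * (c : ℤ)) * (X + C 25) * QZ

/-- half integer exponent -/
def gA (h j : ℕ) : ℕ := 2 * h * j + h + j

/-- exponent at the end points -/
def gB (h z : ℕ) : ℕ := (2 * h + 1) * z + 2 * h

theorem g_pearson (Y : ℤ → ℝ)
    (hY : ∀ k : ℤ, (2 * k + 1) * Y k + 50 * k * Y (k - 1) = NV.bd k) (h j z c r : ℕ) :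
    (2 * (h : ℝ) + 1) * NV.Lam Y ((2 * h + 1) * c)
        ((X ^ r * GG j z c * wp (gA h j) (gB h z)).map (Int.castRingHom ℝ)) +
      2 * ((r : ℝ) + 1) * NV.Lam Y ((2 * h + 1) * c)
        ((X ^ r * wp (gA h j + 1) (gB h z + 1)).map (Int.castRingHom ℝ)) = 0 := by
  have h1 := NV.pearson Y hY (gA h j) (gB h z) ((2 * h + 1) * c) (X ^ r)
  rw [NV.LW_apply] at h1
  have e : ∀ n : ℤ, (C n : ℤ[X]).map (Int.castRingHom ℝ) = C (n : ℝ) := fun n => by
    rw [map_C]; rfl
  have hG : (GG j z c).map (Int.castRingHom ℝ) =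
      C (2 * (j : ℝ) + 1) * X * NV.Qp + C (2 * ((z : ℝ) + 1)) * (X + C 25) * X * derivative NV.Qp -
        C (2 * (c : ℝ)) * (X + C 25) * NV.Qp := by
    rw [GG, ← QZ_map]
    simp only [Polynomial.map_mul, Polynomial.map_add, Polynomial.map_sub, map_X, e,
      derivative_map]
    push_cast
    norm_num
  have e1 : ((X ^ r * GG j z c * wp (gA h j) (gB h z)).map (Int.castRingHom ℝ)) =
      X ^ r * (C (2 * (j : ℝ) + 1) * X * NV.Qp +
        C (2 * ((z : ℝ) + 1)) * (X + C 25) * X * derivative NV.Qp -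
        C (2 * (c : ℝ)) * (X + C 25) * NV.Qp) * NV.Wp (gA h j) (gB h z) := by
    rw [Polynomial.map_mul, Polynomial.map_mul, Polynomial.map_pow, map_X, hG, NV.wp_map]
  have e2 : ((X ^ r * wp (gA h j + 1) (gB h z + 1)).map (Int.castRingHom ℝ)) =
      X ^ r * ((X + C 25) * NV.Qp) * NV.Wp (gA h j) (gB h z) := by
    rw [Polynomial.map_mul, Polynomial.map_pow, map_X, NV.wp_map, NV.Wp, NV.Wp, pow_succ, pow_succ]
    ring
  have e3 : (NV.Sp (gA h j) (gB h z) ((2 * h + 1) * c) * X ^ r + NV.Tp * derivative (X ^ r)) *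
      NV.Wp (gA h j) (gB h z) =
      C (2 * (h : ℝ) + 1) * (X ^ r * (C (2 * (j : ℝ) + 1) * X * NV.Qp +
        C (2 * ((z : ℝ) + 1)) * (X + C 25) * X * derivative NV.Qp -
        C (2 * (c : ℝ)) * (X + C 25) * NV.Qp) * NV.Wp (gA h j) (gB h z)) +
      C (2 * ((r : ℝ) + 1)) * (X ^ r * ((X + C 25) * NV.Qp) * NV.Wp (gA h j) (gB h z)) := by
    rw [NV.Sp, NV.Tp]
    have h2 : (X : ℝ[X]) * derivative (X ^ r : ℝ[X]) = C (r : ℝ) * X ^ r := by
      rcases Nat.eq_zero_or_pos r with rfl | hr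
      · simp only [pow_zero, derivative_one, mul_zero, CharP.cast_eq_zero, map_zero, mul_one]
      · obtain ⟨k, rfl⟩ : ∃ k, r = k + 1 := ⟨r - 1, by omega⟩
        rw [derivative_X_pow, Nat.add_sub_cancel]
        ring
    have h3 : C 2 * (X + C 25) * X * NV.Qp * derivative (X ^ r : ℝ[X]) =
        C 2 * (X + C 25) * NV.Qp * (C (r : ℝ) * X ^ r) := by
      rw [← h2]; ring
    rw [add_mul, h3]
    have hA : ((gA h j : ℕ) : ℝ) = 2 * (h : ℝ) * j + h + j := by
      rw [gA]; push_cast; ring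
    have hB : ((gB h z : ℕ) : ℝ) = (2 * (h : ℝ) + 1) * z + 2 * h := by
      rw [gB]; push_cast; ring
    rw [hA, hB]
    push_cast
    simp only [map_mul, map_add, C_1]
    have e2 : (C (2 : ℝ) : ℝ[X]) = 2 := rfl
    rw [e2]
    ring
  rw [e3, map_add] at h1
  rw [e1, e2]
  have h4 : ∀ (w : ℝ) (F : ℝ[X]), NV.Lam Y ((2 * h + 1) * c) (C w * F) =
      w * NV.Lam Y ((2 * h + 1) * c) F := by
    intro w F
    rw [← smul_eq_C_mul, map_smul, smul_eq_mul]
  rw [h4, h4] at h1
  exact h1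

theorem g_id_bco (h j z c r : ℕ) :
    (2 * (h : ℚ) + 1) * LZ bco ((2 * h + 1) * c) (X ^ r * GG j z c * wp (gA h j) (gB h z)) +
      2 * ((r : ℚ) + 1) * LZ bco ((2 * h + 1) * c) (X ^ r * wp (gA h j + 1) (gB h z + 1)) = 0 := by
  have h1 := g_pearson (fun k => (bco k : ℝ)) (fun k => NV.bco_rec k) h j z c r
  rw [← win_real, ← win_real] at h1
  exact_mod_cast h1

theorem g_id_aco (h j z c r : ℕ) :
    (2 * (h : ℚ) + 1) * LZ aco ((2 * h + 1) * c) (X ^ r * GG j z c * wp (gA h j) (gB h z)) +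
      2 * ((r : ℚ) + 1) * LZ aco ((2 * h + 1) * c) (X ^ r * wp (gA h j + 1) (gB h z + 1)) = 0 := by
  have h1 := g_pearson (fun k => (1 : ℝ) * (aco k : ℝ) + (bco k : ℝ))
    (fun k => NV.comb_rec 1 k) h j z c r
  have h3 : (fun k => (1 : ℝ) * (aco k : ℝ) + (bco k : ℝ)) =
      fun k => (((fun k => (1 : ℚ) * aco k + 1 * bco k) k : ℚ) : ℝ) := by
    funext k
    push_cast
    ring
  rw [h3, ← win_real, ← win_real] at h1
  have h4 : (2 * (h : ℚ) + 1) * LZ (fun k => (1 : ℚ) * aco k + 1 * bco k) ((2 * h + 1) * c)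
      (X ^ r * GG j z c * wp (gA h j) (gB h z)) +
      2 * ((r : ℚ) + 1) * LZ (fun k => (1 : ℚ) * aco k + 1 * bco k) ((2 * h + 1) * c)
      (X ^ r * wp (gA h j + 1) (gB h z + 1)) = 0 := by
    exact_mod_cast h1
  rw [LZ_comb, LZ_comb] at h4
  have h5 := g_id_bco h j z c r
  linear_combination h4 - h5

theorem g_id (p q : ℤ) (h j z c r : ℕ) :
    (2 * (h : ℚ) + 1) * LZ (cpq p q) ((2 * h + 1) * c)
      (X ^ r * GG j z c * wp (gA h j) (gB h z)) +
      2 * ((r : ℚ) + 1) * LZ (cpq p q) ((2 * h + 1) * c)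
        (X ^ r * wp (gA h j + 1) (gB h z + 1)) = 0 := by
  unfold cpq
  rw [LZ_comb, LZ_comb]
  linear_combination (p : ℚ) * g_id_aco h j z c r + ((2 * q : ℤ) : ℚ) * g_id_bco h j z c r

theorem GG_natDegree_le (j z c : ℕ) : (GG j z c).natDegree ≤ 3 := by
  rw [GG, QZ]
  simp only [derivative_add, derivative_X_pow, derivative_mul, derivative_C, derivative_X]
  compute_degree

/-- the condition on the prime: `c < l` and the range of the exponents is below `l^2/2` -/
def gok (h j z c : ℕ) : Prop :=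
  c < 2 * h + 1 ∧ 2 * (2 * h + gA h j + 2 * gB h z + 2) + 1 <
    (2 * h + 1) ^ 2 + 2 * ((2 * h + 1) * c)

theorem g_monomial (p q : ℤ) (h j z c r : ℕ) (hl : (2 * h + 1).Prime) (h7 : 7 ≤ 2 * h + 1)
    (hok : gok h j z c) (hr : r + 1 ≤ 2 * h) :
    padicNorm (2 * h + 1) (LZ (cpq p q) ((2 * h + 1) * c)
      (X ^ r * wp (gA h j + 1) (gB h z + 1))) ≤ 1 := by
  have : Fact (2 * h + 1).Prime := ⟨hl⟩
  obtain ⟨hc, hrange⟩ := hok
  set l := 2 * h + 1 with hldef
  have hlc : l * c < l ^ 2 := by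
    rw [sq]; exact Nat.mul_lt_mul_of_pos_left hc (by omega)
  have hlcz : ((l * c : ℕ) : ℤ) < (l : ℤ) ^ 2 := by exact_mod_cast hlc
  have hrz : ((2 * (2 * h + gA h j + 2 * gB h z + 2) + 1 : ℕ) : ℤ) <
      (l : ℤ) ^ 2 + 2 * ((l * c : ℕ) : ℤ) := by exact_mod_cast hrange
  have hB : padicNorm l (LZ (cpq p q) (l * c) (X ^ r * GG j z c * wp (gA h j) (gB h z))) ≤
      (l : ℚ) := by
    have hdeg : (X ^ r * GG j z c * wp (gA h j) (gB h z)).natDegree ≤
        r + 3 + (gA h j + 2 * gB h z) := by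
      apply natDegree_mul_le_of_le
      · apply natDegree_mul_le_of_le (natDegree_X_pow_le r) (GG_natDegree_le j z c)
      · exact wp_natDegree_le _ _
    refine LZ_norm_le l (cpq p q) _ _ _ (by (clear * -; positivity))
      (-((l * c : ℕ) : ℤ)) (((r + 3 + (gA h j + 2 * gB h z) : ℕ) : ℤ) - ((l * c : ℕ) : ℤ))
      (fun k hk1 hk2 => ?_) le_rfl ?_
    · apply win_c_l p q l hl h7
      · omega
      · push_cast at hk2 hrz ⊢
        omega
    · have := (Nat.cast_le (α := ℤ)).2 hdeg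
      omega
  have hid := g_id p q h j z c r
  rw [← hldef] at hid
  set A := LZ (cpq p q) (l * c) (X ^ r * wp (gA h j + 1) (gB h z + 1)) with hA
  set B := LZ (cpq p q) (l * c) (X ^ r * GG j z c * wp (gA h j) (gB h z)) with hB'
  have hid2 : ((2 * (r + 1) : ℕ) : ℚ) * A = -((l : ℚ) * B) := by
    have hl' : (l : ℚ) = 2 * (h : ℚ) + 1 := by rw [hldef]; push_cast; ring
    rw [hl']
    push_cast
    linear_combination hid
  have hn := congrArg (padicNorm l) hid2
  rw [padicNorm.neg, padicNorm.mul, padicNorm.mul] at hn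
  have h2 : padicNorm l ((2 * (r + 1) : ℕ) : ℚ) = 1 := by
    apply val_norm_nat_eq_one
    intro hd
    rcases (Nat.Prime.dvd_mul hl).1 hd with h3 | h3
    · have := Nat.le_of_dvd (by omega) h3
      omega
    · have := Nat.le_of_dvd (by omega) h3
      (clear * - hr this; omega)
  rw [h2, one_mul, padicNorm.padicNorm_p_of_prime] at hn
  rw [hn]
  have hl0 : (0 : ℚ) < (l : ℚ) := by exact_mod_cast hl.pos
  rw [inv_mul_le_iff₀ hl0, mul_one]
  exact hB

theorem g_poly (p q : ℤ) (h j z c : ℕ) (hl : (2 * h + 1).Prime) (h7 : 7 ≤ 2 * h + 1)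
    (hok : gok h j z c) (n : ℤ[X]) (hn : n.natDegree + 1 ≤ 2 * h) :
    padicNorm (2 * h + 1) (LZ (cpq p q) ((2 * h + 1) * c)
      (n * wp (gA h j + 1) (gB h z + 1))) ≤ 1 := by
  have : Fact (2 * h + 1).Prime := ⟨hl⟩
  have e : LZ (cpq p q) ((2 * h + 1) * c) (n * wp (gA h j + 1) (gB h z + 1)) =
      ∑ r ∈ Finset.range (n.natDegree + 1), (n.coeff r : ℚ) *
        LZ (cpq p q) ((2 * h + 1) * c) (X ^ r * wp (gA h j + 1) (gB h z + 1)) := by
    conv_lhs => rw [n.as_sum_range, Finset.sum_mul, map_sum]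
    apply Finset.sum_congr rfl
    intro r _
    rw [← smul_X_eq_monomial, smul_mul_assoc, map_smul, zsmul_eq_mul]
  rw [e]
  have h0 := val_sum_le (2 * h + 1) 1 (Finset.range (n.natDegree + 1))
    (fun r => (n.coeff r : ℚ) *
        LZ (cpq p q) ((2 * h + 1) * c) (X ^ r * wp (gA h j + 1) (gB h z + 1)))
    zero_le_one one_ne_zero ?_
  · rw [pow_one] at h0
    exact h0
  · intro r hr
    rw [Finset.mem_range] at hr
    rw [pow_one, padicNorm.mul]
    exact mul_le_one₀ (padicNorm.of_int _) (padicNorm.nonneg _)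
      (g_monomial p q h j z c r hl h7 hok (by omega))

/-- the window rows -/
noncomputable def grow (s1 v s2 : ℕ) (i : ℕ) : ℤ[X] :=
  if 2 * s1 + v + s2 ≤ i then
    QZ ^ s1 * (X + C 25) ^ v * X ^ s2 * X ^ (i - (2 * s1 + v + s2))
  else X ^ i

theorem grow_monic (s1 v s2 i : ℕ) : (grow s1 v s2 i).Monic := by
  unfold grow
  split_ifs
  · exact (((QZ_monic.pow _).mul ((monic_X_add_C 25).pow _)).mul (monic_X_pow _)).mul
      (monic_X_pow _)
  · exact monic_X_pow _

theorem grow_natDegree (s1 v s2 i : ℕ) : (grow s1 v s2 i).natDegree = i := by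
  unfold grow
  split_ifs with h1
  · have m1 := (QZ_monic.pow s1)
    have m2 := ((monic_X_add_C (25 : ℤ)).pow v)
    rw [Monic.natDegree_mul ((m1.mul m2).mul (monic_X_pow _)) (monic_X_pow _),
      Monic.natDegree_mul (m1.mul m2) (monic_X_pow _), Monic.natDegree_mul m1 m2,
      Monic.natDegree_pow QZ_monic, Monic.natDegree_pow (monic_X_add_C 25), natDegree_X_pow,
      natDegree_X_pow, QZ_natDegree, natDegree_X_add_C]
    omega
  · exact natDegree_X_pow _

/-- good window rows -/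
theorem grow_good (a b m K : ℕ) (p q : ℤ) (h j z c : ℕ) (hl : (2 * h + 1).Prime)
    (h7 : 7 ≤ 2 * h + 1) (hok : gok h j z c) (i k : ℕ) (hk : k < K)
    (h1 : 2 * (gB h z + 1 - b) + (gA h j + 1 - a) + (m - (2 * h + 1) * c) ≤ i)
    (h2 : i + K + a + 2 * b + (2 * h + 1) * c ≤ 2 * h + gA h j + 1 + 2 * (gB h z + 1) + m) :
    padicNorm (2 * h + 1) (LZ (cpq p q) m
      (grow (gB h z + 1 - b) (gA h j + 1 - a) (m - (2 * h + 1) * c) i * X ^ k * wp a b)) ≤ 1 := by
  have : Fact (2 * h + 1).Prime := ⟨hl⟩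
  set M := (2 * h + 1) * c with hM
  set A' := gA h j + 1 with hA'
  set B' := gB h z + 1 with hB'
  set v := A' - a with hv
  set s := 2 * (B' - b) + v + (m - M) with hs
  set A := a + v with hA
  set B := b + (B' - b) with hB
  have hA1 : A' ≤ A := by (clear * -; omega)
  have hB1 : B' ≤ B := by (clear * -; omega)
  set n : ℤ[X] := X ^ (M - m) * X ^ (i - s + k) * wp (A - A') (B - B') with hn
  have hdeg : n.natDegree + 1 ≤ 2 * h := by
    have hd : n.natDegree ≤ (M - m) + (i - s + k) + ((A - A') + 2 * (B - B')) := by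
      apply natDegree_mul_le_of_le
      · exact natDegree_mul_le_of_le (natDegree_X_pow_le _) (natDegree_X_pow_le _)
      · exact wp_natDegree_le _ _
    omega
  have hkey := g_poly p q h j z c hl h7 hok n hdeg
  have hF : X ^ (M - m) * (grow (B' - b) v (m - M) i * X ^ k * wp a b) =
      X ^ (m - M) * (n * wp A' B') := by
    unfold grow
    rw [if_pos h1, hn]
    have e1 : wp (A - A') (B - B') * wp A' B' = wp A B := by
      rw [wp_mul]; congr 1 <;> omega
    have e2 : QZ ^ (B' - b) * (X + C 25) ^ v * wp a b = wp A B := by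
      have : QZ ^ (B' - b) * (X + C 25) ^ v = wp v (B' - b) := by
        unfold wp QZ; ring
      rw [this, wp_mul]; congr 1 <;> omega
    calc X ^ (M - m) * (QZ ^ (B' - b) * (X + C 25) ^ v * X ^ (m - M) * X ^ (i - s) * X ^ k *
          wp a b)
        = X ^ (M - m) * X ^ (m - M) * X ^ (i - s + k) *
          (QZ ^ (B' - b) * (X + C 25) ^ v * wp a b) := by rw [pow_add]; ring
      _ = X ^ (M - m) * X ^ (m - M) * X ^ (i - s + k) *
          (wp (A - A') (B - B') * wp A' B') := by rw [e1, e2]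
      _ = _ := by ring
  have hval : LZ (cpq p q) m (grow (B' - b) v (m - M) i * X ^ k * wp a b) =
      LZ (cpq p q) M (n * wp A' B') := by
    have s1 := LZ_shift (cpq p q) m (M - m) (grow (B' - b) v (m - M) i * X ^ k * wp a b)
    have s2 := LZ_shift (cpq p q) M (m - M) (n * wp A' B')
    have hidx : m + (M - m) = M + (m - M) := by (clear * -; omega)
    rw [← s1, ← s2, hF, hidx]
  rw [hval]
  exact hkey

/-- the bound in the window basis -/
theorem g_window (a b m K : ℕ) (p q : ℤ) (h j z c : ℕ) (hl : (2 * h + 1).Prime)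
    (h7 : 7 ≤ 2 * h + 1) (hok : gok h j z c)
    (hr : rng a b m K < (2 * h + 1) ^ 2) : padicNorm (2 * h + 1) (NN a b m K p q) ≤
      ((2 * h + 1 : ℕ) : ℚ) ^ ((2 * (gB h z + 1 - b) + (gA h j + 1 - a) +
        (m - (2 * h + 1) * c)) +
        ((2 * K + a + 2 * b + (2 * h + 1) * c) - (2 * h + gA h j + 1 + 2 * (gB h z + 1) + m) +
          1)) := by
  have : Fact (2 * h + 1).Prime := ⟨hl⟩
  refine win_det_bound a b m K p q (2 * h + 1) hl
    (grow (gB h z + 1 - b) (gA h j + 1 - a) (m - (2 * h + 1) * c))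
    (fun i _ => grow_monic _ _ _ _) (fun i _ => grow_natDegree _ _ _ _)
    (fun i => 2 * (gB h z + 1 - b) + (gA h j + 1 - a) + (m - (2 * h + 1) * c) ≤ i ∧
      i + K + a + 2 * b + (2 * h + 1) * c ≤ 2 * h + gA h j + 1 + 2 * (gB h z + 1) + m) _ ?_
    (fun i _ hg k hk => grow_good a b m K p q h j z c hl h7 hok i k hk hg.1 hg.2)
    (fun i hi k hk => lo_all a b m K p q _ hl h7 hr _ (grow_natDegree _ _ _ _) hi hk)
  apply lo_count
  intro i hi hni
  by_contra hcon
  rw [not_or] at hcon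
  apply hni
  omega

end Vale.Agent.P021.Det
end

section

/-!
# The arithmetic lower bound for a general local bound
-/

namespace Vale.Agent.P021.Det

open Filter Topology Finset

/-- the local bounds -/
noncomputable def betG (u : ℕ → ℝ) (a b m K p : ℕ) : ℝ :=
  u p * Real.log p +
    (if p ^ 2 ≤ rng a b m K ∨ p < 7 then (K : ℝ) * Real.log (rng a b m K) else 0) +
    (if p = 2 then T2 b m K else 0) + (if p = 5 then T5 a b m K else 0)

lemma log_norm_leG (u : ℕ → ℝ) (a b m K : ℕ) (p q : ℤ) (hu : ∀ l, 0 ≤ u l)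
    (hloc : ∀ l : ℕ, l.Prime → 7 ≤ l → rng a b m K < l ^ 2 →
      ∃ e : ℕ, padicNorm l (NN a b m K p q) ≤ (l : ℚ) ^ e ∧ (e : ℝ) ≤ u l)
    (hN : NN a b m K p q ≠ 0) (l : ℕ) (hl : l.Prime) :
    Real.log (padicNorm l (NN a b m K p q) : ℚ) ≤ betG u a b m K l := by
  have : Fact l.Prime := ⟨hl⟩
  have hpos : (0 : ℝ) < (padicNorm l (NN a b m K p q) : ℚ) := by
    have h1 : padicNorm l (NN a b m K p q) ≠ 0 := padicNorm.nonzero hN
    have h2 : 0 ≤ padicNorm l (NN a b m K p q) := padicNorm.nonneg _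
    exact_mod_cast lt_of_le_of_ne h2 h1.symm
  have hR0 : (0 : ℝ) < rng a b m K := by
    have : 0 < rng a b m K := by unfold rng; omega
    exact_mod_cast this
  have hlog : 0 ≤ u l * Real.log l := by
    have := hu l
    have h2 : 0 ≤ Real.log l := Real.log_natCast_nonneg _
    (clear * - this; positivity)
  have hKR : 0 ≤ (K : ℝ) * Real.log (rng a b m K) := by
    have := Real.log_natCast_nonneg (rng a b m K)
    (clear * -; positivity)
  unfold betG
  by_cases h2 : l = 2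
  · subst h2
    have h3 := local_two a b m K p q
    have h4 : ((padicNorm 2 (NN a b m K p q) : ℚ) : ℝ) ^ 2 ≤
        (rng a b m K : ℝ) ^ (2 * K) * (32 : ℝ) ^ ((K : ℤ) * (m - 2 * b) - K * (K - 1)) := by
      have h4' := (Rat.cast_le (K := ℝ)).2 h3
      rw [Rat.cast_pow, Rat.cast_mul, Rat.cast_pow, Rat.cast_zpow, Rat.cast_natCast,
        Rat.cast_ofNat] at h4'
      exact h4'
    have h5 := Real.log_le_log (by (clear * - hpos; positivity)) h4
    rw [Real.log_pow, Real.log_mul (by (clear * - hR0; positivity)) (by positivity), Real.log_pow,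
      Real.log_zpow, show (32 : ℝ) = 2 ^ 5 by norm_num, Real.log_pow] at h5
    rw [if_pos (Or.inr (by norm_num)), if_pos rfl, if_neg (by norm_num), T2]
    push_cast at h5 hlog ⊢
    have h6 : (K : ℝ) * (m - 2 * b) * (5 * Real.log 2) = 2 * (5 / 2 * Real.log 2 *
      (K * (m - 2 * b))) := by ring
    have h7 : ((K : ℝ) * (m - 2 * b) - K * (K - 1)) * (5 * Real.log 2) = 2 * (5 / 2 * Real.log 2 *
      (K * (m - 2 * b) - K * (K - 1))) := by ring
    linarith only [hlog, h5]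
  by_cases h5 : l = 5
  · subst h5
    have h3 := local_five a b m K p q
    have h4 : ((padicNorm 5 (NN a b m K p q) : ℚ) : ℝ) ≤
        (rng a b m K : ℝ) ^ K * (5 : ℝ) ^ (2 * ∑ i ∈ range K, (m - (a + b + 2 * i))) := by
      exact_mod_cast h3
    have h6 := Real.log_le_log hpos h4
    rw [Real.log_mul (by (clear * - hR0; positivity)) (by positivity), Real.log_pow, Real.log_pow] at h6
    rw [if_pos (Or.inr (by norm_num)), if_neg (by norm_num), if_pos rfl, T5]
    push_cast at h6 hlog ⊢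
    linarith only [hlog, h6]
  rw [if_neg h2, if_neg h5, add_zero, add_zero]
  by_cases h7 : l ^ 2 ≤ rng a b m K ∨ l < 7
  · rw [if_pos h7]
    have h3 := local_crude a b m K p q l hl h2 h5
    have h4 : ((padicNorm l (NN a b m K p q) : ℚ) : ℝ) ≤ (rng a b m K : ℝ) ^ K := by
      exact_mod_cast h3
    have h6 := Real.log_le_log hpos h4
    rw [Real.log_pow] at h6
    linarith only [hlog, h6]
  · rw [if_neg h7, add_zero]
    push Not at h7
    obtain ⟨e, he1, he2⟩ := hloc l hl h7.2 h7.1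
    have h4 : ((padicNorm l (NN a b m K p q) : ℚ) : ℝ) ≤ (l : ℝ) ^ e := by
      exact_mod_cast he1
    have h6 := Real.log_le_log hpos h4
    rw [Real.log_pow] at h6
    exact h6.trans (mul_le_mul_of_nonneg_right he2 (Real.log_natCast_nonneg _))

lemma log_NN_geG (u : ℕ → ℝ) (a b m K : ℕ) (p q : ℤ) (hu : ∀ l, 0 ≤ u l)
    (hloc : ∀ l : ℕ, l.Prime → 7 ≤ l → rng a b m K < l ^ 2 →
      ∃ e : ℕ, padicNorm l (NN a b m K p q) ≤ (l : ℚ) ^ e ∧ (e : ℝ) ≤ u l)
    (hN : NN a b m K p q ≠ 0) :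
    -(∑ l ∈ (Ioc 0 (rng a b m K)).filter Nat.Prime, u l * Real.log l +
      (Real.sqrt (rng a b m K) + 7) * ((K : ℝ) * Real.log (rng a b m K)) +
      T2 b m K + T5 a b m K) ≤ Real.log |((NN a b m K p q : ℚ) : ℝ)| := by
  have h1 := log_abs_ge (NN a b m K p q) hN (rng a b m K) (betG u a b m K)
    (fun l hl _ => log_norm_leG u a b m K p q hu hloc hN l hl)
    (fun l hl hR => by
      have hR5 : 5 ≤ rng a b m K := by unfold rng; (clear * -; omega)
      have : 7 ≤ l := by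
        have h6 : l ≠ 6 := by rintro rfl; exact absurd hl (by norm_num)
        omega
      exact local_big a b m K p q l hl this hR)
  refine le_trans ?_ h1
  rw [neg_le_neg_iff]
  unfold betG
  rw [sum_add_distrib, sum_add_distrib, sum_add_distrib]
  have hR5 : 5 ≤ rng a b m K := by unfold rng; omega
  have e2 : ∑ x ∈ (Ioc 0 (rng a b m K)).filter Nat.Prime, (if x = 2 then T2 b m K else 0) =
      T2 b m K := by
    rw [sum_ite_eq', if_pos]
    rw [Finset.mem_filter, mem_Ioc]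
    exact ⟨⟨by norm_num, by omega⟩, Nat.prime_two⟩
  have e5 : ∑ x ∈ (Ioc 0 (rng a b m K)).filter Nat.Prime, (if x = 5 then T5 a b m K else 0) =
      T5 a b m K := by
    rw [sum_ite_eq', if_pos]
    rw [Finset.mem_filter, mem_Ioc]
    exact ⟨⟨by norm_num, by omega⟩, Nat.prime_five⟩
  rw [e2, e5]
  have hKR : 0 ≤ (K : ℝ) * Real.log (rng a b m K) := by
    have := Real.log_natCast_nonneg (rng a b m K)
    (clear * -; positivity)
  have h3 : ∑ x ∈ (Ioc 0 (rng a b m K)).filter Nat.Prime,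
      (if x ^ 2 ≤ rng a b m K ∨ x < 7 then (K : ℝ) * Real.log (rng a b m K) else 0) ≤
      (Real.sqrt (rng a b m K) + 7) * ((K : ℝ) * Real.log (rng a b m K)) := by
    rw [← sum_filter, sum_const, nsmul_eq_mul]
    refine mul_le_mul_of_nonneg_right ?_ hKR
    have h4 : (((Ioc 0 (rng a b m K)).filter Nat.Prime).filter
        (fun x => x ^ 2 ≤ rng a b m K ∨ x < 7)) ⊆ range (Nat.sqrt (rng a b m K) + 7) := by
      intro x hx
      rw [Finset.mem_filter] at hx
      rw [Finset.mem_range]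
      rcases hx.2 with h | h
      · have : x ≤ Nat.sqrt (rng a b m K) := Nat.le_sqrt'.2 h
        omega
      · omega
    have h5 := card_le_card h4
    rw [card_range] at h5
    have h6 : ((Nat.sqrt (rng a b m K) : ℕ) : ℝ) ≤ Real.sqrt (rng a b m K) :=
      Real.nat_sqrt_le_real_sqrt
    calc (_ : ℝ) ≤ ((Nat.sqrt (rng a b m K) + 7 : ℕ) : ℝ) := by exact_mod_cast h5
      _ ≤ _ := by push_cast; linarith only [h6]
  linarith only [h3]

/-- the arithmetic cost for the function `φ` -/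
noncomputable def cphi (φ : ℝ → ℝ) (K0 a0 b0 m0 : ℕ) : ℝ :=
  (∫ y in (0 : ℝ)..(2 * (m0 + 2 * K0 + a0 + 2 * b0) + 1), φ y) +
    ((m0 - (a0 + b0) : ℕ) : ℝ) ^ 2 / 2 * Real.log 5 -
    5 / 2 * K0 * (2 * (b0 : ℝ) + K0 - m0) * Real.log 2

lemma sum_phi_le {φ : ℝ → ℝ} (hφ0 : ∀ y, 0 ≤ φ y) {C0 : ℝ} (hC0 : 0 ≤ C0)
    (K0 a0 b0 m0 n κ : ℕ) (hn : 13 ≤ n) (hκ : κ ≤ 2) :
    ∑ l ∈ (Ioc 0 (rng (a0 * n) (b0 * n) (m0 * n) (K0 * n + κ))).filter Nat.Prime,
      (n * φ ((l : ℝ) / n) + C0) * Real.log l ≤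
      n * psum φ n (XR K0 a0 b0 m0) + C0 * (Real.log 4 * (XR K0 a0 b0 m0 * n)) := by
  have hnR : (0 : ℝ) < n := by
    have : 0 < n := by omega
    exact_mod_cast this
  set X : ℝ := XR K0 a0 b0 m0 with hX
  have hX1 : 1 ≤ X := XR_pos K0 a0 b0 m0
  have hX0 : 0 ≤ X * n := by positivity
  have h1 := Chebyshev.theta_le_log4_mul_x hX0
  have h2 := rng_le K0 a0 b0 m0 n κ hn hκ
  have hsub : (Ioc 0 (rng (a0 * n) (b0 * n) (m0 * n) (K0 * n + κ))).filter Nat.Prime ⊆
      (Ioc 0 ⌊X * n⌋₊).filter Nat.Prime := by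
    intro l hl
    rw [Finset.mem_filter, mem_Ioc] at hl ⊢
    exact ⟨⟨hl.1.1, hl.1.2.trans ((Nat.le_floor_iff hX0).2 h2)⟩, hl.2⟩
  calc _ ≤ ∑ l ∈ (Ioc 0 ⌊X * n⌋₊).filter Nat.Prime, (n * φ ((l : ℝ) / n) + C0) * Real.log l := by
        refine sum_le_sum_of_subset_of_nonneg hsub fun l _ _ => ?_
        have := hφ0 ((l : ℝ) / n)
        have h5 := Real.log_natCast_nonneg l
        (clear * - hn this hC0; positivity)
    _ = n * psum φ n X + C0 * Chebyshev.theta (X * n) := by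
        rw [psum, Chebyshev.theta, mul_sum, mul_sum, ← sum_add_distrib]
        refine sum_congr rfl fun l _ => ?_
        ring
    _ ≤ _ := by
        have := mul_le_mul_of_nonneg_left h1 hC0
        linarith only [this]

lemma lin_leG {X M n k m0 K0 l2 l4 l5 C0 : ℝ} (hn : 1 ≤ n) (h2 : 0 ≤ l2)
    (h5 : 0 ≤ l5) (hk : k ≤ (K0 + 2) * n) :
    C0 * (l4 * (X * n)) + (M * n + 1) * l5 + 5 / 2 * l2 * ((2 * m0 + K0) * n + 2) + k * l2 ≤
      (C0 * (l4 * X) + (M + 1) * l5 + 5 / 2 * l2 * (2 * m0 + K0 + 2) + (K0 + 2) * l2) * n := by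
  have e3 : (M * n + 1) * l5 ≤ (M + 1) * n * l5 := mul_le_mul_of_nonneg_right (by linarith only [hn]) h5
  have e4 : 5 / 2 * l2 * ((2 * m0 + K0) * n + 2) ≤ 5 / 2 * l2 * ((2 * m0 + K0 + 2) * n) :=
    mul_le_mul_of_nonneg_left (by linarith only [hn]) (by positivity)
  have e5 : k * l2 ≤ (K0 + 2) * n * l2 := mul_le_mul_of_nonneg_right hk h2
  have e6 : (C0 * (l4 * X) + (M + 1) * l5 + 5 / 2 * l2 * (2 * m0 + K0 + 2) + (K0 + 2) * l2) * n =
    C0 * (l4 * (X * n)) + (M + 1) * n * l5 + 5 / 2 * l2 * ((2 * m0 + K0 + 2) * n) +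
      (K0 + 2) * n * l2 := by ring
  rw [e6]
  linarith only [e3, e4, e5]

lemma kk_le {K0 n κ : ℕ} (hn : (1 : ℝ) ≤ n) (hκ : (κ : ℝ) ≤ 2) :
    ((K0 * n + κ : ℕ) : ℝ) ≤ (K0 + 2) * n := by
  push_cast
  linarith

lemma bn_le {B ε n : ℝ} {N0 : ℕ} (hε : 0 < ε) (hN0 : 4 * B / ε < N0) (h1 : (N0 : ℝ) ≤ n)
    (hn : 1 ≤ n) : B * n ≤ ε / 4 * n ^ 2 := by
  have h2 : 4 * B / ε < n := hN0.trans_le h1
  rw [div_lt_iff₀ hε] at h2
  nlinarith only [h2, h1]

/-- **The arithmetic lower bound** from local bounds `n φ (l / n) + C0`. -/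
theorem arith_lower_phi (K0 a0 b0 m0 : ℕ) {φ : ℝ → ℝ} {Λ C0 : ℝ} (hφ0 : ∀ y, 0 ≤ φ y)
    (hΛ : 0 ≤ Λ) (hLip : ∀ x y, |φ x - φ y| ≤ Λ * |x - y|) (hC0 : 0 ≤ C0)
    (hloc : ∀ n κ : ℕ, 0 < n → κ ≤ 2 → ∀ (p q : ℤ) (l : ℕ), l.Prime → 7 ≤ l →
      rng (a0 * n) (b0 * n) (m0 * n) (K0 * n + κ) < l ^ 2 →
      ∃ e : ℕ, padicNorm l (NN (a0 * n) (b0 * n) (m0 * n) (K0 * n + κ) p q) ≤ (l : ℚ) ^ e ∧
        (e : ℝ) ≤ n * φ ((l : ℝ) / n) + C0) {ε : ℝ} (hε : 0 < ε) :
    ∀ᶠ n : ℕ in atTop, ∀ κ ≤ 2, ∀ p q : ℤ, 0 < q →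
      (HM ((p : ℝ) / q) (a0 * n) (b0 * n) (m0 * n) (K0 * n + κ)).det ≠ 0 →
      Real.exp (-(cphi φ K0 a0 b0 m0 + ε) * (n : ℝ) ^ 2) ≤
        (q : ℝ) ^ (K0 * n + κ) *
          |(HM ((p : ℝ) / q) (a0 * n) (b0 * n) (m0 * n) (K0 * n + κ)).det| := by
  set X : ℝ := XR K0 a0 b0 m0 with hXdef
  have hX1 : 1 ≤ X := XR_pos K0 a0 b0 m0
  have hX0 : 0 < X := by linarith only [hX1]
  set η : ℝ := ε / (4 * (K0 + 2) * X) with hη
  have hη0 : 0 < η := by (clear * - hε hX1; positivity)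
  have hη1 : (K0 + 2) * (η * X) = ε / 4 := by rw [hη]; field_simp
  set M : ℝ := ((m0 - (a0 + b0) : ℕ) : ℝ) with hM
  have hM0 : 0 ≤ M := Nat.cast_nonneg _
  have hl2 : 0 < Real.log 2 := Real.log_pos (by norm_num)
  have hl4 : 0 < Real.log 4 := Real.log_pos (by norm_num)
  have hl5 : 0 < Real.log 5 := Real.log_pos (by norm_num)
  set B : ℝ := C0 * (Real.log 4 * X) + (M + 1) * Real.log 5 +
    5 / 2 * Real.log 2 * (2 * m0 + K0 + 2) + (K0 + 2) * Real.log 2 with hB
  have hB0 : 0 ≤ B := by rw [hB]; (clear * - hC0 hX1; positivity)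
  obtain ⟨N0, hN0⟩ := exists_nat_gt (4 * B / ε)
  filter_upwards [psum_le_integral (φ := φ) hX0 hΛ hLip (by positivity : 0 < ε / 4),
    sqrt_log_small hX0 hη0,
    eventually_ge_atTop (N0 + 13)] with n hn1 hn2 hn3 κ hκ p q hq hdet
  have hn13 : 13 ≤ n := by omega
  have hnR : (1 : ℝ) ≤ n := by
    have : 1 ≤ n := by omega
    exact_mod_cast this
  have hnB : B * n ≤ ε / 4 * n ^ 2 :=
    bn_le hε hN0 (by exact_mod_cast (by omega : N0 ≤ n)) hnR
  have hκR : (κ : ℝ) ≤ 2 := by exact_mod_cast hκ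
  have hκ0 : (0 : ℝ) ≤ κ := Nat.cast_nonneg _
  have hqR : (0 : ℝ) < q := by exact_mod_cast hq
  have hNN := NN_eq (a0 * n) (b0 * n) (m0 * n) (K0 * n + κ) p q hq
  have hNNR : ((NN (a0 * n) (b0 * n) (m0 * n) (K0 * n + κ) p q : ℚ) : ℝ) ≠ 0 := by
    rw [hNN]
    exact mul_ne_zero (pow_pos (by linarith only [hqR]) _).ne' hdet
  have hNN0 : NN (a0 * n) (b0 * n) (m0 * n) (K0 * n + κ) p q ≠ 0 := by
    exact_mod_cast hNNR
  have h3 := log_NN_geG (fun l => n * φ ((l : ℝ) / n) + C0) _ _ _ _ p q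
    (fun l => by have := hφ0 ((l : ℝ) / n); (clear * - hn13 this hC0; positivity))
    (fun l hl h7 hr => hloc n κ (by omega) hκ p q l hl h7 hr) hNN0
  have h4 := sum_phi_le hφ0 hC0 K0 a0 b0 m0 n κ hn13 hκ
  have h5 := T5_le K0 a0 b0 m0 n κ
  have h6 := T2_le K0 b0 m0 n κ hκ
  have h7 := rng_le K0 a0 b0 m0 n κ hn13 hκ
  have hrng1 : (1 : ℝ) ≤ rng (a0 * n) (b0 * n) (m0 * n) (K0 * n + κ) := by
    have : 1 ≤ rng (a0 * n) (b0 * n) (m0 * n) (K0 * n + κ) := by unfold rng; omega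
    exact_mod_cast this
  have hXR : 2 * ((m0 : ℝ) + 2 * K0 + a0 + 2 * b0) + 1 = X := rfl
  rw [← hM] at h5
  rw [← hXdef] at h7 h4
  have h12 : ((K0 * n + κ : ℕ) : ℝ) ≤ (K0 + 2) * n := kk_le hnR hκR
  have h8 : (Real.sqrt (rng (a0 * n) (b0 * n) (m0 * n) (K0 * n + κ)) + 7) *
      (((K0 * n + κ : ℕ) : ℝ) * Real.log (rng (a0 * n) (b0 * n) (m0 * n) (K0 * n + κ))) ≤
      ε / 4 * n ^ 2 := by
    have h13 := mid_le hrng1 h7 (Nat.cast_nonneg (K0 * n + κ)) h12 hn2
    have h14 : ((K0 : ℝ) + 2) * n * (η * (X * n)) = ((K0 + 2) * (η * X)) * n ^ 2 := by ring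
    rw [h14, hη1] at h13
    exact h13
  have h9 : (n : ℝ) * psum φ n X ≤
      (∫ y in (0 : ℝ)..X, φ y) * n ^ 2 + ε / 4 * n ^ 2 := by
    refine (mul_le_mul_of_nonneg_left hn1 (zero_le_one.trans hnR)).trans (le_of_eq ?_)
    ring
  have hlogeq := log_NN_eq (a0 * n) (b0 * n) (m0 * n) (K0 * n + κ) p q hq hdet
  have hfin : -(cphi φ K0 a0 b0 m0 + ε) * (n : ℝ) ^ 2 ≤ Real.log ((q : ℝ) ^ (K0 * n + κ) *
          |(HM ((p : ℝ) / q) (a0 * n) (b0 * n) (m0 * n) (K0 * n + κ)).det|) := by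
    have e1 : cphi φ K0 a0 b0 m0 * (n : ℝ) ^ 2 = (∫ y in (0 : ℝ)..X, φ y) * n ^ 2 +
      M ^ 2 / 2 * Real.log 5 * n ^ 2 +
      -(5 / 2 * K0 * (2 * (b0 : ℝ) + K0 - m0) * Real.log 2) * n ^ 2 := by
      rw [cphi, hXR, ← hM]; ring
    have e2 : C0 * (Real.log 4 * (X * n)) + (M * n + 1) * Real.log 5 +
        5 / 2 * Real.log 2 * ((2 * m0 + K0) * n + 2) +
        ((K0 * n + κ : ℕ) : ℝ) * Real.log 2 ≤ B * n := by
      rw [hB]
      exact lin_leG hnR hl2.le hl5.le h12
    have e6 : -(cphi φ K0 a0 b0 m0 + ε) * (n : ℝ) ^ 2 = -(cphi φ K0 a0 b0 m0 * (n : ℝ) ^ 2) -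
      ε * n ^ 2 := by ring
    rw [e6, e1]
    rw [hlogeq] at h3
    have e7 : 0 ≤ ε * (n : ℝ) ^ 2 := by (clear * - hε hn13; positivity)
    linarith only [hnB, h3, h4, h5, h6, h8, h9, e2, e7]
  exact (Real.le_log_iff_exp_le (mul_pos (pow_pos hqR _) (abs_pos.2 hdet))).1 hfin

end Vale.Agent.P021.Det
end

section

/-!
# The local bound with the second window `(3, 2, 4)`, and the constant for the shape
`(5 s, 6 s, 13 s, 26 s)`
-/

open Polynomial

namespace Vale.Agent.P021.Det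

open Filter Topology Finset

/-- number of bad rows in the basis of the window `(3, 2, 4)` (real form) -/
noncomputable def win2R (a b m K l : ℝ) : ℝ :=
  2 * max (2 * l - b) 0 + max (3 * l - 2 * a) 0 / 2 + max (m - 4 * l) 0 +
    max (2 * a + 4 * b - 2 * m + 4 * K - 5 * l) 0 / 2

/-- the bound for the rank with two windows -/
noncomputable def bad3R (a b m K l : ℝ) : ℝ := min (badR a b m K l) (win2R a b m K l)

/-- all primes with `l^2 > rng` -/
theorem local_odd3 (a b m K : ℕ) (p q : ℤ) (l : ℕ) (hl : l.Prime) (h7 : 7 ≤ l)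
    (hr : rng a b m K < l ^ 2) :
    ∃ e : ℕ, padicNorm l (NN a b m K p q) ≤ (l : ℚ) ^ e ∧ (e : ℝ) ≤ bad3R a b m K l + 8 := by
  obtain ⟨e1, h1, h2⟩ := local_odd a b m K p q l hl h7 hr
  obtain ⟨h, rfl⟩ : ∃ h, l = 2 * h + 1 := by
    rcases hl.eq_two_or_odd' with h2 | h2
    · omega
    · exact h2
  have hok : gok h 1 1 4 := by
    refine ⟨by omega, ?_⟩
    unfold gA gB
    nlinarith only [h7]
  have hG := g_window a b m K p q h 1 1 4 hl h7 hok hr
  have eA : gA h 1 + 1 = 3 * h + 2 := by unfold gA; omega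
  have eB : gB h 1 + 1 = 2 * (2 * h + 1) := by unfold gB; omega
  have eS : 2 * h + gA h 1 + 1 + 2 * (gB h 1 + 1) + m =
      2 * h + (3 * h + 2) + 2 * (2 * (2 * h + 1)) + m := by omega
  rw [eS, eA, eB] at hG
  set eW := (2 * (2 * (2 * h + 1) - b) + (3 * h + 2 - a) + (m - (2 * h + 1) * 4)) +
    ((2 * K + a + 2 * b + (2 * h + 1) * 4) - (2 * h + (3 * h + 2) + 2 * (2 * (2 * h + 1)) + m) +
      1) with heW
  refine ⟨min e1 eW, ?_, ?_⟩
  · rcases min_choice e1 eW with h3 | h3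
    · rw [h3]; exact h1
    · rw [h3]; exact hG
  · have c3 : (eW : ℝ) ≤ win2R a b m K ((2 * h + 1 : ℕ) : ℝ) + 8 := by
      have d1 := lo_sub (2 * (2 * h + 1)) b
      have d2 := lo_sub (3 * h + 2) a
      have d3 := lo_sub m ((2 * h + 1) * 4)
      have d4 := lo_sub (2 * K + a + 2 * b + (2 * h + 1) * 4)
        (2 * h + (3 * h + 2) + 2 * (2 * (2 * h + 1)) + m)
      have d5 : max (((3 * h + 2 : ℕ) : ℝ) - (a : ℝ)) 0 ≤
          max (3 * ((2 * h + 1 : ℕ) : ℝ) - 2 * a) 0 / 2 + 1 := by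
        apply max_le
        · have := le_max_left (3 * ((2 * h + 1 : ℕ) : ℝ) - 2 * a) 0
          push_cast at this ⊢
          linarith only [this]
        · have := le_max_right (3 * ((2 * h + 1 : ℕ) : ℝ) - 2 * a) 0
          linarith only [this]
      have d6 : max (((2 * K + a + 2 * b + (2 * h + 1) * 4 : ℕ) : ℝ) -
          ((2 * h + (3 * h + 2) + 2 * (2 * (2 * h + 1)) + m : ℕ) : ℝ)) 0 ≤
          max (2 * (a : ℝ) + 4 * b - 2 * m + 4 * K - 5 * ((2 * h + 1 : ℕ) : ℝ)) 0 / 2 + 1 := by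
        apply max_le
        · have := le_max_left
            (2 * (a : ℝ) + 4 * b - 2 * m + 4 * K - 5 * ((2 * h + 1 : ℕ) : ℝ)) 0
          push_cast at this ⊢
          linarith only [this]
        · have := le_max_right
            (2 * (a : ℝ) + 4 * b - 2 * m + 4 * K - 5 * ((2 * h + 1 : ℕ) : ℝ)) 0
          linarith only [this]
      have d7 : max ((m : ℝ) - (((2 * h + 1) * 4 : ℕ) : ℝ)) 0 =
          max ((m : ℝ) - 4 * ((2 * h + 1 : ℕ) : ℝ)) 0 := by
        congr 1
        push_cast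
        ring
      have d8 : max (((2 * (2 * h + 1) : ℕ) : ℝ) - (b : ℝ)) 0 =
          max (2 * ((2 * h + 1 : ℕ) : ℝ) - b) 0 := by
        congr 1
        push_cast
        ring
      rw [d7] at d3
      rw [d8] at d1
      rw [heW, Nat.cast_add, Nat.cast_add, Nat.cast_add, Nat.cast_add, Nat.cast_mul,
        Nat.cast_one, Nat.cast_ofNat, win2R]
      linarith only [d1, d2, d3, d4, d5, d6]
    rw [bad3R, Nat.cast_min, ← min_add_add_right]
    exact min_le_min h2 c3

/-! ### the function -/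

lemma win2R_nonneg (a b m K l : ℝ) : 0 ≤ win2R a b m K l := by
  unfold win2R; (clear * -; positivity)

lemma bad3R_nonneg {a b m K l : ℝ} (hK : 0 ≤ K) : 0 ≤ bad3R a b m K l :=
  le_min (badR_nonneg hK) (win2R_nonneg _ _ _ _ _)

lemma win2R_lip (a b m K x y : ℝ) : |win2R a b m K x - win2R a b m K y| ≤ 12 * |x - y| := by
  have h1 := max_sub_le (2 * x - b) (2 * y - b)
  have h2 := max_sub_le (3 * x - 2 * a) (3 * y - 2 * a)
  have h3 := max_sub_le (m - 4 * x) (m - 4 * y)
  have h4 := max_sub_le (2 * a + 4 * b - 2 * m + 4 * K - 5 * x)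
    (2 * a + 4 * b - 2 * m + 4 * K - 5 * y)
  have e1 : 2 * x - b - (2 * y - b) = 2 * (x - y) := by ring
  have e2 : 3 * x - 2 * a - (3 * y - 2 * a) = 3 * (x - y) := by ring
  have e3 : m - 4 * x - (m - 4 * y) = -(4 * (x - y)) := by ring
  have e4 : 2 * a + 4 * b - 2 * m + 4 * K - 5 * x - (2 * a + 4 * b - 2 * m + 4 * K - 5 * y) =
    -(5 * (x - y)) := by ring
  rw [e1, abs_mul, abs_of_pos (by norm_num : (0 : ℝ) < 2)] at h1
  rw [e2, abs_mul, abs_of_pos (by norm_num : (0 : ℝ) < 3)] at h2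
  rw [e3, abs_neg, abs_mul, abs_of_pos (by norm_num : (0 : ℝ) < 4)] at h3
  rw [e4, abs_neg, abs_mul, abs_of_pos (by norm_num : (0 : ℝ) < 5)] at h4
  rw [abs_le] at h1 h2 h3 h4 ⊢
  unfold win2R
  constructor <;> linarith [abs_nonneg (x - y)]

lemma bad3R_lip (a b m K x y : ℝ) : |bad3R a b m K x - bad3R a b m K y| ≤ 12 * |x - y| := by
  unfold bad3R
  refine (abs_min_sub_min_le_max _ _ _ _).trans (max_le ?_ ?_)
  · refine (badR_lip a b m K x y).trans ?_
    linarith [abs_nonneg (x - y)]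
  · exact win2R_lip a b m K x y

lemma win2R_scale_add (a b m K l : ℝ) {n : ℝ} (hn : 0 < n) (κ : ℝ) (hκ : 0 ≤ κ) :
    win2R (a * n) (b * n) (m * n) (K * n + κ) l ≤ n * win2R a b m K (l / n) + 2 * κ := by
  have hl : l = n * (l / n) := by (clear * - hn; field_simp)
  set y := l / n with hy
  have hadd : ∀ u v : ℝ, 0 ≤ v → max (u + v) 0 ≤ max u 0 + v := by
    intro u v hv
    exact max_le (by linarith only [le_max_left u 0]) (by linarith only [hv, le_max_right u 0])
  unfold win2R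
  have e1 : 2 * l - b * n = n * (2 * y - b) := by rw [hl]; ring
  have e2 : 3 * l - 2 * (a * n) = n * (3 * y - 2 * a) := by rw [hl]; ring
  have e3 : m * n - 4 * l = n * (m - 4 * y) := by rw [hl]; ring
  have e4 : 2 * (a * n) + 4 * (b * n) - 2 * (m * n) + 4 * (K * n + κ) - 5 * l =
      n * (2 * a + 4 * b - 2 * m + 4 * K - 5 * y) + 4 * κ := by rw [hl]; ring
  rw [e1, e2, e3, e4, mul_max_zero hn.le, mul_max_zero hn.le, mul_max_zero hn.le]
  have := hadd (n * (2 * a + 4 * b - 2 * m + 4 * K - 5 * y)) (4 * κ) (by linarith only [hκ])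
  rw [mul_max_zero hn.le] at this
  linarith only [this]

lemma bad3R_scale (a b m K l : ℝ) {n : ℝ} (hn : 0 < n) (κ : ℝ) (hκ : 0 ≤ κ) :
    bad3R (a * n) (b * n) (m * n) (K * n + κ) l ≤ n * bad3R a b m K (l / n) + 2 * κ := by
  unfold bad3R
  rw [mul_min_of_nonneg _ _ hn.le, ← min_add_add_right]
  exact min_le_min (badR_scale a b m K l hn κ hκ) (win2R_scale_add a b m K l hn κ hκ)

/-- **The arithmetic lower bound with the second window.** -/
theorem arith_lower_3 (K0 a0 b0 m0 : ℕ) {ε : ℝ} (hε : 0 < ε) :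
    ∀ᶠ n : ℕ in atTop, ∀ κ ≤ 2, ∀ p q : ℤ, 0 < q →
      (HM ((p : ℝ) / q) (a0 * n) (b0 * n) (m0 * n) (K0 * n + κ)).det ≠ 0 →
      Real.exp (-(cphi (bad3R a0 b0 m0 K0) K0 a0 b0 m0 + ε) * (n : ℝ) ^ 2) ≤
        (q : ℝ) ^ (K0 * n + κ) *
          |(HM ((p : ℝ) / q) (a0 * n) (b0 * n) (m0 * n) (K0 * n + κ)).det| := by
  refine arith_lower_phi K0 a0 b0 m0 (Λ := 12) (C0 := 12)
    (fun y => bad3R_nonneg (Nat.cast_nonneg K0)) (by norm_num) (fun x y => bad3R_lip _ _ _ _ x y)
    (by norm_num) ?_ hε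
  intro n κ hn hκ p q l hl h7 hr
  obtain ⟨e, he1, he2⟩ := local_odd3 _ _ _ _ p q l hl h7 hr
  refine ⟨e, he1, he2.trans ?_⟩
  have hnR : (0 : ℝ) < n := by exact_mod_cast hn
  have h1 := bad3R_scale a0 b0 m0 K0 l hnR κ (Nat.cast_nonneg _)
  have hκ' : (κ : ℝ) ≤ 2 := by exact_mod_cast hκ
  push_cast
  linarith only [h1, hκ']

/-! ### the constant -/

lemma continuous_bad3R (a b m K : ℝ) : Continuous (bad3R a b m K) := by
  unfold bad3R badR plainR winR win2R
  fun_prop

lemma win2R_chord (a b m K : ℝ) {u v y : ℝ} (huv : u ≤ v) (hy : y ∈ Set.Icc u v) :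
    win2R a b m K y * (v - u) ≤ win2R a b m K u * (v - y) + win2R a b m K v * (y - u) := by
  have h1 := max_chord (c := -b) (d := 2) huv hy
  have h2 := max_chord (c := -(2 * a)) (d := 3) huv hy
  have h3 := max_chord (c := m) (d := -4) huv hy
  have h4 := max_chord (c := 2 * a + 4 * b - 2 * m + 4 * K) (d := -5) huv hy
  simp only [neg_mul, ← sub_eq_add_neg, neg_add_eq_sub] at h1 h2 h3 h4
  unfold win2R
  linarith

lemma int_bad3R_win2 (a b m K : ℝ) {u v : ℝ} (huv : u < v) :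
    ∫ y in u..v, bad3R a b m K y ≤ (v - u) * (win2R a b m K u + win2R a b m K v) / 2 :=
  int_le_trap (continuous_bad3R a b m K) huv fun y hy =>
    (mul_le_mul_of_nonneg_right (min_le_right _ _)
      (by linarith [hy.1, hy.2])).trans (win2R_chord a b m K huv.le hy)

lemma int_bad3R_K (a b m K : ℝ) {u v : ℝ} (huv : u < v) :
    ∫ y in u..v, bad3R a b m K y ≤ (v - u) * K := by
  have h := int_le_trap (continuous_bad3R a b m K) huv (A := K) (B := K) fun y hy => by
    have h1 : bad3R a b m K y ≤ K := (min_le_left _ _).trans (min_le_left _ _)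
    have h2 := mul_le_mul_of_nonneg_right h1 (by linarith [hy.1, hy.2] : 0 ≤ v - u)
    linarith
  linarith

lemma int_bad3R_le (a b m K : ℝ) {u v : ℝ} (huv : u ≤ v) :
    ∫ y in u..v, bad3R a b m K y ≤ ∫ y in u..v, badR a b m K y :=
  intervalIntegral.integral_mono_on huv ((continuous_bad3R a b m K).intervalIntegrable _ _)
    ((continuous_badR a b m K).intervalIntegrable _ _) fun _ _ => min_le_left _ _

lemma win2R_scale (a b m K y s : ℝ) (hs : 0 ≤ s) :
    win2R (a * s) (b * s) (m * s) (K * s) (y * s) = s * win2R a b m K y := by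
  unfold win2R
  have e1 : 2 * (y * s) - b * s = s * (2 * y - b) := by ring
  have e2 : 3 * (y * s) - 2 * (a * s) = s * (3 * y - 2 * a) := by ring
  have e3 : m * s - 4 * (y * s) = s * (m - 4 * y) := by ring
  have e4 : 2 * (a * s) + 4 * (b * s) - 2 * (m * s) + 4 * (K * s) - 5 * (y * s) =
    s * (2 * a + 4 * b - 2 * m + 4 * K - 5 * y) := by ring
  rw [e1, e2, e3, e4, mul_max_zero hs, mul_max_zero hs, mul_max_zero hs, mul_max_zero hs]
  ring

lemma win25_val : win2R 6 13 26 5 (31 / 5) = 5 ∧ win2R 6 13 26 5 (32 / 5) = 4 ∧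
    win2R 6 13 26 5 (13 / 2) = 15 / 4 ∧ win2R 6 13 26 5 (74 / 11) = 5 := by
  unfold win2R
  refine ⟨?_, ?_, ?_, ?_⟩ <;> norm_num [max_def]

theorem cphi_five (s : ℕ) (hs : 1 ≤ s) :
    cphi (bad3R ((6 * s : ℕ) : ℝ) ((13 * s : ℕ) : ℝ) ((26 * s : ℕ) : ℝ) ((5 * s : ℕ) : ℝ))
      (5 * s) (6 * s) (13 * s) (26 * s) ≤
    (s : ℝ) ^ 2 * (98001 / 770 + 49 / 2 * Real.log 5 - 125 / 2 * Real.log 2) := by
  have hs0 : (1 : ℝ) ≤ s := by exact_mod_cast hs
  have hs' : (0 : ℝ) ≤ s := by linarith only []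
  obtain ⟨w1, w2, w3, w4, w5⟩ := win5_val
  obtain ⟨p1, p2, p3⟩ := plain5_val
  obtain ⟨u1, u2, u3, u4⟩ := win25_val
  set A : ℝ := ((6 * s : ℕ) : ℝ) with hA
  set B : ℝ := ((13 * s : ℕ) : ℝ) with hB
  set M : ℝ := ((26 * s : ℕ) : ℝ) with hM
  set K : ℝ := ((5 * s : ℕ) : ℝ) with hK
  have hA' : A = 6 * s := by rw [hA]; push_cast; ring
  have hB' : B = 13 * s := by rw [hB]; push_cast; ring
  have hM' : M = 26 * s := by rw [hM]; push_cast; ring
  have hK' : K = 5 * s := by rw [hK]; push_cast; ring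
  have hw : ∀ y : ℝ, winR A B M K (y * s) = s * winR 6 13 26 5 y := by
    intro y
    rw [hA', hB', hM', hK']
    exact winR_scale 6 13 26 5 y s hs'
  have hp : ∀ y : ℝ, plainR A B M K (y * s) = s * plainR 6 13 26 5 y := by
    intro y
    rw [hA', hB', hM', hK']
    exact plainR_scale 6 13 26 5 y s hs'
  have hw2 : ∀ y : ℝ, win2R A B M K (y * s) = s * win2R 6 13 26 5 y := by
    intro y
    rw [hA', hB', hM', hK']
    exact win2R_scale 6 13 26 5 y s hs'
  set Z : ℝ := 2 * (M + 2 * K + A + 2 * B) + 1 with hZ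
  have hZ' : Z = 136 * s + 1 := by rw [hZ, hA', hB', hM', hK']; ring
  have hX : plainR A B M K Z = 0 := by
    unfold plainR
    rw [hZ', hA', hB', hM', hK', max_eq_right (by linarith only []), max_eq_right (by linarith only [])]
    norm_num
  have g1 := int_bad3R_K A B M K (u := 0) (v := 31 / 5 * s) (by linarith only [hs0])
  have g2 := int_bad3R_win2 A B M K (u := 31 / 5 * s) (v := 32 / 5 * s) (by linarith only [hs0])
  have g3 := int_bad3R_win2 A B M K (u := 32 / 5 * s) (v := 13 / 2 * s) (by linarith only [hs0])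
  have g4 := int_bad3R_win2 A B M K (u := 13 / 2 * s) (v := 74 / 11 * s) (by linarith only [hs0])
  have g5 := int_bad3R_le A B M K (u := 74 / 11 * s) (v := Z) (by (clear * - hs0 hA' hB' hM' hK'; linarith))
  have k5 := int_badR_K A B M K (u := 74 / 11 * s) (v := 74 / 7 * s) (by linarith only [hs0])
  have k6 := int_badR_win A B M K (u := 74 / 7 * s) (v := 32 / 3 * s) (by (clear * - hs0; linarith))
  have k7 := int_badR_win A B M K (u := 32 / 3 * s) (v := 12 * s) (by linarith only [hs0])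
  have k8 := int_badR_win A B M K (u := 12 * s) (v := 13 * s) (by linarith only [hs0])
  have k9 := int_badR_win A B M K (u := 13 * s) (v := 74 / 5 * s) (by linarith only [hs0])
  have k10 := int_badR_K A B M K (u := 74 / 5 * s) (v := 74 / 3 * s) (by linarith only [hs0])
  have k11 := int_badR_plain A B M K (u := 74 / 3 * s) (v := 26 * s) (by linarith only [hs0])
  have k12 := int_badR_plain A B M K (u := 26 * s) (v := 32 * s) (by linarith only [hs0])
  have k13 := int_badR_plain A B M K (u := 32 * s) (v := Z) (by linarith only [hA', hB', hM', hK'])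
  have hadd3 : ∀ u v w : ℝ, ∫ y in u..w, bad3R A B M K y =
      (∫ y in u..v, bad3R A B M K y) + ∫ y in v..w, bad3R A B M K y := fun u v w =>
    (intervalIntegral.integral_add_adjacent_intervals
      ((continuous_bad3R A B M K).intervalIntegrable _ _)
      ((continuous_bad3R A B M K).intervalIntegrable _ _)).symm
  have a1 := hadd3 0 (31 / 5 * s) Z
  have a2 := hadd3 (31 / 5 * s) (32 / 5 * s) Z
  have a3 := hadd3 (32 / 5 * s) (13 / 2 * s) Z
  have a4 := hadd3 (13 / 2 * s) (74 / 11 * s) Z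
  have b5 := int_badR_add A B M K (74 / 11 * s) (74 / 7 * s) Z
  have b6 := int_badR_add A B M K (74 / 7 * s) (32 / 3 * s) Z
  have b7 := int_badR_add A B M K (32 / 3 * s) (12 * s) Z
  have b8 := int_badR_add A B M K (12 * s) (13 * s) Z
  have b9 := int_badR_add A B M K (13 * s) (74 / 5 * s) Z
  have b10 := int_badR_add A B M K (74 / 5 * s) (74 / 3 * s) Z
  have b11 := int_badR_add A B M K (74 / 3 * s) (26 * s) Z
  have b12 := int_badR_add A B M K (26 * s) (32 * s) Z
  rw [hw2, hw2, u1, u2] at g2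
  rw [hw2, hw2, u2, u3] at g3
  rw [hw2, hw2, u3, u4] at g4
  rw [hw, hw, w1, w2] at k6
  rw [hw, hw, w2, w3] at k7
  rw [hw, hw, w3, w4] at k8
  rw [hw, hw, w4, w5] at k9
  rw [hp, hp, p1, p2] at k11
  rw [hp, hp, p2, p3] at k12
  rw [hp, p3, hX, mul_zero, add_zero, mul_zero, zero_div] at k13
  have hint : ∫ y in (0 : ℝ)..Z, bad3R A B M K y ≤ (s : ℝ) ^ 2 * (98001 / 770) := by
    rw [a1, a2, a3, a4]
    have g1' := g1.trans_eq (show (31 / 5 * (s : ℝ) - 0) * K = 31 * (s : ℝ) ^ 2 by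
      rw [hK']; ring)
    have g2' := g2.trans_eq (show (32 / 5 * (s : ℝ) - 31 / 5 * s) * (s * 5 + s * 4) / 2 =
      9 / 10 * (s : ℝ) ^ 2 by ring)
    have g3' := g3.trans_eq (show (13 / 2 * (s : ℝ) - 32 / 5 * s) * (s * 4 + s * (15 / 4)) / 2 =
      31 / 80 * (s : ℝ) ^ 2 by ring)
    have g4' := g4.trans_eq (show (74 / 11 * (s : ℝ) - 13 / 2 * s) * (s * (15 / 4) + s * 5) / 2 =
      175 / 176 * (s : ℝ) ^ 2 by ring)
    have k5' := k5.trans_eq (show (74 / 7 * (s : ℝ) - 74 / 11 * s) * K =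
      1480 / 77 * (s : ℝ) ^ 2 by rw [hK']; ring)
    have k6' := k6.trans_eq (show (32 / 3 * (s : ℝ) - 74 / 7 * s) * (s * 5 + s * (14 / 3)) / 2 =
      29 / 63 * (s : ℝ) ^ 2 by ring)
    have k7' := k7.trans_eq (show (12 * (s : ℝ) - 32 / 3 * s) * (s * (14 / 3) + s * 2) / 2 =
      40 / 9 * (s : ℝ) ^ 2 by ring)
    have k8' := k8.trans_eq (show (13 * (s : ℝ) - 12 * s) * (s * 2 + s * (1 / 2)) / 2 =
      5 / 4 * (s : ℝ) ^ 2 by ring)
    have k9' := k9.trans_eq (show (74 / 5 * (s : ℝ) - 13 * s) * (s * (1 / 2) + s * 5) / 2 =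
      99 / 20 * (s : ℝ) ^ 2 by ring)
    have k10' := k10.trans_eq (show (74 / 3 * (s : ℝ) - 74 / 5 * s) * K =
      148 / 3 * (s : ℝ) ^ 2 by rw [hK']; ring)
    have k11' := k11.trans_eq (show (26 * (s : ℝ) - 74 / 3 * s) * (s * 5 + s * 3) / 2 =
      16 / 3 * (s : ℝ) ^ 2 by ring)
    have k12' := k12.trans_eq (show (32 * (s : ℝ) - 26 * s) * (s * 3 + s * 0) / 2 =
      9 * (s : ℝ) ^ 2 by ring)
    linarith only [g1', g2', g3', g4', g5, k5', k6', k7', k8', k9', k10', k11', k12', k13,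
      b5, b6, b7, b8, b9, b10, b11, b12]
  have e1 : 26 * s - (6 * s + 13 * s) = 7 * s := by (clear * - hs; omega)
  rw [cphi, e1]
  have e2 : (2 * (((26 * s : ℕ) : ℝ) + 2 * ((5 * s : ℕ) : ℝ) + ((6 * s : ℕ) : ℝ) +
    2 * ((13 * s : ℕ) : ℝ)) + 1) = Z := rfl
  rw [e2]
  have e3 : (((7 * s : ℕ) : ℝ)) ^ 2 / 2 * Real.log 5 - 5 / 2 * ((5 * s : ℕ) : ℝ) *
      (2 * ((13 * s : ℕ) : ℝ) + ((5 * s : ℕ) : ℝ) - ((26 * s : ℕ) : ℝ)) * Real.log 2 =
      (s : ℝ) ^ 2 * (49 / 2 * Real.log 5 - 125 / 2 * Real.log 2) := by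
    push_cast; ring
  linarith only [hint, e3]

lemma cphi_five_num (s : ℕ) (hs : 1 ≤ s) :
    cphi (bad3R ((6 * s : ℕ) : ℝ) ((13 * s : ℕ) : ℝ) ((26 * s : ℕ) : ℝ) ((5 * s : ℕ) : ℝ))
      (5 * s) (6 * s) (13 * s) (26 * s) ≤ (s : ℝ) ^ 2 * (1233836 / 10000) := by
  have h5 := Real.log_five_lt_d9
  have h2 := Real.log_two_gt_d9
  exact (cphi_five s hs).trans (mul_le_mul_of_nonneg_left (by linarith only [h5, h2]) (by positivity))

/-- From a certificate with total exponent at most `-Tt` to the bound for `μ(π)`. -/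
theorem final_bound3 (s : ℕ) (hs : 1 ≤ s) {N : ℕ} {w : ℝ} {S T : Set ℂ}
    (C : Cert (5 * s) (6 * s) (13 * s) (26 * s) N w S T) (Tt μ0 : ℝ) (hTt : C.total ≤ -Tt)
    (hw : 0 < w) (hT : BetBound T) (hTb : Bornology.IsBounded T)
    (l : List ℂ) (x0 : ℝ) (hh : l.head? = some (x0 : ℂ))
    (hl : l.getLast? = some (-1 + 2 * Complex.I)) (hre : ∀ v ∈ l, |v.re| < 5)
    (hS : PathIn S l) (hSb : Bornology.IsBounded S) (hμ0 : 0 ≤ μ0)
    (hδ : 0 < Tt - (s : ℝ) ^ 2 * (1233836 / 10000))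
    (hμ : w * (5 * s) ≤ μ0 * (Tt - (s : ℝ) ^ 2 * (1233836 / 10000))) :
    irrationalityExponent Real.pi ≤ (μ0 : EReal) := by
  set c : ℝ := cphi (bad3R ((6 * s : ℕ) : ℝ) ((13 * s : ℕ) : ℝ) ((26 * s : ℕ) : ℝ)
    ((5 * s : ℕ) : ℝ)) (5 * s) (6 * s) (13 * s) (26 * s) with hc
  have h1 : c ≤ (s : ℝ) ^ 2 * (1233836 / 10000) := cphi_five_num s hs
  have h2 : Tt - (s : ℝ) ^ 2 * (1233836 / 10000) ≤ -C.total - c := by linarith
  refine main_bound_gen c μ0 C hw (by omega) hT hTb l x0 hh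
    hl hre hS hSb (fun ε hε => arith_lower_3 _ _ _ _ hε) (by linarith only [hTt, hδ, h1]) ?_
  refine le_trans (le_of_eq ?_) (hμ.trans (mul_le_mul_of_nonneg_left h2 hμ0))
  push_cast
  ring

end Vale.Agent.P021.Det
end

section

namespace Vale.Agent.P021.Det

theorem result3 (hT : BetBound T1) :
    irrationalityExponent Real.pi ≤ ((6.027 : ℝ) : EReal) := by
  have hl2 := Real.log_two_gt_d9
  have hl2' := Real.log_two_lt_d9
  refine final_bound3 400 (by norm_num) cert2 (50311780 * Real.log 2) 6.027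
    (by rw [cert2_total]; linarith only []) (by positivity) hT T1_bounded l1 0 ?_ ?_ ?_ l1_path S1_bounded
    (by norm_num) ?_ ?_
  · simp [l1, pnt10_zero]
  · simp [l1, pnt10_e]
  · intro v hv
    simp only [l1, List.mem_cons, List.not_mem_nil, or_false] at hv
    rcases hv with rfl | rfl | rfl <;> simp [pnt10] <;> norm_num
  · norm_num
    linarith only [hl2]
  · norm_num
    nlinarith only [hl2]

end Vale.Agent.P021.Det
end

section

open Polynomial Filter Topology

namespace Vale.Agent.P021.Det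

theorem Rec_aco (k : ℤ) :
    (2 * (k : ℝ) + 1) * (aco k : ℝ) + 50 * (k : ℝ) * (aco (k - 1) : ℝ) = 0 := by
  have h1 : |5 - (5 : ℝ)| < 1 := by norm_num
  have h2 : (1 : ℝ) < 5 + 5 := by norm_num
  have h := CI_rec h1 h2 k
  rw [aco_circle 5 1 h1 h2 k, aco_circle 5 1 h1 h2 (k - 1)] at h
  have h3 : (-(2 * (Real.pi : ℂ) * Complex.I)) ≠ 0 := by
    apply neg_ne_zero.2
    apply mul_ne_zero (mul_ne_zero two_ne_zero ?_) Complex.I_ne_zero
    exact_mod_cast Real.pi_ne_zero
  have h4 : (-(2 * (Real.pi : ℂ) * Complex.I)) *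
      ((2 * (k : ℂ) + 1) * (aco k : ℂ) + 50 * (k : ℂ) * (aco (k - 1) : ℂ)) = 0 := by
    linear_combination h
  have h5 := (mul_eq_zero.1 h4).resolve_left h3
  exact_mod_cast h5

theorem lam_rec (x : ℝ) (k : ℤ) :
    (2 * (k : ℝ) + 1) * lam x k + 50 * (k : ℝ) * lam x (k - 1) = bd k := by
  have h1 := Path_rec_pi k
  have h2 := Rec_aco k
  rw [← h1]
  unfold lam
  linear_combination (x - Real.pi) / 2 * h2

theorem Rec_neg_one (x : ℝ) : lam x (-1) = -x / 20 := by
  have h1 := Path_neg_one_pi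
  have h2 : (aco (-1) : ℝ) = -(1 / 10) := by
    have : aco (-1) = -(1 / 10) := by
      rw [aco]; norm_num
    rw [this]; push_cast; ring
  unfold lam at h1 ⊢
  rw [h2] at h1 ⊢
  linear_combination h1

/-- uniqueness: the recursion and the value at `-1` determine `lam x`. -/
theorem lam_unique (x : ℝ) (f : ℤ → ℝ)
    (h : ∀ k : ℤ, (2 * (k : ℝ) + 1) * f k + 50 * (k : ℝ) * f (k - 1) = bd k)
    (h1 : f (-1) = -x / 20) (k : ℤ) : f k = lam x k :=
  Path_unique f (lam x) h (lam_rec x) (by rw [h1, Rec_neg_one]) k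

end Vale.Agent.P021.Det
end

section

/-! P021, determinant method: the coefficient functional `Bet` as an integral along a polygon in
the closed upper half plane, from a point `x2 > 5` to a point `x1 ∈ (-5,5)`. -/

open Polynomial Filter Topology

namespace Vale.Agent.P021.Det

/-- the closed upper half plane without `±5` -/
def BP_U : Set ℂ := {s : ℂ | 0 ≤ s.im ∧ s ≠ 5 ∧ s ≠ -5}

theorem BP_tau_ne {s : ℂ} (hs : s ∈ BP_U) : tau s ≠ 0 := by
  intro h
  have h1 : (s - 5) * (s + 5) = 0 := by unfold tau at h; linear_combination h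
  rcases mul_eq_zero.1 h1 with h2 | h2
  · exact hs.2.1 (by linear_combination h2)
  · exact hs.2.2 (by linear_combination h2)

/-- the fundamental theorem of calculus on a segment in `U` -/
theorem BP_segI_prim {U : Set ℂ} {f G : ℂ → ℂ} (hG : ∀ s ∈ U, HasDerivAt G (f s) s)
    (hf : ∀ s ∈ U, ContinuousAt f s) {u v : ℂ} (hU : segment ℝ u v ⊆ U) :
    segI f u v = G v - G u := by
  have hγ : ∀ t : ℝ, HasDerivAt (fun t : ℝ => u + (t : ℂ) * (v - u)) (v - u) t := by
    intro t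
    have h1 : HasDerivAt (fun t : ℝ => (t : ℂ)) 1 t := Complex.ofRealCLM.hasDerivAt
    simpa using (h1.mul_const (v - u)).const_add u
  have hder : ∀ t ∈ Set.uIcc (0 : ℝ) 1, HasDerivAt (fun t : ℝ => G (u + (t : ℂ) * (v - u)))
      (f (u + (t : ℂ) * (v - u)) * (v - u)) t := by
    intro t ht
    rw [Set.uIcc_of_le zero_le_one] at ht
    exact (hG _ (hU (Path_seg_mem u v ht.1 ht.2))).comp t (hγ t)
  have hcont : ContinuousOn (fun t : ℝ => f (u + (t : ℂ) * (v - u)) * (v - u))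
      (Set.uIcc (0 : ℝ) 1) := by
    intro t ht
    rw [Set.uIcc_of_le zero_le_one] at ht
    apply ContinuousAt.continuousWithinAt
    apply ContinuousAt.mul _ continuousAt_const
    exact ContinuousAt.comp (f := fun t : ℝ => u + (t : ℂ) * (v - u))
      (hf _ (hU (Path_seg_mem u v ht.1 ht.2))) (hγ t).continuousAt
  have h := intervalIntegral.integral_eq_sub_of_hasDerivAt hder hcont.intervalIntegrable
  unfold segI
  rw [intervalIntegral.integral_mul_const] at h
  rw [mul_comm, h]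
  simp

theorem BP_pathI_prim {U : Set ℂ} {f G : ℂ → ℂ} (hG : ∀ s ∈ U, HasDerivAt G (f s) s)
    (hf : ∀ s ∈ U, ContinuousAt f s) (l : List ℂ) (hs : PathIn U l)
    {u w : ℂ} (hh : l.head? = some u) (hl : l.getLast? = some w) : pathI f l = G w - G u := by
  induction l generalizing u with
  | nil => simp at hh
  | cons a l ih =>
    cases l with
    | nil =>
      simp at hh hl
      subst hh; subst hl
      simp [pathI]
    | cons b l =>
      have hau : a = u := by simpa using hh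
      have h1 := ih hs.2 (u := b) (by simp) (by simpa using hl)
      show segI f a b + pathI f (b :: l) = _
      rw [h1, BP_segI_prim hG hf hs.1, ← hau]
      ring

theorem BP_segI_add {U : Set ℂ} {f g : ℂ → ℂ} (hf : ∀ s ∈ U, ContinuousAt f s)
    (hg : ∀ s ∈ U, ContinuousAt g s) {u v : ℂ} (hU : segment ℝ u v ⊆ U) :
    segI (fun s => f s + g s) u v = segI f u v + segI g u v := by
  have hint : ∀ f : ℂ → ℂ, (∀ s ∈ U, ContinuousAt f s) →
      IntervalIntegrable (fun t : ℝ => f (u + (t : ℂ) * (v - u))) MeasureTheory.volume 0 1 := by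
    intro f hf
    apply ContinuousOn.intervalIntegrable
    intro t ht
    rw [Set.uIcc_of_le zero_le_one] at ht
    apply ContinuousAt.continuousWithinAt
    exact ContinuousAt.comp (f := fun t : ℝ => u + (t : ℂ) * (v - u))
      (hf _ (hU (Path_seg_mem u v ht.1 ht.2))) (by (clear * -; fun_prop))
  unfold segI
  rw [intervalIntegral.integral_add (hint f hf) (hint g hg)]
  ring

theorem BP_pathI_add {U : Set ℂ} {f g : ℂ → ℂ} (hf : ∀ s ∈ U, ContinuousAt f s)
    (hg : ∀ s ∈ U, ContinuousAt g s) (l : List ℂ) (hs : PathIn U l) :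
    pathI (fun s => f s + g s) l = pathI f l + pathI g l := by
  induction l with
  | nil => simp [pathI]
  | cons a l ih =>
    cases l with
    | nil => simp [pathI]
    | cons b l =>
      show segI _ a b + pathI _ (b :: l) = (segI f a b + pathI f (b :: l)) +
        (segI g a b + pathI g (b :: l))
      rw [ih hs.2, BP_segI_add hf hg hs.1]
      ring

theorem BP_pathI_sum {U : Set ℂ} {ι : Type} (t : Finset ι) (f : ι → ℂ → ℂ)
    (hf : ∀ i ∈ t, ∀ s ∈ U, ContinuousAt (f i) s) (l : List ℂ)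
    (hs : PathIn U l) :
    pathI (fun s => ∑ i ∈ t, f i s) l = ∑ i ∈ t, pathI (f i) l := by
  classical
  induction t using Finset.induction_on with
  | empty => simpa using Path_pathI_zero l
  | insert i t hi ih =>
    have h1 : (fun s => ∑ j ∈ insert i t, f j s) = fun s => f i s + ∑ j ∈ t, f j s := by
      funext s; rw [Finset.sum_insert hi]
    rw [h1, Finset.sum_insert hi, BP_pathI_add (hf i (Finset.mem_insert_self i t)) _ l hs,
      ih (fun j hj => hf j (Finset.mem_insert_of_mem hj))]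
    intro s hs'
    exact tendsto_finsetSum t (fun j hj => hf j (Finset.mem_insert_of_mem hj) s hs')

theorem BP_cont_zpow (k : ℤ) {s : ℂ} (hs : s ∈ BP_U) :
    ContinuousAt (fun s => tau s ^ k) s := by
  apply ContinuousAt.zpow₀
  · unfold tau; fun_prop
  · left; exact BP_tau_ne hs

theorem BP_rec (l : List ℂ) (x1 x2 : ℝ) (hh : l.head? = some (x2 : ℂ))
    (hl : l.getLast? = some (x1 : ℂ)) (hs : PathIn BP_U l) (k : ℤ) :
    (2 * (k : ℝ) + 1) * (pathI (fun s => (tau s) ^ k) l).im +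
      50 * (k : ℝ) * (pathI (fun s => (tau s) ^ (k - 1)) l).im = 0 := by
  have h1 := BP_pathI_prim (f := fun s => (2 * (k : ℂ) + 1) * tau s ^ k +
    50 * (k : ℂ) * tau s ^ (k - 1)) (G := fun s => s * tau s ^ k)
    (fun s hs => CI_hasDerivAt k (BP_tau_ne hs))
    (fun s hs => ((BP_cont_zpow k hs).const_mul _).add ((BP_cont_zpow (k - 1) hs).const_mul _))
    l hs hh hl
  rw [BP_pathI_add (fun s hs => (BP_cont_zpow k hs).const_mul _)
    (fun s hs => (BP_cont_zpow (k - 1) hs).const_mul _) l hs, Path_pathI_smul,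
    Path_pathI_smul] at h1
  have h2 := congrArg Complex.im h1
  have h4 : ∀ x : ℝ, ((x : ℂ) * tau (x : ℂ) ^ k).im = 0 := by
    intro x
    have : (x : ℂ) * tau (x : ℂ) ^ k = ((x * (x ^ 2 - 25) ^ k : ℝ) : ℂ) := by
      unfold tau; push_cast; rfl
    rw [this, Complex.ofReal_im]
  have h5 : ((2 * (k : ℂ) + 1) * pathI (fun s => tau s ^ k) l).im =
      (2 * (k : ℝ) + 1) * (pathI (fun s => tau s ^ k) l).im := by
    have : (2 * (k : ℂ) + 1) = ((2 * (k : ℝ) + 1 : ℝ) : ℂ) := by push_cast; rfl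
    rw [this, Complex.im_ofReal_mul]
  have h6 : ((50 * (k : ℂ)) * pathI (fun s => tau s ^ (k - 1)) l).im =
      (50 * (k : ℝ)) * (pathI (fun s => tau s ^ (k - 1)) l).im := by
    have : (50 * (k : ℂ)) = ((50 * (k : ℝ) : ℝ) : ℂ) := by push_cast; rfl
    rw [this, Complex.im_ofReal_mul]
  rw [Complex.add_im, h5, h6, Complex.sub_im, h4, h4] at h2
  linarith only [h2]

theorem BP_slit {a : ℝ} {s : ℂ} (h0 : 0 ≤ s.im) (hne : s ≠ (a : ℂ)) :
    -Complex.I * (s - a) ∈ Complex.slitPlane := by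
  rw [Complex.mem_slitPlane_iff]
  have hre : (-Complex.I * (s - a)).re = s.im := by simp
  have him : (-Complex.I * (s - a)).im = -(s.re - a) := by simp
  rw [hre, him]
  rcases h0.lt_or_eq with h | h
  · exact Or.inl h
  · right
    intro h2
    apply hne
    apply Complex.ext
    · simp; linarith
    · simp [← h]

theorem BP_log_deriv {s : ℂ} (hs : s ∈ BP_U) :
    HasDerivAt (fun s => (1 / 10 : ℂ) * (Complex.log (-Complex.I * (s - ((5 : ℝ) : ℂ))) -
      Complex.log (-Complex.I * (s - ((-5 : ℝ) : ℂ))))) (tau s ^ (-1 : ℤ)) s := by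
  have e1 : s ≠ ((5 : ℝ) : ℂ) := by
    intro h; apply hs.2.1; rw [h]; norm_num
  have e2 : s ≠ ((-5 : ℝ) : ℂ) := by
    intro h; apply hs.2.2; rw [h]; norm_num
  have hd : ∀ a : ℝ, HasDerivAt (fun s : ℂ => -Complex.I * (s - (a : ℂ))) (-Complex.I) s := by
    intro a
    simpa only [neg_mul, id_eq, mul_one] using ((hasDerivAt_id s).sub_const (a : ℂ)).const_mul (-Complex.I)
  have h1 := (hd 5).clog (BP_slit hs.1 e1)
  have h2 := (hd (-5)).clog (BP_slit hs.1 e2)
  have h3 := (h1.sub h2).const_mul (1 / 10 : ℂ)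
  refine h3.congr_deriv ?_
  have h6 := BP_tau_ne hs
  have h7 : s - 5 ≠ 0 := by
    intro h; apply hs.2.1; linear_combination h
  have h8 : s + 5 ≠ 0 := by
    intro h; apply hs.2.2; linear_combination h
  have h9 : tau s = (s - 5) * (s + 5) := by unfold tau; ring
  rw [zpow_neg_one, h9]
  push_cast
  have hI := Complex.I_ne_zero
  rw [sub_neg_eq_add]
  field_simp
  ring

theorem BP_log_im_pos {a x : ℝ} (h : a < x) :
    (Complex.log (-Complex.I * ((x : ℂ) - (a : ℂ)))).im = -(Real.pi / 2) := by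
  have h1 : -Complex.I * ((x : ℂ) - (a : ℂ)) = ((x - a : ℝ) : ℂ) * (-Complex.I) := by
    push_cast; ring
  rw [h1, Complex.log_im, Complex.arg_real_mul _ (by linarith), Complex.arg_neg_I]

theorem BP_log_im_neg {a x : ℝ} (h : x < a) :
    (Complex.log (-Complex.I * ((x : ℂ) - (a : ℂ)))).im = Real.pi / 2 := by
  have h1 : -Complex.I * ((x : ℂ) - (a : ℂ)) = ((a - x : ℝ) : ℂ) * Complex.I := by
    push_cast; ring
  rw [h1, Complex.log_im, Complex.arg_real_mul _ (by linarith), Complex.arg_I]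

theorem BP_neg_one (l : List ℂ) (x1 x2 : ℝ) (hh : l.head? = some (x2 : ℂ))
    (hl : l.getLast? = some (x1 : ℂ)) (h2 : 5 < x2) (h1 : -5 < x1) (h1' : x1 < 5)
    (hs : PathIn BP_U l) :
    (pathI (fun s => (tau s) ^ (-1 : ℤ)) l).im = Real.pi / 10 := by
  rw [BP_pathI_prim (fun s hs => BP_log_deriv hs) (fun s hs => BP_cont_zpow (-1) hs) l hs hh hl]
  have h9 : (1 / 10 : ℂ) = ((1 / 10 : ℝ) : ℂ) := by push_cast; rfl
  rw [Complex.sub_im, h9, Complex.im_ofReal_mul, Complex.im_ofReal_mul, Complex.sub_im,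
    Complex.sub_im, BP_log_im_neg h1', BP_log_im_pos h1, BP_log_im_pos h2,
    BP_log_im_pos (show (-5 : ℝ) < x2 by linarith only [h2])]
  ring

theorem BP_aco (l : List ℂ) (x1 x2 : ℝ) (hh : l.head? = some (x2 : ℂ))
    (hl : l.getLast? = some (x1 : ℂ)) (h2 : 5 < x2) (h1 : -5 < x1) (h1' : x1 < 5)
    (hs : PathIn BP_U l) (k : ℤ) :
    (pathI (fun s => (tau s) ^ k) l).im = -Real.pi * (aco k : ℝ) := by
  have h := Path_unique (fun k => lam 0 k + (pathI (fun s => (tau s) ^ k) l).im)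
    (fun k => lam 0 k + -Real.pi * (aco k : ℝ)) ?_ ?_ ?_ k
  · simpa only [neg_mul, add_right_inj] using h
  · intro k
    have e1 := lam_rec 0 k
    have e2 := BP_rec l x1 x2 hh hl hs k
    linear_combination e1 + e2
  · intro k
    have e1 := lam_rec 0 k
    have e2 := Rec_aco k
    linear_combination e1 - Real.pi * e2
  · have e1 := BP_neg_one l x1 x2 hh hl h2 h1 h1' hs
    have e2 : (aco (-1) : ℝ) = -(1 / 10) := by
      have : aco (-1) = -(1 / 10) := by
        rw [aco]; norm_num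
      rw [this]; push_cast; ring
    simp only [e1, e2]
    ring

theorem BP_norm_pathI_le (f : ℂ → ℂ) (M : ℝ) (S : Set ℂ) (l : List ℂ)
    (hS : PathIn S l) (hf : ∀ s ∈ S, ‖f s‖ ≤ M) : ‖pathI f l‖ ≤ Path_len l * M := by
  induction l with
  | nil => simp only [pathI, norm_zero, Path_len, zero_mul, Std.le_refl]
  | cons a l ih =>
    cases l with
    | nil => simp [pathI, Path_len]
    | cons b l =>
      have h1 := ih hS.2
      show ‖segI f a b + pathI f (b :: l)‖ ≤ (‖b - a‖ + Path_len (b :: l)) * M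
      have h2 : ‖segI f a b‖ ≤ ‖b - a‖ * M := by
        unfold segI
        rw [norm_mul]
        apply mul_le_mul_of_nonneg_left _ (norm_nonneg _)
        have h3 := intervalIntegral.norm_integral_le_of_norm_le_const (a := (0 : ℝ)) (b := 1)
          (f := fun t : ℝ => f (a + (t : ℂ) * (b - a))) (C := M) ?_
        · simpa only [ge_iff_le, sub_zero, abs_one, mul_one] using h3
        · intro t ht
          rw [Set.uIoc_of_le zero_le_one] at ht
          exact hf _ (hS.1 (Path_seg_mem a b ht.1.le ht.2))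
      calc ‖segI f a b + pathI f (b :: l)‖ ≤ ‖segI f a b‖ + ‖pathI f (b :: l)‖ := norm_add_le _ _
        _ ≤ ‖b - a‖ * M + Path_len (b :: l) * M := add_le_add h2 h1
        _ = _ := by ring

theorem BP_PathIn_inter {S T : Set ℂ} (l : List ℂ) (h1 : PathIn S l) (h2 : PathIn T l) :
    PathIn (S ∩ T) l := by
  induction l with
  | nil => trivial
  | cons a l ih =>
    cases l with
    | nil => trivial
    | cons b l => exact ⟨Set.subset_inter h1.1 h2.1, ih h1.2 h2.2⟩

theorem BP_Bet_eq (l : List ℂ) (x1 x2 : ℝ) (hh : l.head? = some (x2 : ℂ))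
    (hl : l.getLast? = some (x1 : ℂ)) (h2 : 5 < x2) (h1 : -5 < x1) (h1' : x1 < 5)
    (hs : PathIn BP_U l) (m : ℕ) (F : ℝ[X]) :
    (2 * Real.pi) * Bet m F = -(pathI (fun s => ∑ j ∈ Finset.range (F.natDegree + 1),
        ((F.coeff j : ℝ) : ℂ) * tau s ^ ((j : ℤ) - m)) l).im := by
  rw [Bet_eq_sum m F (Nat.lt_succ_self _), BP_pathI_sum (U := BP_U) _ _ _ l hs, Complex.im_sum,
    Finset.mul_sum, ← Finset.sum_neg_distrib]
  · apply Finset.sum_congr rfl
    intro j _
    rw [Path_pathI_smul, Complex.im_ofReal_mul, BP_aco l x1 x2 hh hl h2 h1 h1' hs]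
    ring
  · intro j _ s hs'
    exact (BP_cont_zpow _ hs').const_mul _

theorem betBound_polygon (l : List ℂ) (x1 x2 : ℝ) (hh : l.head? = some (x2 : ℂ))
    (hl : l.getLast? = some (x1 : ℂ)) (h2 : 5 < x2) (h1 : -5 < x1) (h1' : x1 < 5)
    (T : Set ℂ) (hT : PathIn T l)
    (hpos : PathIn {s : ℂ | 0 ≤ s.im ∧ s ≠ 5 ∧ s ≠ -5} l) : BetBound T := by
  refine ⟨Path_len l + 1, by have := Path_len_nonneg l; linarith, ?_⟩
  intro m F M hM
  have hpos' : PathIn BP_U l := hpos
  -- nonnegativity of `M`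
  have hM0 : 0 ≤ M := by
    cases l with
    | nil => simp at hh
    | cons a l =>
      cases l with
      | nil =>
        exfalso
        simp at hh hl
        rw [hh] at hl
        have : x2 = x1 := by exact_mod_cast hl
        linarith
      | cons b l =>
        have h3 : a ∈ T := hT.1 (left_mem_segment ℝ a b)
        have h4 : a ∈ BP_U := hpos'.1 (left_mem_segment ℝ a b)
        have h5 := hM a h3
        have h6 : 0 < ‖tau a‖ ^ m := pow_pos (norm_pos_iff.2 (BP_tau_ne h4)) m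
        by_contra h
        push Not at h
        have := mul_neg_of_neg_of_pos h h6
        linarith only [h5, this, norm_nonneg (ev F a)]
  have e1 := BP_Bet_eq l x1 x2 hh hl h2 h1 h1' hpos' m F
  have e2 := BP_norm_pathI_le (fun s => ∑ j ∈ Finset.range (F.natDegree + 1),
        ((F.coeff j : ℝ) : ℂ) * tau s ^ ((j : ℤ) - m)) M (T ∩ BP_U) l
        (BP_PathIn_inter l hT hpos') ?_
  · have e3 := Complex.abs_im_le_norm (pathI (fun s => ∑ j ∈ Finset.range (F.natDegree + 1),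
        ((F.coeff j : ℝ) : ℂ) * tau s ^ ((j : ℤ) - m)) l)
    have e4 : |(2 * Real.pi) * Bet m F| ≤ Path_len l * M := by
      rw [e1, abs_neg]
      exact e3.trans e2
    rw [abs_mul, abs_of_pos (by positivity)] at e4
    have hpi := Real.pi_gt_three
    have hB := abs_nonneg (Bet m F)
    have h7 : |Bet m F| ≤ 2 * Real.pi * |Bet m F| := by nlinarith only [hB, hpi]
    linarith
  · intro s hs
    have h0 := BP_tau_ne hs.2
    have h3 : ∑ j ∈ Finset.range (F.natDegree + 1), ((F.coeff j : ℝ) : ℂ) * tau s ^ ((j : ℤ) - m)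
        = ev F s * (tau s ^ m)⁻¹ := by
      unfold ev
      rw [Polynomial.aeval_eq_sum_range, Finset.sum_mul]
      apply Finset.sum_congr rfl
      intro j _
      rw [zpow_sub₀ h0, zpow_natCast, zpow_natCast, Complex.real_smul]
      rw [div_eq_mul_inv]
      ring
    simp only [h3]
    rw [norm_mul, norm_inv, norm_pow]
    rw [← div_eq_mul_inv, div_le_iff₀ (pow_pos (norm_pos_iff.2 h0) m)]
    exact hM s hs.1

end Vale.Agent.P021.Det
end

section

namespace Vale.Agent.P021.Det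

theorem BT_seg {u v : ℂ} (h1 : 0 ≤ u.im) (h2 : 0 ≤ v.im) (h3 : -5 < u.re) (h4 : -5 < v.re)
    (h : (5 < u.re ∧ 5 < v.re) ∨ (0 < u.im ∧ 0 < v.im) ∨ (u.re < 5 ∧ v.re < 5)) :
    segment ℝ u v ⊆ {s : ℂ | 0 ≤ s.im ∧ s ≠ 5 ∧ s ≠ -5} := by
  rintro s ⟨a, b, ha, hb, hab, rfl⟩
  have hre : (a • u + b • v).re = a * u.re + b * v.re := by simp
  have him : (a • u + b • v).im = a * u.im + b * v.im := by simp
  have key : ∀ x y c : ℝ, c < x → c < y → c < a * x + b * y := by
    intro x y c hx hy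
    have : a = 1 - b := by linarith only [hab]
    subst this
    rcases hb.eq_or_lt with hb0 | hb0
    · subst hb0; linarith
    · nlinarith only [hx, ha, hy, hb0]
  refine ⟨?_, ?_, ?_⟩
  · rw [him]; (clear * - ha h1 hb h2; positivity)
  · intro h5
    have e1 := congrArg Complex.re h5
    have e2 := congrArg Complex.im h5
    rw [hre] at e1
    rw [him] at e2
    have e3 : ((5 : ℂ)).re = 5 := rfl
    have e4 : ((5 : ℂ)).im = 0 := rfl
    rw [e3] at e1
    rw [e4] at e2
    rcases h with ⟨p, q⟩ | ⟨p, q⟩ | ⟨p, q⟩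
    · have := key _ _ _ p q; linarith only [e1, this]
    · have := key _ _ _ p q; linarith only [e2, this]
    · have := key (-u.re) (-v.re) (-5) (by linarith only [p]) (by linarith only [q]); linarith only [e1, this]
  · intro h5
    have e1 := congrArg Complex.re h5
    rw [hre] at e1
    have e3 : (-(5 : ℂ)).re = -5 := rfl
    rw [e3] at e1
    have := key _ _ _ h3 h4
    linarith only [e1, this]

theorem betBound_T1 : BetBound T1 := by
  refine betBound_polygon l2 (-2) (17 / 2) ?_ ?_ (by norm_num) (by norm_num) (by norm_num) T1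
    l2_path ⟨?_, ?_, ?_, trivial⟩
  · simp only [l2, pnt10, Int.cast_ofNat, Complex.ofReal_div, Complex.ofReal_ofNat, Complex.ofReal_pow, Int.cast_zero, zero_div, Complex.ofReal_zero, zero_mul, add_zero, Int.reduceNeg, Int.cast_neg, Complex.ofReal_neg, List.head?_cons, Option.some.injEq]
    norm_num
  · simp only [l2, pnt10, Int.cast_ofNat, Complex.ofReal_div, Complex.ofReal_ofNat, Complex.ofReal_pow, Int.cast_zero, zero_div, Complex.ofReal_zero, zero_mul, add_zero, Int.reduceNeg, Int.cast_neg, Complex.ofReal_neg, List.getLast?_cons_cons, List.getLast?_singleton, Option.some.injEq]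
    norm_num
  · refine BT_seg ?_ ?_ ?_ ?_ (Or.inl ⟨?_, ?_⟩) <;> simp [pnt10] <;> norm_num
  · refine BT_seg ?_ ?_ ?_ ?_ (Or.inr (Or.inl ⟨?_, ?_⟩)) <;> simp [pnt10] <;> norm_num
  · refine BT_seg ?_ ?_ ?_ ?_ (Or.inr (Or.inr ⟨?_, ?_⟩)) <;> simp [pnt10] <;> norm_num

end Vale.Agent.P021.Det
end
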